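import Crest.Agent.R141.ATXi

/-!
# Row 141: the abstract decoupling theorem
-/

set_option autoImplicit false

namespace Crest.Agent.R141

open Finset Crest.ProbabilityR.Diluted
open scoped BigOperators

theorem abstract_thm {W K : Type} [Fintype W] [Nonempty W] [Fintype K] [DecidableEq K]
    (w : W → (K → Bool) → ℝ) (g : W → ℝ) {ε : ℝ} (hε : 0 < ε) :
    ∃ (r : ℕ) (C : ℝ) (Ψ : (M : ℕ) → ((Fin M → Bool) → ℝ) → ℝ), 0 ≤ C ∧
      (∀ M, LipschitzWith 1 (Ψ M)) ∧
      (∀ M, 1 ≤ M → ∀ v, |Ψ M v - Real.log (𝔼 σ, Real.exp (v σ))| ≤ C) ∧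
      (∀ M, 1 ≤ M → ∀ v : (Fin (M + 1) → Bool) → ℝ,
        |Ψ (M + 1) v - Ψ M fun σ => Real.log (𝔼 b : Bool, Real.exp (v (Fin.snoc σ b)))| ≤
          C / (M + 1)) ∧
      ∀ (M : ℕ) [NeZero M] (v : (Fin M → Bool) → ℝ),
        ∃ (R : ℕ → Setoid (Fin M)) (hR : ∀ j a b, R (j + 1) a b → R j a b) (s : Fin M → Bool),
          ∑ d, g d * (Trial.part r R hR s).val (Expo.unif r) (w d) ≤
            ∑ d, g d * (𝔼 lab : K → Fin M,
              (Ψ M (fun σ => v σ + w d fun k => σ (lab k)) - Ψ M v)) + ε := by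
  classical
  set C₀ : ℝ := 1 + ∑ d, ∑ x, |w d x| with hC₀
  have hC : 1 ≤ C₀ := le_add_of_nonneg_right (by positivity)
  have hw : ∀ d x, |w d x| ≤ C₀ := fun d x => by
    have h1 : |w d x| ≤ ∑ x, |w d x| :=
      single_le_sum (f := fun x => |w d x|) (fun _ _ => abs_nonneg _) (mem_univ x)
    have h2 : ∑ x, |w d x| ≤ ∑ d, ∑ x, |w d x| :=
      single_le_sum (f := fun d => ∑ x, |w d x|) (fun _ _ => by positivity) (mem_univ d)
    linarith
  obtain ⟨A, hA, hgron⟩ := gron_sys hC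
  set Gs : ℝ := 1 + ∑ d, |g d| with hGs
  have hGs0 : 0 < Gs := by positivity
  set a : ℝ := ε / Gs / (4 * (A + 1)) with ha
  have ha0 : 0 < a := by positivity
  obtain ⟨n, hn⟩ := exists_nat_ge (max C₀ (1 / a))
  have hnC : C₀ ≤ n := (le_max_left _ _).trans hn
  have hn0 : (0 : ℝ) < n := by linarith
  have hn1 : 1 ≤ n := by exact_mod_cast hn0
  have hna : 1 / (n : ℝ) ≤ a := by
    have := (le_max_right _ _).trans hn
    rw [div_le_iff₀ ha0] at this
    rw [div_le_iff₀ hn0]; linarith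
  set c₁ : ℝ := 4 * C₀ * Real.exp (2 * C₀) * (Fintype.card W * n) with hc₁
  have hc₁0 : 0 ≤ c₁ := by positivity
  set c₂ : ℝ := Real.exp (2 * C₀) * (2 * C₀) with hc₂
  have hc₂0 : 0 ≤ c₂ := by positivity
  set s : ℝ := a / (4 * (c₁ + 1)) with hs
  have hs0 : 0 < s := by positivity
  obtain ⟨r, hr⟩ := exists_nat_ge ((c₁ / s + c₂) / (a / 4))
  set e := Expo.unif r with he
  obtain ⟨κ, hκ, hlln⟩ := tree_lln e C₀ (θ := a / n) (by positivity)
  obtain ⟨τ, c, hτ, hxi⟩ := xi₁_bound e hC hw hn1 κ ha0 (half_pos ha0)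
  set C' : ℝ := c * (C₀ + 1 + r * τ) with hC'
  have hC'0 : 0 ≤ C' := by positivity
  refine ⟨r, C' + 2 * C' * (c * Fintype.card K), fun M => Psi e w C₀ τ n c M, by positivity,
    fun M => Psi_lip e w C₀ τ n c M, fun M hM v => ?_, fun M hM v => ?_, fun M _ v => ?_⟩
  · refine (abs_Psi_sub_le e hC hw hτ.le hn1 c hM v).trans (le_add_of_nonneg_right (by positivity))
  · refine (abs_Psi_succ_sub_le e hC hw hτ.le hn1 c hM v).trans ?_
    exact div_le_div_of_nonneg_right (le_add_of_nonneg_left hC'0) (by positivity)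
  obtain ⟨B, Vp, hV0, hV1, hV⟩ := hxi v
  have : Nonempty (Fin n) := ⟨⟨0, hn1⟩⟩
  set Ξb : ℕ → ℝ := fun p => if p < r then c₁ * Real.sqrt (Vp p) + a / 2 else c₂ with hΞb
  have hΞ0 : ∀ p, 0 ≤ Ξb p := fun p => by simp only [hΞb]; split_ifs <;> positivity
  have hsum : ∑ p ∈ range (r + 1), e.d p * Ξb p ≤ a := by
    have hr1 : (0 : ℝ) < r + 1 := by positivity
    simp only [he, Expo.unif_d, ← Finset.mul_sum]
    rw [sum_range_succ]
    have h1 : ∑ p ∈ range r, Ξb p ≤ ∑ p ∈ range r, (c₁ * (s + Vp p / s) + a / 2) := by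
      refine sum_le_sum fun p hp => ?_
      simp only [hΞb, if_pos (mem_range.1 hp)]
      have h2 : Real.sqrt (Vp p) ≤ s + Vp p / s := by
        have h3 := Real.sq_sqrt (hV0 p)
        have h4 : Vp p / s * s = Vp p := by field_simp
        have h5 : 0 ≤ Vp p / s := div_nonneg (hV0 p) hs0.le
        by_contra h6
        push Not at h6
        nlinarith [Real.sqrt_nonneg (Vp p), sq_nonneg (Real.sqrt (Vp p) - s)]
      gcongr
    have h2 : ∑ p ∈ range r, (c₁ * (s + Vp p / s) + a / 2) =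
        r * (c₁ * s + a / 2) + c₁ / s * ∑ p ∈ range r, Vp p := by
      rw [Finset.mul_sum, ← nsmul_eq_mul, ← card_range r, ← sum_const, card_range,
        ← sum_add_distrib]
      exact sum_congr rfl fun p _ => by ring
    have h3 : c₁ / s * ∑ p ∈ range r, Vp p ≤ c₁ / s :=
      mul_le_of_le_one_right (by positivity) hV1
    have h4 : c₁ * s ≤ a / 4 := by
      have : (c₁ + 1) * s = a / 4 := by rw [hs]; field_simp
      nlinarith
    have h5 : Ξb r = c₂ := by simp [hΞb]
    rw [div_le_iff₀ (by positivity)] at hr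
    rw [h5, one_div, inv_mul_le_iff₀ hr1]
    have h6 : (r : ℝ) * (c₁ * s + a / 2) ≤ r * (a / 4 + a / 2) := by gcongr
    nlinarith
  have hd : ∀ d, |(𝔼 lab : K → Fin M, (Psi e w C₀ τ n c M (fun σ => v σ + w d fun k => σ (lab k)) -
      Psi e w C₀ τ n c M v)) -
      (strLaw (fun ξ : Fin c → Gd W K (Fin M) n => sys e w C₀ τ v ξ) sig root κ B).E fun x =>
        (Trial.part r (colRel x.2.2 fun _ => True) (colRel_refine _ _) (sig x.2.1)).val e (w d)| ≤
      ε / Gs := by
    intro d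
    have h1 := hgron e (fun ξ : Fin c → Gd W K (Fin M) n => sys e w C₀ τ v ξ) sig root κ B n (w d)
      a (a / n) Ξb hκ (hw d) hnC ha0 (by positivity) hΞ0
      (fun S v hv d hd z => hlln S sig v hv d hd z) (fun i hi p => by
        by_cases hp : (p : ℕ) < r
        · simp only [hΞb, if_pos hp]
          exact hV p hp d i hi
        · simp only [hΞb, if_neg hp]
          refine Finset.expect_le univ_nonempty fun ξ _ =>
            Finset.expect_le univ_nonempty fun lab _ => (le_abs_self _).trans ?_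
          refine Kern.abs_ex_le _ _ (fun γ => FinLaw.abs_E_le _ fun Sl => ?_) _
          rw [abs_mul]
          exact (mul_le_of_le_one_left (abs_nonneg _) (abs_clip_le _)).trans
            (abs_cen_le _ e _ hi.le (hw d) _ _ _))
    simp only [Psi_add_sub]
    rw [Finset.expect_comm]
    refine h1.trans ?_
    have h2 : (n : ℝ) * (a / n) = a := by field_simp
    have h3 : (A + 1) * (4 * a) = ε / Gs := by rw [ha]; field_simp
    rw [h2]
    calc A * (∑ p ∈ range (r + 1), e.d p * Ξb p + a + a + 1 / n) ≤ A * (4 * a) :=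
          mul_le_mul_of_nonneg_left (by linarith) hA
      _ ≤ ε / Gs := by nlinarith
  obtain ⟨x, hx⟩ := (strLaw (fun ξ : Fin c → Gd W K (Fin M) n => sys e w C₀ τ v ξ) sig root κ
    B).exists_le_E fun x => ∑ d, g d *
      (Trial.part r (colRel x.2.2 fun _ => True) (colRel_refine _ _) (sig x.2.1)).val e (w d)
  refine ⟨_, colRel_refine x.2.2 fun _ => True, sig x.2.1, hx.trans ?_⟩
  rw [FinLaw.E_sum]
  have h4 : ∑ d, |g d| * (ε / Gs) ≤ ε := by
    rw [← Finset.sum_mul]
    have : Gs * (ε / Gs) = ε := by field_simp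
    have h5 : 0 ≤ ε / Gs := by positivity
    nlinarith
  refine le_trans ?_ (add_le_add_right h4 _)
  rw [← sum_add_distrib]
  refine sum_le_sum fun d _ => ?_
  rw [FinLaw.E_smul, ← sub_le_iff_le_add', ← mul_sub]
  refine (le_abs_self _).trans ?_
  rw [abs_mul, abs_sub_comm]
  exact mul_le_mul_of_nonneg_left (hd d) (abs_nonneg _)

end Crest.Agent.R141
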