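import Crest.Agent.R141.Poisson
import Crest.Agent.R141.AT

/-!
# Row 141: the abstract theorem applied to site and edge weights

`cavity_step`: for every base energy `v` on `M` sites, (Poisson average of the site increments) minus
(Poisson average of the edge increments) is at least `I - log 2 - ε`.

Recipe. Let `C₁` bound `|θ d s|` and `|h x|`. Choose `k₀` with `poi_tail` (for `α p` and `α (p-1)`). Types
`W = Bool × Fin (k₀+1) × H × (Fin k₀ → D)`, labels `K = Fin k₀ × Fin p`; for `(true, k, x, ds)` the weight is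
`siteW (h x) (θ ∘ ds ∘ castLE)` of the labels `(castLE j, castLE l)`, `j < k`, `l < p - 1`, with coefficient
`Poi(αp, k) πh x ∏ πd (ds j)`; for `(false, k, x, ds)` it is `∑_{j<k} θ (ds j) (s (j, ·))` with coefficient
`-Poi(α(p-1), k) πh x ∏ πd (ds j)`. Apply `abstract_thm` (`W` is nonempty since the laws have total mass `1`).
Trial side: `val` of a weight depending on a sub-family of labels is `val` on the sub-family (`hom_restrict`,
`pi_E_restrict`), `val` of a sum over disjoint label sets is the sum (`lp_pi_sum`), so the edge part is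
`∑_{k ≤ k₀} Poi k * k * E val θ`; `hasSum_poi_mul`, tails by `|val w| ≤ sup |w|` (`abs_lp_le`). System side:
restrict `ds` and `lab` (`pi_E_restrict`, `pi_unif_E`, `pi_E_curry`, `pi_E_prod_law`), `shiftOp_iterate`, tails by
Lipschitz continuity of `Ψ M`.
-/

set_option autoImplicit false

namespace Crest.Agent.R141

open Finset Crest.ProbabilityR.Diluted
open scoped BigOperators

variable {p : ℕ} {D H : Type} [Fintype D] [Fintype H]

/-- Energy of a clause on `M` sites. -/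
def clauseEn (X : Dis p D H) (M : ℕ) (c : D × (Fin p → Fin M)) : (Fin M → Bool) → ℝ :=
  fun σ => X.θ c.1 fun l => σ (c.2 l)

/-- Law of a clause on `M` sites. -/
noncomputable def clauseLaw (X : Dis p D H) (M : ℕ) [NeZero M] : FinLaw (D × (Fin p → Fin M)) :=
  X.πd.prod (FinLaw.unif _)

/-- Poisson average of `Ψ` after adding a cavity site to the energy `v`. -/
noncomputable def siteAvg (X : Dis p D H) (lam : ℝ) {M : ℕ} (Ψ : ((Fin M → Bool) → ℝ) → ℝ)
    (v : (Fin M → Bool) → ℝ) : ℝ :=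
  ∑' k : ℕ, poissonWeight lam k * (FinLaw.pi fun _ : Fin k => X.πd).E fun ds => X.πh.E fun x =>
    𝔼 lab : Fin k × Fin (p - 1) → Fin M,
      Ψ fun σ => v σ + siteW (X.h x) (fun j => X.θ (ds j)) fun a => σ (lab a)

/-- An evaluation of log-weights of labelled spins, compatible with restriction of the labels. -/
structure CavEv where
  V : (L : Type) → [Fintype L] → [DecidableEq L] → ((L → Bool) → ℝ) → ℝ
  restrict : ∀ (L L' : Type) [Fintype L] [DecidableEq L] [Fintype L'] [DecidableEq L'] (ι : L' → L),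
    Function.Injective ι → ∀ w : (L' → Bool) → ℝ, V L (fun s => w fun l => s (ι l)) = V L' w
  bound : ∀ (L : Type) [Fintype L] [DecidableEq L] (w : (L → Bool) → ℝ) (a : ℝ),
    (∀ s, |w s| ≤ a) → |V L w| ≤ a

/-- The evaluation by a trial. -/
noncomputable def CavEv.trial {r : ℕ} {Ω : Type} [Fintype Ω] (ζ : Trial r Ω) (e : Expo r) :
    CavEv where
  V _ _ _ w := ζ.val e w
  restrict L L' _ _ _ _ ι hι w := by
    unfold Trial.val
    rw [← FinLaw.pi_E_restrict (fun _ : L => ζ.ν) ι hι]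
    congr 1
    funext z
    exact (Kern.hom_restrict (r := r) (fun _ : L => ζ.S.toKern) ι hι).lp e
      (fun ω => w fun l => ζ.s (ω l)) 0 z
  bound _ _ _ _ _ h := FinLaw.abs_E_le _ fun _ => Kern.abs_lp_le _ _ (fun _ => h _) _ _

/-- The evaluation by the increments of a Lipschitz functional on `M` sites. -/
noncomputable def CavEv.sys {M : ℕ} [NeZero M] (Ψ : ((Fin M → Bool) → ℝ) → ℝ)
    (hΨ : LipschitzWith 1 Ψ) (v : (Fin M → Bool) → ℝ) : CavEv where
  V L _ _ w := (FinLaw.pi fun _ : L => FinLaw.unif (Fin M)).E fun lab =>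
    Ψ (fun σ => v σ + w fun k => σ (lab k)) - Ψ v
  restrict L L' _ _ _ _ ι hι w :=
    FinLaw.pi_E_restrict (fun _ : L => FinLaw.unif (Fin M)) ι hι fun lab =>
      Ψ (fun σ => v σ + w fun k => σ (lab k)) - Ψ v
  bound L _ _ w a h := by
    refine FinLaw.abs_E_le _ fun lab => ?_
    have h1 := hΨ.dist_le_mul (fun σ => v σ + w fun k => σ (lab k)) v
    rw [Real.dist_eq, NNReal.coe_one, one_mul] at h1
    refine h1.trans ((dist_pi_le_iff ((abs_nonneg _).trans (h fun _ => true))).2 fun σ => ?_)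
    rw [Real.dist_eq, add_sub_cancel_left]
    exact h _

/-- Log-weight of `k` edges. -/
noncomputable def edgeW {k : ℕ} (θs : Fin k → Inter p) (s : Fin k × Fin p → Bool) : ℝ :=
  ∑ j, θs j fun l => s (j, l)

/-- Mean evaluation of a site with `k` interactions. -/
noncomputable def CavEv.site (Y : CavEv) (X : Dis p D H) (k : ℕ) : ℝ :=
  (FinLaw.pi fun _ : Fin k => X.πd).E fun ds => X.πh.E fun x =>
    Y.V (Fin k × Fin (p - 1)) (siteW (X.h x) fun j => X.θ (ds j))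

/-- Mean evaluation of `k` edges. -/
noncomputable def CavEv.edge (Y : CavEv) (X : Dis p D H) (k : ℕ) : ℝ :=
  (FinLaw.pi fun _ : Fin k => X.πd).E fun ds => Y.V (Fin k × Fin p) (edgeW fun j => X.θ (ds j))

theorem cav_abs_sum_le {k : ℕ} {f : Fin k → ℝ} {C : ℝ} (hf : ∀ j, |f j| ≤ C) :
    |∑ j, f j| ≤ C * k := by
  refine (abs_sum_le_sum_abs _ _).trans ((sum_le_sum fun j _ => hf j).trans ?_)
  simp [mul_comm]

theorem cav_abs_siteW_le {k : ℕ} {h : ℝ} {θs : Fin k → Inter p} {C : ℝ} (hh : |h| ≤ C)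
    (hθ : ∀ j s, |θs j s| ≤ C) (s : Fin k × Fin (p - 1) → Bool) :
    |siteW h θs s| ≤ C * (k + 1) := by
  have key : ∀ ε : Bool,
      |h * spinVal ε + ∑ j : Fin k, θs j (lastLeg (fun l => s (j, l)) ε)| ≤ C * (k + 1) := by
    intro ε
    have h1 : |h * spinVal ε| ≤ C := by
      rw [abs_mul]
      cases ε <;> simpa [spinVal] using hh
    have h2 := cav_abs_sum_le fun j => hθ j (lastLeg (fun l => s (j, l)) ε)
    have := abs_add_le (h * spinVal ε) (∑ j : Fin k, θs j (lastLeg (fun l => s (j, l)) ε))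
    linarith
  unfold siteW
  rw [Fintype.sum_bool]
  have a1 := Real.exp_le_exp.2 (abs_le.1 (key true)).1
  have a2 := Real.exp_le_exp.2 (abs_le.1 (key true)).2
  have b1 := Real.exp_le_exp.2 (abs_le.1 (key false)).1
  have b2 := Real.exp_le_exp.2 (abs_le.1 (key false)).2
  have c := Real.exp_pos (-(C * (k + 1)))
  rw [abs_le]
  constructor
  · rw [Real.le_log_iff_exp_le (by linarith)]
    linarith
  · rw [Real.log_le_iff_le_exp (by linarith)]
    linarith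

theorem CavEv.abs_site_le (Y : CavEv) (X : Dis p D H) {C : ℝ} (hh : ∀ x, |X.h x| ≤ C)
    (hθ : ∀ d s, |X.θ d s| ≤ C) (k : ℕ) : |Y.site X k| ≤ C * (k + 1) :=
  FinLaw.abs_E_le _ fun _ => FinLaw.abs_E_le _ fun x =>
    Y.bound _ _ _ fun s => cav_abs_siteW_le (hh x) (fun _ _ => hθ _ _) s

theorem CavEv.abs_edge_le (Y : CavEv) (X : Dis p D H) {C : ℝ} (hC : 0 ≤ C)
    (hθ : ∀ d s, |X.θ d s| ≤ C) (k : ℕ) : |Y.edge X k| ≤ C * (k + 1) :=
  FinLaw.abs_E_le _ fun _ => Y.bound _ _ _ fun _ =>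
    (cav_abs_sum_le fun _ => hθ _ _).trans (by linarith)

/-- Types of weights with at most `k₀` interactions. -/
abbrev CavW (D H : Type) (k₀ : ℕ) : Type :=
  (Σ k : Fin (k₀ + 1), (Fin k → D) × H) ⊕ (Σ k : Fin (k₀ + 1), Fin k → D)

/-- Embedding of the labels. -/
def cavEmb {k₀ q : ℕ} (hq : q ≤ p) (k : Fin (k₀ + 1)) (a : Fin k × Fin q) : Fin k₀ × Fin p :=
  (Fin.castLE (Nat.lt_succ_iff.1 k.2) a.1, Fin.castLE hq a.2)

theorem cavEmb_inj {k₀ q : ℕ} (hq : q ≤ p) (k : Fin (k₀ + 1)) :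
    Function.Injective (cavEmb hq k) := fun _ _ h =>
  Prod.ext (Fin.castLE_injective (Nat.lt_succ_iff.1 k.2) (Prod.ext_iff.1 h).1)
    (Fin.castLE_injective hq (Prod.ext_iff.1 h).2)

/-- The weights. -/
noncomputable def cavW (X : Dis p D H) (k₀ : ℕ) :
    CavW D H k₀ → (Fin k₀ × Fin p → Bool) → ℝ
  | Sum.inl a => fun s => siteW (X.h a.2.2) (fun j => X.θ (a.2.1 j))
      fun l => s (cavEmb (Nat.sub_le p 1) a.1 l)
  | Sum.inr a => fun s => edgeW (fun j => X.θ (a.2 j)) fun l => s (cavEmb le_rfl a.1 l)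

/-- The coefficients. -/
noncomputable def cavG (X : Dis p D H) (k₀ : ℕ) (l₁ l₂ : ℝ) : CavW D H k₀ → ℝ
  | Sum.inl a => poissonWeight l₁ a.1 *
      ((FinLaw.pi fun _ : Fin a.1 => X.πd).w a.2.1 * X.πh.w a.2.2)
  | Sum.inr a => -(poissonWeight l₂ a.1 * (FinLaw.pi fun _ : Fin a.1 => X.πd).w a.2)

theorem CavEv.sum_eq (Y : CavEv) (X : Dis p D H) (k₀ : ℕ) (l₁ l₂ : ℝ) :
    ∑ d, cavG X k₀ l₁ l₂ d * Y.V (Fin k₀ × Fin p) (cavW X k₀ d) =
      ∑ k ∈ range (k₀ + 1), poissonWeight l₁ k * Y.site X k -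
        ∑ k ∈ range (k₀ + 1), poissonWeight l₂ k * Y.edge X k := by
  rw [Fintype.sum_sum_type, Fintype.sum_sigma, Fintype.sum_sigma, Finset.sum_range,
    Finset.sum_range, sub_eq_add_neg, ← Finset.sum_neg_distrib]
  congr 1
  · refine sum_congr rfl fun k _ => ?_
    simp only [cavG, cavW, Y.restrict _ _ _ (cavEmb_inj _ k), Fintype.sum_prod_type, CavEv.site,
      FinLaw.E, Finset.mul_sum, mul_assoc]
  · refine sum_congr rfl fun k _ => ?_
    simp only [cavG, cavW, Y.restrict _ _ _ (cavEmb_inj _ k), CavEv.edge,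
      FinLaw.E, Finset.mul_sum, mul_assoc, neg_mul, Finset.sum_neg_distrib]

theorem cav_val_edge {r : ℕ} {Ω : Type} [Fintype Ω] (ζ : Trial r Ω) (e : Expo r) {k : ℕ}
    (θs : Fin k → Inter p) : ζ.val e (edgeW θs) = ∑ j, ζ.val e (θs j) := by
  have h1 : ∀ j, ζ.val e (θs j) =
      ζ.val e fun s : Fin k × Fin p → Bool => θs j fun l => s (j, l) := fun j =>
    ((CavEv.trial ζ e).restrict (Fin k × Fin p) (Fin p) (fun l => (j, l))
      (fun _ _ h => (Prod.ext_iff.1 h).2) (θs j)).symm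
  simp only [h1]
  unfold Trial.val
  rw [← FinLaw.E_sum]
  congr 1
  funext z
  exact Kern.lp_pi_sum (fun _ : Fin k × Fin p => ζ.S.toKern) e univ (fun j => {a | a.1 = j})
    (fun a _ b _ hab => Set.disjoint_left.2 fun x hx hx' => hab (hx.symm.trans hx'))
    (fun j ω => θs j fun l => ζ.s (ω (j, l)))
    (fun j _ x y hxy => by
      simp only
      congr 1
      funext l
      rw [hxy (j, l) rfl]) 0 z

theorem cav_trial_eq (X : Dis p D H) (α : ℝ) {r : ℕ} {Ω : Type} [Fintype Ω] (ζ : Trial r Ω)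
    (e : Expo r) :
    (∑' k, poissonWeight (α * p) k * (CavEv.trial ζ e).site X k) -
      ∑' k, poissonWeight (α * (p - 1 : ℝ)) k * (CavEv.trial ζ e).edge X k =
      X.P α e ζ - Real.log 2 := by
  have h1 : ∀ k, (CavEv.trial ζ e).edge X k = k * X.πd.E fun d => ζ.val e (X.θ d) := by
    intro k
    unfold CavEv.edge
    show (FinLaw.pi fun _ : Fin k => X.πd).E (fun ds => ζ.val e (edgeW fun j => X.θ (ds j))) = _
    simp only [cav_val_edge]
    rw [FinLaw.E_sum]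
    simp only [FinLaw.pi_E_eval (fun _ : Fin k => X.πd) _ fun d => ζ.val e (X.θ d)]
    simp
  simp only [h1, ← mul_assoc]
  rw [tsum_mul_right, (hasSum_poi_mul _).tsum_eq]
  unfold Dis.P Dis.cav
  show (∑' k, poissonWeight (α * p) k * (FinLaw.pi fun _ : Fin k => X.πd).E fun ds =>
    X.πh.E fun x => ζ.val e (siteW (X.h x) fun j => X.θ (ds j))) - _ = _
  ring

theorem cav_tsum_add_const {lam : ℝ} (h : 0 ≤ lam) {a : ℕ → ℝ} {C : ℝ}
    (ha : ∀ n, |a n| ≤ C * (n + 1)) (c : ℝ) :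
    ∑' n, poissonWeight lam n * (a n + c) = (∑' n, poissonWeight lam n * a n) + c := by
  simp only [mul_add]
  rw [(summable_poi_mul h ha).tsum_add ((hasSum_poi lam).summable.mul_right c), tsum_poi_const]

theorem cav_sys_site (X : Dis p D H) {lam : ℝ} (h : 0 ≤ lam) {C : ℝ} (hh : ∀ x, |X.h x| ≤ C)
    (hθ : ∀ d s, |X.θ d s| ≤ C) {M : ℕ} [NeZero M] (Ψ : ((Fin M → Bool) → ℝ) → ℝ)
    (hΨ : LipschitzWith 1 Ψ) (v : (Fin M → Bool) → ℝ) :
    siteAvg X lam Ψ v = (∑' k, poissonWeight lam k * (CavEv.sys Ψ hΨ v).site X k) + Ψ v := by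
  rw [← cav_tsum_add_const h ((CavEv.sys Ψ hΨ v).abs_site_le X hh hθ)]
  unfold siteAvg
  congr 1
  funext k
  congr 1
  simp only [CavEv.site, CavEv.sys, FinLaw.E_sub, FinLaw.E_const, FinLaw.pi_unif_E,
    sub_add_cancel]

theorem cav_sys_edge (X : Dis p D H) {lam : ℝ} (h : 0 ≤ lam) {C : ℝ} (hC : 0 ≤ C)
    (hθ : ∀ d s, |X.θ d s| ≤ C) {M : ℕ} [NeZero M] (Ψ : ((Fin M → Bool) → ℝ) → ℝ)
    (hΨ : LipschitzWith 1 Ψ) (v : (Fin M → Bool) → ℝ) :
    poisOp lam (clauseLaw X M) (clauseEn X M) Ψ v =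
      (∑' k, poissonWeight lam k * (CavEv.sys Ψ hΨ v).edge X k) + Ψ v := by
  rw [← cav_tsum_add_const h ((CavEv.sys Ψ hΨ v).abs_edge_le X hC hθ)]
  unfold poisOp
  congr 1
  funext k
  congr 1
  have hu : (FinLaw.pi fun _ : Fin p => FinLaw.unif (Fin M)) = FinLaw.unif (Fin p → Fin M) :=
    FinLaw.ext_E fun f => by rw [FinLaw.pi_unif_E, FinLaw.unif_E]
  rw [shiftOp_iterate]
  unfold clauseLaw
  rw [FinLaw.pi_E_prod_law]
  simp only [CavEv.edge, CavEv.sys, FinLaw.E_sub, FinLaw.E_const, sub_add_cancel]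
  congr 1
  funext ds
  rw [FinLaw.pi_E_curry]
  simp only [hu]
  congr 1
  funext idx
  congr 1
  funext σ
  simp [edgeW, clauseEn, Finset.sum_apply]

theorem cavity_step (hp : 1 ≤ p) (X : Dis p D H) {α : ℝ} (hα : 0 ≤ α) {I : ℝ}
    (hI : ∀ (r n : ℕ) [NeZero n] (R : ℕ → Setoid (Fin n))
      (hR : ∀ j a b, R (j + 1) a b → R j a b) (s : Fin n → Bool),
      I ≤ X.P α (Expo.unif r) (Trial.part r R hR s)) {ε : ℝ} (hε : 0 < ε) :
    ∃ (C : ℝ) (Ψ : (M : ℕ) → ((Fin M → Bool) → ℝ) → ℝ), 0 ≤ C ∧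
      (∀ M, LipschitzWith 1 (Ψ M)) ∧
      (∀ M, 1 ≤ M → ∀ v, |Ψ M v - Real.log (𝔼 σ, Real.exp (v σ))| ≤ C) ∧
      (∀ M, 1 ≤ M → ∀ v : (Fin (M + 1) → Bool) → ℝ,
        |Ψ (M + 1) v - Ψ M fun σ => Real.log (𝔼 b : Bool, Real.exp (v (Fin.snoc σ b)))| ≤
          C / (M + 1)) ∧
      ∀ (M : ℕ) [NeZero M] (v : (Fin M → Bool) → ℝ),
        I - Real.log 2 - ε ≤ siteAvg X (α * p) (Ψ M) v -
          poisOp (α * (p - 1 : ℝ)) (clauseLaw X M) (clauseEn X M) (Ψ M) v := by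
  set C₁ : ℝ := (∑ x, |X.h x|) + ∑ d, ∑ s, |X.θ d s| with hC₁
  have hC₁0 : 0 ≤ C₁ := by positivity
  have hh : ∀ x, |X.h x| ≤ C₁ := fun x =>
    (single_le_sum (f := fun x => |X.h x|) (fun _ _ => abs_nonneg _) (mem_univ x)).trans
      (le_add_of_nonneg_right (by positivity))
  have hθ : ∀ d s, |X.θ d s| ≤ C₁ := fun d s => by
    have h1 : |X.θ d s| ≤ ∑ s, |X.θ d s| :=
      single_le_sum (f := fun s => |X.θ d s|) (fun _ _ => abs_nonneg _) (mem_univ s)
    have h2 : ∑ s, |X.θ d s| ≤ ∑ d, ∑ s, |X.θ d s| :=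
      single_le_sum (f := fun d => ∑ s, |X.θ d s|) (fun _ _ => by positivity) (mem_univ d)
    exact (h1.trans h2).trans (le_add_of_nonneg_left (by positivity))
  have hl₁ : 0 ≤ α * p := by positivity
  have hl₂ : 0 ≤ α * (p - 1 : ℝ) := mul_nonneg hα (sub_nonneg.2 (by exact_mod_cast hp))
  have hε5 : 0 < ε / 5 := by positivity
  obtain ⟨k₁, hk₁⟩ := poi_tail hl₁ C₁ hε5
  obtain ⟨k₂, hk₂⟩ := poi_tail hl₂ C₁ hε5
  set k₀ := max k₁ k₂
  have : Nonempty (CavW D H k₀) := ⟨Sum.inr ⟨0, fun j => j.elim0⟩⟩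
  obtain ⟨r, C, Ψ, hC, hlip, h₁, h₂, h₃⟩ :=
    abstract_thm (cavW X k₀) (cavG X k₀ (α * p) (α * (p - 1 : ℝ))) hε5
  refine ⟨C, Ψ, hC, hlip, h₁, h₂, fun M _ v => ?_⟩
  obtain ⟨R, hR, s, hs⟩ := h₃ M v
  have e1 := (CavEv.trial (Trial.part r R hR s) (Expo.unif r)).sum_eq X k₀ (α * p) (α * (p - 1 : ℝ))
  have e2 := (CavEv.sys (Ψ M) (hlip M) v).sum_eq X k₀ (α * p) (α * (p - 1 : ℝ))
  simp only [← FinLaw.pi_unif_E] at hs
  have hs' := e1.symm.trans_le (hs.trans_eq (congrArg (· + ε / 5) e2))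
  have t1 := fun Y : CavEv => abs_le.1 (hk₁ k₀ (le_max_left _ _) _ (Y.abs_site_le X hh hθ))
  have t2 := fun Y : CavEv => abs_le.1 (hk₂ k₀ (le_max_right _ _) _ (Y.abs_edge_le X hC₁0 hθ))
  have a1 := (t1 (CavEv.trial (Trial.part r R hR s) (Expo.unif r))).2
  have a2 := (t2 (CavEv.trial (Trial.part r R hR s) (Expo.unif r))).1
  have b1 := (t1 (CavEv.sys (Ψ M) (hlip M) v)).1
  have b2 := (t2 (CavEv.sys (Ψ M) (hlip M) v)).2
  have c1 := cav_trial_eq X α (Trial.part r R hR s) (Expo.unif r)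
  have c2 := hI r M R hR s
  rw [cav_sys_site X hl₁ hh hθ (Ψ M) (hlip M), cav_sys_edge X hl₂ hC₁0 hθ (Ψ M) (hlip M)]
  linarith

end Crest.Agent.R141
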