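import Crest.Agent.R141.ASSCav

/-!
# Row 141: auxiliary lemmas for `ASSInc` (approximate superposition, splitting of a clause)
-/

set_option autoImplicit false

namespace Crest.Agent.R141

open Finset Crest.ProbabilityR.Diluted
open scoped BigOperators

section Op
variable {E : Type} [NormedAddCommGroup E] {S : Type} [Fintype S]

theorem ASSInc_abs_E_sub (μ : FinLaw S) {f g : S → ℝ} {a : ℝ} (h : ∀ s, |f s - g s| ≤ a) :
    |μ.E f - μ.E g| ≤ a := by
  rw [← FinLaw.E_sub]
  exact μ.abs_E_le h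

theorem ASSInc_lip_E (μ : FinLaw S) {f : S → E → ℝ} (hf : ∀ s, LipschitzWith 1 (f s)) :
    LipschitzWith 1 fun y => μ.E fun s => f s y := by
  refine LipschitzWith.of_dist_le_mul fun x y => ?_
  rw [Real.dist_eq]
  exact ASSInc_abs_E_sub μ fun s => by
    have := (hf s).dist_le_mul x y
    rwa [Real.dist_eq] at this

theorem ASSInc_law {lam δ : ℝ} (h : 0 ≤ lam) {S' : Type} [Fintype S'] (μ : FinLaw S) (en : S → E)
    (μ' : FinLaw S') (en' : S' → E)
    (hδ : ∀ g : E → ℝ, LipschitzWith 1 g → ∀ x, |shiftOp μ en g x - shiftOp μ' en' g x| ≤ δ)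
    {f : E → ℝ} (hf : LipschitzWith 1 f) (x : E) :
    |poisOp lam μ en f x - poisOp lam μ' en' f x| ≤ δ * lam := by
  have key : ∀ (n : ℕ) (y : E),
      |((shiftOp μ en)^[n] f) y - ((shiftOp μ' en')^[n] f) y| ≤ δ * n := by
    intro n
    induction n with
    | zero => intro y; simp
    | succ n ih =>
      intro y
      rw [Function.iterate_succ_apply', Function.iterate_succ_apply']
      have h1 : |shiftOp μ en ((shiftOp μ en)^[n] f) y -
          shiftOp μ en ((shiftOp μ' en')^[n] f) y| ≤ δ * n :=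
        ASSInc_abs_E_sub μ fun s => ih _
      have h2 := hδ _ (shiftOp_iter_lip μ' en' hf n) y
      have h3 := abs_sub_le (shiftOp μ en ((shiftOp μ en)^[n] f) y)
        (shiftOp μ en ((shiftOp μ' en')^[n] f) y) (shiftOp μ' en' ((shiftOp μ' en')^[n] f) y)
      push_cast
      linarith
  unfold poisOp
  rw [← (summable_poisOp h μ en hf x).tsum_sub (summable_poisOp h μ' en' hf x)]
  simp only [← mul_sub]
  have := abs_tsum_poi_le h (C := δ) (D := 0)
    (a := fun n => ((shiftOp μ en)^[n] f) x - ((shiftOp μ' en')^[n] f) x) fun n => by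
      simpa using key n x
  simpa using this

/-- Approximate superposition. -/
theorem ASSInc_mix {lam t δ : ℝ} (h : 0 ≤ lam) (h0 : 0 ≤ t) (h1 : t ≤ 1) {S₁ S₂ : Type}
    [Fintype S₁] [Fintype S₂] (μ : FinLaw S) (en : S → E) (μ₁ : FinLaw S₁) (en₁ : S₁ → E)
    (μ₂ : FinLaw S₂) (en₂ : S₂ → E)
    (hδ : ∀ g : E → ℝ, LipschitzWith 1 g → |μ.E (fun s => g (en s)) -
      (t * μ₁.E (fun s => g (en₁ s)) + (1 - t) * μ₂.E fun s => g (en₂ s))| ≤ δ)
    {f : E → ℝ} (hf : LipschitzWith 1 f) (x : E) :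
    |poisOp lam μ en f x - poisOp (lam * t) μ₁ en₁ (poisOp (lam * (1 - t)) μ₂ en₂ f) x| ≤
      δ * lam := by
  let ν : FinLaw (S₁ ⊕ S₂) := FinLaw.mix t h0 h1 (μ₁.map Sum.inl) (μ₂.map Sum.inr)
  have hν : ∀ g : E → ℝ, ν.E (fun s => g (Sum.elim en₁ en₂ s)) =
      t * μ₁.E (fun s => g (en₁ s)) + (1 - t) * μ₂.E fun s => g (en₂ s) := by
    intro g
    rw [FinLaw.mix_E, FinLaw.map_E, FinLaw.map_E]
    rfl
  rw [← poisOp_mix h h0 h1 ν (Sum.elim en₁ en₂) μ₁ en₁ μ₂ en₂ hν hf x]
  refine ASSInc_law h μ en ν _ (fun g hg y => ?_) hf x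
  have hg' : LipschitzWith 1 fun e => g (y + e) := by
    refine LipschitzWith.of_dist_le_mul fun a b => ?_
    have := hg.dist_le_mul (y + a) (y + b)
    rwa [dist_add_left] at this
  have h2 := hδ _ hg'
  rw [← hν fun e => g (y + e)] at h2
  exact h2

end Op

/-- A biased coin. -/
noncomputable def ASSInc_ber (s : ℝ) (h0 : 0 ≤ s) (h1 : s ≤ 1) : FinLaw Bool where
  w b := if b then s else 1 - s
  nonneg b := by cases b <;> simp [h0, h1]
  sum_one := by simp

/-- Independent coins: no success, exactly one success, or a rare event. -/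
theorem ASSInc_coins {p : ℕ} {s : ℝ} (h0 : 0 ≤ s) (h1 : s ≤ 1) :
    0 ≤ 1 - (1 - s) ^ p - p * s * (1 - s) ^ (p - 1) ∧
    ∀ (F : (Fin p → Bool) → ℝ) (K A₁ : ℝ), (∀ b, |F b| ≤ K) →
      (∀ l₀, F (fun l => decide (l = l₀)) = A₁) →
      |(FinLaw.pi fun _ : Fin p => ASSInc_ber s h0 h1).E F -
        ((1 - s) ^ p * F (fun _ => false) + p * s * (1 - s) ^ (p - 1) * A₁)| ≤
        (1 - (1 - s) ^ p - p * s * (1 - s) ^ (p - 1)) * K := by
  classical
  set μ := FinLaw.pi fun _ : Fin p => ASSInc_ber s h0 h1 with hμ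
  let e : Fin p → Fin p → Bool := fun l₀ l => decide (l = l₀)
  have he : Function.Injective e := fun a b h => by
    have := congrFun h a
    simpa [e] using this
  let T : Finset (Fin p → Bool) := insert (fun _ => false) (univ.image e)
  have hT : ∀ G : (Fin p → Bool) → ℝ, ∑ b ∈ T, G b = G (fun _ => false) + ∑ l₀, G (e l₀) := by
    intro G
    rw [Finset.sum_insert, Finset.sum_image fun a _ b _ h => he h]
    intro h
    obtain ⟨l, -, hl⟩ := Finset.mem_image.1 h
    have := congrFun hl l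
    simp [e] at this
  have w0 : μ.w (fun _ => false) = (1 - s) ^ p := by simp [hμ, FinLaw.pi, ASSInc_ber]
  have w1 : ∀ l₀, μ.w (e l₀) = s * (1 - s) ^ (p - 1) := by
    intro l₀
    change ∏ l, (if decide (l = l₀) then s else 1 - s) = _
    rw [← Finset.mul_prod_erase univ _ (mem_univ l₀),
      Finset.prod_congr rfl (g := fun _ => 1 - s) fun l hl => by
        simp [Finset.ne_of_mem_erase hl]]
    simp
  have hrest : ∑ b ∈ Tᶜ, μ.w b = 1 - (1 - s) ^ p - p * s * (1 - s) ^ (p - 1) := by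
    have h2 := Finset.sum_add_sum_compl T μ.w
    rw [μ.sum_one, hT, w0] at h2
    simp only [w1, Finset.sum_const, card_univ, Fintype.card_fin, nsmul_eq_mul] at h2
    linarith
  refine ⟨hrest ▸ Finset.sum_nonneg fun b _ => μ.nonneg b, fun F K A₁ hK hA => ?_⟩
  have h2 := Finset.sum_add_sum_compl T fun b => μ.w b * F b
  rw [hT, w0] at h2
  have h3 : ∀ l₀, F (e l₀) = A₁ := hA
  simp only [w1, h3, Finset.sum_const, card_univ, Fintype.card_fin, nsmul_eq_mul] at h2
  have h4 : μ.E F - ((1 - s) ^ p * F (fun _ => false) + p * s * (1 - s) ^ (p - 1) * A₁) =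
      ∑ b ∈ Tᶜ, μ.w b * F b := by
    unfold FinLaw.E
    rw [← h2]
    ring
  rw [h4, ← hrest, Finset.sum_mul]
  refine (Finset.abs_sum_le_sum_abs _ _).trans (Finset.sum_le_sum fun b _ => ?_)
  rw [abs_mul, abs_of_nonneg (μ.nonneg b)]
  exact mul_le_mul_of_nonneg_left (hK b) (μ.nonneg b)

theorem ASSInc_s_nonneg (M : ℕ) : (0 : ℝ) ≤ 1 / (M + 1) := by positivity

theorem ASSInc_s_le (M : ℕ) : (1 : ℝ) / (M + 1) ≤ 1 := by
  rw [div_le_one (by positivity)]
  linarith [(Nat.cast_nonneg M : (0 : ℝ) ≤ M)]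

/-- A uniform tuple of sites: first decide which legs sit on the last site. -/
theorem ASSInc_unif_split {p M : ℕ} [NeZero M] (G : (Fin p → Fin (M + 1)) → ℝ) :
    (FinLaw.unif (Fin p → Fin (M + 1))).E G =
      (FinLaw.pi fun _ : Fin p =>
        ASSInc_ber (1 / (M + 1)) (ASSInc_s_nonneg M) (ASSInc_s_le M)).E fun b =>
        (FinLaw.pi fun _ : Fin p => FinLaw.unif (Fin M)).E fun idx =>
          G fun l => if b l then Fin.last M else (idx l).castSucc := by
  rw [FinLaw.unif_E, ← FinLaw.pi_unif_E, ← FinLaw.pi_E_map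
    (fun _ : Fin p => (ASSInc_ber (1 / (M + 1)) (ASSInc_s_nonneg M) (ASSInc_s_le M)).prod
      (FinLaw.unif (Fin M))) (fun _ => FinLaw.unif (Fin (M + 1)))
    (fun _ q => if q.1 then Fin.last M else q.2.castSucc) ?_ G, FinLaw.pi_E_prod_law]
  intro _ g
  have hM : (M : ℝ) ≠ 0 := by exact_mod_cast NeZero.ne M
  rw [FinLaw.prod_E]
  simp only [FinLaw.E, FinLaw.unif, ASSInc_ber, Fintype.sum_bool, if_true, Fintype.card_fin,
    Bool.false_eq_true, if_false, Fin.sum_univ_castSucc, Finset.sum_const, card_univ,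
    nsmul_eq_mul, ← Finset.mul_sum]
  push_cast
  field_simp
  ring

end Crest.Agent.R141
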