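import Crest.Agent.R141.ASSCav
import Crest.Agent.R141.ASSIncAux

/-!
# Row 141: adding one site (Aizenman–Sims–Starr increment)

Recipe. `E' = (Fin (M+1) → Bool) → ℝ`, `L : E →+ E'`, `L v σ = v (Fin.init σ)`. Split a uniform index tuple
`Fin p → Fin (M+1)` according to the number of legs on the last site: none (probability `π₀ = (M/(M+1))^p`,
conditional law `castSucc ∘ idx`), exactly one (`π₁ = p M^(p-1)/(M+1)^p`, uniform position `l₀` and uniform other legs),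
more (`π₂ = 1 - π₀ - π₁ ≤ p²/(M+1)²`; e.g. write the uniform law on `Fin (M+1)` as a mixture and expand, or count fibres).
`poisOp_mix` twice; the third class costs `≤ α (M+1) π₂ C₁` (`abs_poisOp_sub_self_le`). By `X.Sym` the class-one shift has
the law of `σ ↦ θ d (lastLeg (fun l => σ (castSucc (lab l))) (σ (last M)))` (`poisOp_congr`); change its parameter
from `α (M+1) π₁` to `α p` (`abs_poisOp_sub_param_le`), `shiftOp_iterate`, and use the new-site property of `Ψ`: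
`log 𝔼 b, exp (v σ + h b + ∑ θ …) = v σ + siteW …`. On `M` sites `poisOp_add` with `λ₀ = α (M+1) π₀ ≤ α M` and
`|α M - λ₀ - α (p-1)| ≤ c/M`. Conclude with `poisOp_map`, `poisOp_E`, `le_poisOp_sub`, `pi_E_insertNth (Fin.last M)`
(or `Fin.snoc`) for the fields.
-/

set_option autoImplicit false

namespace Crest.Agent.R141

open Finset Crest.ProbabilityR.Diluted
open scoped BigOperators

variable {p : ℕ} {D H : Type} [Fintype D] [Fintype H]

/-- Energy of the external fields. -/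
noncomputable def fieldEn (X : Dis p D H) {M : ℕ} (hs : Fin M → H) : (Fin M → Bool) → ℝ :=
  fun σ => ∑ i, X.h (hs i) * spinVal (σ i)

/-- Disorder average of `Ψ` of the energy of the model on `M` sites. -/
noncomputable def disAvg (X : Dis p D H) (α : ℝ) (M : ℕ) [NeZero M]
    (Ψ : ((Fin M → Bool) → ℝ) → ℝ) : ℝ :=
  (FinLaw.pi fun _ : Fin M => X.πh).E fun hs =>
    poisOp (α * M) (clauseLaw X M) (clauseEn X M) Ψ (fieldEn X hs)

/-- Forget the last site. -/
def ASSInc_L (M : ℕ) : ((Fin M → Bool) → ℝ) →+ ((Fin (M + 1) → Bool) → ℝ) where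
  toFun v σ := v (Fin.init σ)
  map_zero' := rfl
  map_add' _ _ := rfl

/-- Energy of a clause whose last leg sits on the last site. -/
def ASSInc_en₁ (X : Dis p D H) (M : ℕ) (c : D × (Fin (p - 1) → Fin M)) :
    (Fin (M + 1) → Bool) → ℝ :=
  fun σ => X.θ c.1 (lastLeg (fun j => σ (c.2 j).castSucc) (σ (Fin.last M)))

/-- Law of a clause whose last leg sits on the last site. -/
noncomputable def ASSInc_law₁ (X : Dis p D H) (M : ℕ) [NeZero M] :
    FinLaw (D × (Fin (p - 1) → Fin M)) :=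
  X.πd.prod (FinLaw.pi fun _ => FinLaw.unif (Fin M))

/-- Summing out the last spin. -/
noncomputable def ASSInc_out {M : ℕ} (w : (Fin (M + 1) → Bool) → ℝ) : (Fin M → Bool) → ℝ :=
  fun σ => Real.log (𝔼 b : Bool, Real.exp (w (Fin.snoc σ b)))

theorem ASSInc_expect_bool (f : Bool → ℝ) : 𝔼 b, f b = (1 / 2) * ∑ b, f b := by
  rw [Fintype.expect_eq_sum_div_card]
  simp only [Fintype.card_bool]
  push_cast
  ring

theorem ASSInc_log_le {u v : Bool → ℝ} {c : ℝ} (h : ∀ b, u b ≤ v b + c) :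
    Real.log (𝔼 b, Real.exp (u b)) ≤ Real.log (𝔼 b, Real.exp (v b)) + c := by
  simp only [ASSInc_expect_bool, Fintype.sum_bool]
  have h1 : ∀ b, Real.exp (u b) ≤ Real.exp (v b) * Real.exp c := fun b => by
    rw [← Real.exp_add]; exact Real.exp_le_exp.2 (h b)
  rw [← Real.log_exp c, ← Real.log_mul (by positivity) (by positivity)]
  refine Real.log_le_log (by positivity) ?_
  nlinarith [h1 true, h1 false]

theorem ASSInc_out_lip (M : ℕ) : LipschitzWith 1 (ASSInc_out (M := M)) := by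
  refine LipschitzWith.of_dist_le_mul fun u v => ?_
  rw [NNReal.coe_one, one_mul, dist_pi_le_iff dist_nonneg]
  intro σ
  have h1 : ∀ τ, |u τ - v τ| ≤ dist u v := fun τ => dist_le_pi_dist u v τ
  rw [Real.dist_eq, abs_sub_le_iff]
  constructor
  · have := ASSInc_log_le (u := fun b => u (Fin.snoc σ b)) (v := fun b => v (Fin.snoc σ b))
      (c := dist u v) fun b => by linarith [(abs_le.1 (h1 (Fin.snoc σ b))).2]
    unfold ASSInc_out
    linarith
  · have := ASSInc_log_le (u := fun b => v (Fin.snoc σ b)) (v := fun b => u (Fin.snoc σ b))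
      (c := dist u v) fun b => by linarith [(abs_le.1 (h1 (Fin.snoc σ b))).1]
    unfold ASSInc_out
    linarith

theorem ASSInc_comp_lip {M : ℕ} {Ψ : ((Fin M → Bool) → ℝ) → ℝ} (hΨ : LipschitzWith 1 Ψ) :
    LipschitzWith 1 fun w : (Fin (M + 1) → Bool) → ℝ => Ψ (ASSInc_out w) := by
  have := hΨ.comp (ASSInc_out_lip M)
  rw [one_mul] at this
  exact this

theorem ASSInc_L_lip {M : ℕ} {f : ((Fin (M + 1) → Bool) → ℝ) → ℝ} (hf : LipschitzWith 1 f)
    (a : (Fin (M + 1) → Bool) → ℝ) : LipschitzWith 1 fun y => f (ASSInc_L M y + a) := by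
  refine LipschitzWith.of_dist_le_mul fun u v => (hf.dist_le_mul _ _).trans ?_
  rw [NNReal.coe_one, one_mul, one_mul, dist_add_right, dist_pi_le_iff dist_nonneg]
  exact fun σ => dist_le_pi_dist u v _

/-- The clauses attached to the last site produce the cavity-site weight. -/
theorem ASSInc_site (X : Dis p D H) {lam : ℝ} (h : 0 ≤ lam) {M : ℕ} [NeZero M]
    {Ψ : ((Fin M → Bool) → ℝ) → ℝ} (hΨ : LipschitzWith 1 Ψ) (y : (Fin M → Bool) → ℝ) :
    X.πh.E (fun x => poisOp lam (ASSInc_law₁ X M) (ASSInc_en₁ X M) (fun w => Ψ (ASSInc_out w))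
      (ASSInc_L M y + fun σ => X.h x * spinVal (σ (Fin.last M)))) = siteAvg X lam Ψ y := by
  have hl := ASSInc_comp_lip hΨ
  unfold poisOp siteAvg
  rw [E_tsum_comm X.πh _ fun x => summable_poisOp h _ _ hl _]
  refine tsum_congr fun k => ?_
  rw [FinLaw.E_smul, FinLaw.E_comm]
  congr 1
  refine congrArg X.πh.E (funext fun x => ?_)
  rw [shiftOp_iterate, ASSInc_law₁, FinLaw.pi_E_prod_law]
  refine congrArg (FinLaw.E _) (funext fun ds => ?_)
  rw [← FinLaw.pi_unif_E, FinLaw.pi_E_curry]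
  refine congrArg (FinLaw.E _) (funext fun lab => congrArg Ψ (funext fun σ => ?_))
  simp only [ASSInc_out, ASSInc_L, ASSInc_en₁, siteW, Pi.add_apply, Finset.sum_apply,
    AddMonoidHom.coe_mk, ZeroHom.coe_mk, Fin.init_snoc, Fin.snoc_castSucc, Fin.snoc_last,
    ASSInc_expect_bool, add_assoc, Real.exp_add (y σ), ← Finset.mul_sum]
  rw [mul_left_comm, Real.log_mul (by positivity), Real.log_exp]
  simp only [Fintype.sum_bool]
  positivity

/-- A clause with exactly one leg on the last site. -/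
theorem ASSInc_one (hp : 1 ≤ p) (X : Dis p D H) (hX : X.Sym) (M : ℕ) [NeZero M]
    (g : ((Fin (M + 1) → Bool) → ℝ) → ℝ) (l₀ : Fin p) :
    ((FinLaw.pi fun _ : Fin p => FinLaw.unif (Fin M)).E fun idx => X.πd.E fun d =>
      g (clauseEn X (M + 1) (d, fun l =>
        if decide (l = l₀) then Fin.last M else (idx l).castSucc))) =
      (ASSInc_law₁ X M).E fun c => g (ASSInc_en₁ X M c) := by
  let l₁ : Fin p := ⟨p - 1, by omega⟩
  let π := Equiv.swap l₁ l₀
  let ι : Fin (p - 1) → Fin p := fun j => π (Fin.castLE (Nat.sub_le p 1) j)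
  have hι : Function.Injective ι := π.injective.comp (Fin.castLE_injective _)
  rw [ASSInc_law₁, FinLaw.prod_E, FinLaw.E_comm X.πd,
    ← FinLaw.pi_E_restrict (fun _ : Fin p => FinLaw.unif (Fin M)) ι hι]
  refine congrArg (FinLaw.E _) (funext fun idx => ?_)
  have h1 := hX π fun θ => g fun σ => θ fun l =>
    σ (if decide (l = l₀) then Fin.last M else (idx l).castSucc)
  refine h1.symm.trans (congrArg X.πd.E (funext fun d => congrArg g (funext fun σ => ?_)))
  refine congrArg (X.θ d) (funext fun l => ?_)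
  have h2 : π l = l₀ ↔ l = l₁ := by
    rw [← π.injective.eq_iff (a := l)]
    simp [π]
  unfold lastLeg
  by_cases hl : l.val < p - 1
  · have h3 : π l ≠ l₀ := fun h => by
      have := congrArg Fin.val (h2.1 h)
      simp only [l₁] at this
      omega
    simp only [hl, h3, dif_pos, decide_false, Bool.false_eq_true, if_false]
    rfl
  · have h3 : π l = l₀ := h2.2 (Fin.ext (by have := l.2; simp only [l₁]; omega))
    simp [hl, h3]

/-- Splitting of a clause on `M + 1` sites. -/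
theorem ASSInc_split (hp : 1 ≤ p) (X : Dis p D H) (hX : X.Sym) {C₁ : ℝ} (hC0 : 0 ≤ C₁)
    (hC : ∀ d s, |X.θ d s| ≤ C₁) (M : ℕ) [NeZero M] {s π₁ π₂ : ℝ} (hs : s = 1 / (M + 1))
    (h₁ : π₁ = p * s * (1 - s) ^ (p - 1)) (h₂ : π₂ = 1 - (1 - s) ^ p - π₁)
    (g : ((Fin (M + 1) → Bool) → ℝ) → ℝ) (hg : LipschitzWith 1 g) :
    |(clauseLaw X (M + 1)).E (fun c => g (clauseEn X (M + 1) c)) -
      ((1 - π₁) * (clauseLaw X M).E (fun c => g (ASSInc_L M (clauseEn X M c))) +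
        (1 - (1 - π₁)) * (ASSInc_law₁ X M).E fun c => g (ASSInc_en₁ X M c))| ≤
      2 * π₂ * C₁ := by
  subst hs
  obtain ⟨hπ, hc⟩ := ASSInc_coins (p := p) (ASSInc_s_nonneg M) (ASSInc_s_le M)
  rw [← h₁] at hπ hc
  rw [← h₂] at hπ hc
  set g₀ : ((Fin (M + 1) → Bool) → ℝ) → ℝ := fun e => g e - g 0 with hg₀
  have hb : ∀ e : (Fin (M + 1) → Bool) → ℝ, (∀ σ, |e σ| ≤ C₁) → |g₀ e| ≤ C₁ := fun e he => by
    have := hg.dist_le_mul e 0
    rw [NNReal.coe_one, one_mul, Real.dist_eq, dist_zero_right] at this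
    exact this.trans ((pi_norm_le_iff_of_nonneg hC0).2 he)
  have h3 := hc (fun b => (FinLaw.pi fun _ : Fin p => FinLaw.unif (Fin M)).E fun idx =>
      X.πd.E fun d => g₀ (clauseEn X (M + 1) (d, fun l =>
        if b l then Fin.last M else (idx l).castSucc))) C₁ _
    (fun b => FinLaw.abs_E_le _ fun idx => FinLaw.abs_E_le _ fun d => hb _ fun σ => hC _ _)
    (ASSInc_one hp X hX M g₀)
  have h4 : (clauseLaw X (M + 1)).E (fun c => g₀ (clauseEn X (M + 1) c)) =
      (FinLaw.unif _).E fun idx => X.πd.E fun d => g₀ (clauseEn X (M + 1) (d, idx)) := by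
    rw [clauseLaw, FinLaw.prod_E, FinLaw.E_comm]
  rw [ASSInc_unif_split] at h4
  rw [← h4] at h3
  have h5 : (clauseLaw X M).E (fun c => g₀ (ASSInc_L M (clauseEn X M c))) =
      (FinLaw.pi fun _ : Fin p => FinLaw.unif (Fin M)).E fun idx =>
      X.πd.E fun d => g₀ (clauseEn X (M + 1) (d, fun l =>
        if (fun _ => false) l then Fin.last M else (idx l).castSucc)) := by
    rw [clauseLaw, FinLaw.prod_E, FinLaw.E_comm, FinLaw.unif_E, FinLaw.pi_unif_E]
    rfl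
  have h6 : |(clauseLaw X M).E (fun c => g₀ (ASSInc_L M (clauseEn X M c)))| ≤ C₁ :=
    FinLaw.abs_E_le _ fun c => hb _ fun σ => hC _ _
  rw [← h5] at h3
  simp only [hg₀, FinLaw.E_sub, FinLaw.E_const] at h3 h6
  have h7 : (1 - 1 / (M + 1 : ℝ)) ^ p = 1 - π₁ - π₂ := by rw [h₂]; ring
  rw [h7] at h3
  have h8 := mul_le_mul_of_nonneg_left (abs_le.1 h6).1 hπ
  have h9 := mul_le_mul_of_nonneg_left (abs_le.1 h6).2 hπ
  rw [abs_le] at h3 ⊢
  constructor <;> nlinarith [h3.1, h3.2]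

theorem ASSInc_est (hp : 1 ≤ p) {α : ℝ} (hα : 0 ≤ α) (M : ℕ) [NeZero M] {s π₁ π₂ : ℝ}
    (hs : s = 1 / (M + 1)) (h₁ : π₁ = p * s * (1 - s) ^ (p - 1))
    (h₂ : π₂ = 1 - (1 - s) ^ p - π₁) :
    0 ≤ π₁ ∧ π₁ ≤ 1 ∧ |α * (M + 1) * π₁ - α * p| ≤ α * p ^ 2 / M ∧
      π₂ * (α * (M + 1)) ≤ α * p ^ 2 / M := by
  have hs0 : 0 ≤ s := hs ▸ ASSInc_s_nonneg M
  have hs1 : s ≤ 1 := hs ▸ ASSInc_s_le M
  have hπ := (ASSInc_coins (p := p) hs0 hs1).1
  rw [← h₁] at hπ
  obtain ⟨q, rfl⟩ : ∃ q, p = q + 1 := ⟨p - 1, by omega⟩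
  have hM : (0 : ℝ) < M := by exact_mod_cast Nat.pos_of_ne_zero (NeZero.ne M)
  have hMs : (M + 1) * s = 1 := by rw [hs]; field_simp
  have hsM : s ≤ 1 / M := by rw [le_div_iff₀ hM]; nlinarith
  have hq : (0 : ℝ) ≤ q := Nat.cast_nonneg q
  rw [Nat.add_sub_cancel] at h₁
  rw [pow_succ] at h₂ hπ
  have hu0 : 0 ≤ (1 - s) ^ q := pow_nonneg (by linarith) q
  have hu1 : (1 - s) ^ q ≤ 1 := pow_le_one₀ (by linarith) (by linarith)
  have hu2 : 1 + q * (-s) ≤ (1 + -s) ^ q := one_add_mul_le_pow (by linarith) q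
  rw [← sub_eq_add_neg] at hu2
  generalize (1 - s) ^ q = u at *
  push_cast at h₁ ⊢
  have e1 : α * (q + 1) ^ 2 * s ≤ α * (q + 1) ^ 2 / M := by
    rw [div_eq_mul_one_div]
    exact mul_le_mul_of_nonneg_left hsM (by positivity)
  have hqs : 0 ≤ q * s := by positivity
  refine ⟨by rw [h₁]; positivity, by nlinarith, le_trans ?_ e1, le_trans ?_ e1⟩
  · have e2 : α * (M + 1) * π₁ - α * (q + 1) = -(α * (q + 1) * (1 - u)) := by
      rw [h₁]
      linear_combination α * (q + 1) * u * hMs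
    rw [e2, abs_neg, abs_of_nonneg (mul_nonneg (by positivity) (by linarith))]
    have e3 : 1 - u ≤ (q + 1) * s := by linarith
    calc α * (q + 1) * (1 - u) ≤ α * (q + 1) * ((q + 1) * s) :=
          mul_le_mul_of_nonneg_left e3 (by positivity)
      _ = _ := by ring
  · have e2 : π₂ ≤ (q + 1) ^ 2 * s * s := by
      have e3 : π₂ = 1 - u * (1 + q * s) := by rw [h₂, h₁]; ring
      have e4 : (1 - q * s) * (1 + q * s) ≤ u * (1 + q * s) :=
        mul_le_mul_of_nonneg_right (by linarith) (by linarith)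
      nlinarith [mul_nonneg hqs hs0, mul_nonneg hs0 hs0]
    calc π₂ * (α * (M + 1)) ≤ (q + 1) ^ 2 * s * s * (α * (M + 1)) :=
          mul_le_mul_of_nonneg_right e2 (by positivity)
      _ = α * (q + 1) ^ 2 * s * ((M + 1) * s) := by ring
      _ = _ := by rw [hMs, mul_one]

theorem disAvg_succ_sub (hp : 1 ≤ p) (X : Dis p D H) (hX : X.Sym) {α : ℝ} (hα : 0 ≤ α) (C : ℝ) :
    ∃ A : ℝ, ∀ (M : ℕ) [NeZero M] (Ψ : ((Fin M → Bool) → ℝ) → ℝ)
      (Ψ' : ((Fin (M + 1) → Bool) → ℝ) → ℝ) (J : ℝ), LipschitzWith 1 Ψ → LipschitzWith 1 Ψ' →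
      (∀ v : (Fin (M + 1) → Bool) → ℝ,
        |Ψ' v - Ψ fun σ => Real.log (𝔼 b : Bool, Real.exp (v (Fin.snoc σ b)))| ≤ C / (M + 1)) →
      (∀ v, J ≤ siteAvg X (α * p) Ψ v -
        poisOp (α * (p - 1 : ℝ)) (clauseLaw X M) (clauseEn X M) Ψ v) →
      J - A / M ≤ disAvg X α (M + 1) Ψ' - disAvg X α M Ψ := by
  obtain ⟨C₁, hC0, hC⟩ := exists_en_bound (E := ℝ) fun c : D × (Fin p → Bool) => X.θ c.1 c.2
  have hθ : ∀ d s, |X.θ d s| ≤ C₁ := fun d s => hC (d, s)
  refine ⟨4 * (α * p ^ 2) * C₁ + |C|, fun M _ Ψ Ψ' J hΨ hΨ' hnew hJ => ?_⟩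
  have hM : (0 : ℝ) < M := by exact_mod_cast Nat.pos_of_ne_zero (NeZero.ne M)
  have hp1 : (0 : ℝ) ≤ p - 1 := sub_nonneg.2 (by exact_mod_cast hp)
  obtain ⟨s, hs⟩ : ∃ s : ℝ, s = 1 / (M + 1) := ⟨_, rfl⟩
  obtain ⟨π₁, h₁⟩ : ∃ π₁ : ℝ, π₁ = p * s * (1 - s) ^ (p - 1) := ⟨_, rfl⟩
  obtain ⟨π₂, h₂⟩ : ∃ π₂ : ℝ, π₂ = 1 - (1 - s) ^ p - π₁ := ⟨_, rfl⟩
  obtain ⟨a0, a1, e1, e2⟩ := ASSInc_est hp hα M hs h₁ h₂
  have hlam : 0 ≤ α * (M + 1) := by positivity
  have hl0 : 0 ≤ α * (M + 1) * (1 - π₁) := mul_nonneg hlam (by linarith)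
  have hl1 : 0 ≤ α * (M + 1) * (1 - (1 - π₁)) := mul_nonneg hlam (by linarith)
  have hαp : 0 ≤ α * p := by positivity
  have hαq : 0 ≤ α * (p - 1 : ℝ) := mul_nonneg hα hp1
  have hb0 : ∀ c, ‖clauseEn X M c‖ ≤ C₁ := fun c =>
    (pi_norm_le_iff_of_nonneg hC0).2 fun σ => hθ _ _
  have hb1 : ∀ c, ‖ASSInc_en₁ X M c‖ ≤ C₁ := fun c =>
    (pi_norm_le_iff_of_nonneg hC0).2 fun σ => hθ _ _
  have hout := ASSInc_comp_lip hΨ
  set B := α * p ^ 2 / M * C₁ with hB
  set P₁ := poisOp (α * p) (ASSInc_law₁ X M) (ASSInc_en₁ X M) fun w => Ψ (ASSInc_out w) with hP₁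
  have hP₁l : LipschitzWith 1 P₁ := poisOp_lip hαp _ _ hout
  -- the clauses at the new site
  have k1 : ∀ w, -B - |C| / M ≤ poisOp (α * (M + 1) * (1 - (1 - π₁))) (ASSInc_law₁ X M)
      (ASSInc_en₁ X M) Ψ' w - P₁ w := by
    intro w
    have t1 := abs_poisOp_sub_param_le hl1 hαp (ASSInc_law₁ X M) hb1 hΨ' w
    have t2 := le_poisOp_sub hαp (ASSInc_law₁ X M) (ASSInc_en₁ X M) hΨ' hout
      (c := -(|C| / M)) (fun v => ?_) w
    · rw [sub_sub_cancel] at t1 ⊢
      have t3 := mul_le_mul_of_nonneg_right e1 hC0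
      linarith [(abs_le.1 t1).1]
    · have t3 : C / (M + 1) ≤ |C| / M :=
        (div_le_div_of_nonneg_right (le_abs_self C) (by positivity)).trans
          (div_le_div_of_nonneg_left (abs_nonneg C) hM (by linarith))
      have t4 : -(C / (M + 1)) ≤ Ψ' v - Ψ (ASSInc_out v) := (abs_le.1 (hnew v)).1
      linarith
  -- the system on `M + 1` sites
  have k2 : ∀ (v : (Fin M → Bool) → ℝ) (a : (Fin (M + 1) → Bool) → ℝ),
      poisOp (α * (M + 1) * (1 - π₁)) (clauseLaw X M) (clauseEn X M)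
        (fun y => P₁ (ASSInc_L M y + a)) v + (-3 * B - |C| / M) ≤
      poisOp (α * (M + 1 : ℕ)) (clauseLaw X (M + 1)) (clauseEn X (M + 1)) Ψ'
        (ASSInc_L M v + a) := by
    intro v a
    have t1 := ASSInc_mix hlam (t := 1 - π₁) (by linarith) (by linarith) (clauseLaw X (M + 1))
      (clauseEn X (M + 1)) (clauseLaw X M) (fun c => ASSInc_L M (clauseEn X M c))
      (ASSInc_law₁ X M) (ASSInc_en₁ X M) (ASSInc_split hp X hX hC0 hθ M hs h₁ h₂) hΨ'
      (ASSInc_L M v + a)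
    have t2 := le_poisOp_sub hl0 (clauseLaw X M) (fun c => ASSInc_L M (clauseEn X M c))
      (poisOp_lip hl1 _ _ hΨ') hP₁l k1 (ASSInc_L M v + a)
    rw [← poisOp_map]
    have t3 := mul_le_mul_of_nonneg_right e2 hC0
    push_cast
    nlinarith [(abs_le.1 t1).1]
  have hsite : siteAvg X (α * p) Ψ = fun y => X.πh.E fun x =>
      P₁ (ASSInc_L M y + fun σ => X.h x * spinVal (σ (Fin.last M))) :=
    funext fun y => (ASSInc_site X hαp hΨ y).symm
  have hsl : LipschitzWith 1 (siteAvg X (α * p) Ψ) := by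
    rw [hsite]
    exact ASSInc_lip_E _ fun x => ASSInc_L_lip hP₁l _
  -- comparison at a fixed base energy
  have k3 : ∀ v : (Fin M → Bool) → ℝ, J - (4 * B + |C| / M) ≤
      (X.πh.E fun x => poisOp (α * (M + 1 : ℕ)) (clauseLaw X (M + 1)) (clauseEn X (M + 1)) Ψ'
        (ASSInc_L M v + fun σ => X.h x * spinVal (σ (Fin.last M)))) -
      poisOp (α * M) (clauseLaw X M) (clauseEn X M) Ψ v := by
    intro v
    have t1 := X.πh.E_mono fun x => k2 v fun σ => X.h x * spinVal (σ (Fin.last M))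
    rw [FinLaw.E_add, FinLaw.E_const,
      ← poisOp_E hl0 _ _ X.πh (fun x => ASSInc_L_lip hP₁l _) v, ← hsite] at t1
    have t2 := le_poisOp_sub hl0 (clauseLaw X M) (clauseEn X M) hsl
      (poisOp_lip hαq (clauseLaw X M) (clauseEn X M) hΨ) hJ v
    rw [← poisOp_add hl0 hαq _ _ hΨ] at t2
    have t3 := abs_poisOp_sub_param_le (l₁ := α * M) (by positivity) (add_nonneg hl0 hαq)
      (clauseLaw X M) hb0 hΨ v
    have t4 : α * M - (α * (M + 1) * (1 - π₁) + α * (p - 1)) = α * (M + 1) * π₁ - α * p := by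
      ring
    rw [t4] at t3
    have t5 := mul_le_mul_of_nonneg_right e1 hC0
    linarith [(abs_le.1 t3).2]
  have hfield : ∀ (x : H) (hs : Fin M → H), fieldEn X (Fin.insertNth (Fin.last M) x hs) =
      ASSInc_L M (fieldEn X hs) + fun σ => X.h x * spinVal (σ (Fin.last M)) := by
    intro x hs
    funext σ
    simp [fieldEn, ASSInc_L, Fin.insertNth_last', Fin.sum_univ_castSucc, Fin.init]
  have e3 : (4 * (α * p ^ 2) * C₁ + |C|) / M = 4 * B + |C| / M := by rw [hB]; ring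
  unfold disAvg
  rw [e3, FinLaw.pi_E_insertNth _ (Fin.last M), FinLaw.E_comm, ← FinLaw.E_sub,
    ← FinLaw.E_const (FinLaw.pi fun _ : Fin M => X.πh) (J - _)]
  refine FinLaw.E_mono _ fun hs => ?_
  simp only [hfield]
  exact k3 _

end Crest.Agent.R141
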