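import Crest.Agent.R141.CDefs

/-!
# Row 141: the Gronwall argument

`x i j` are the log power means in the system, `gY i j` those of the partition chain on the labels,
`xh i j` measurable approximations of `x i j`; `λ = i/n`.

Recipe. `E = μ.E 𝔼`. For fixed `θ'`, `Y = FKS.part r (R θ') _`, `v = (i/n) w`, `Θ p = Y.tau e v p`,
`DY p = (Y.tilt e v).ex p w = ce (R p) (Θ p * w)`, `ce (R p) (Θ p) = 1` (`ex_tau`),
`|y (i+1) p - y i p - DY p / n| ≤ (C₀/n)²` (`lp_tilt`, `abs_lp_sub_ex_le`). `L i j = x i j - y i j`,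
`S i = ∑_j d j * E |L i j|`, `S 0 = 0`. With `Δ f = n (f (i+1) - f i)`, `a = Δy - Δxh`, `ψ = clip (a/η)`,
`u = exp (m (p+1) (y i p - xh i p))` (both `R p`-invariant): `exp (-2C₀) (|a| - η) ≤ u ψ a`;
`E[u ψ a] ≤ E[u ψ Θ (w - Δxh)] + exp (2C₀) C₀²/n` (`expect_mul_ce`);
`|u Θ p - gT i p| ≤ exp (2C₀) (|x i p - xh i p| + ∑_{j>p} d j |L i j|)` (split the sum in `tau` at `p`, `sum_d`);
`|w - Δxh| ≤ 2C₀`; `E[ψ T (w - Δxh)] ≤ Ξ p + exp (2C₀) (C₀²/n + 2nθ)`. So
`E|L (i+1) p| ≤ E|L i p| + (1/n) (2nθ + E|a|)` gives `S (i+1) ≤ (1 + c/n) S i + (c/n) b`, `b` = the bracket,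
`S i ≤ e^c b`. Finally `|E DY 0 - E D i 0| = |E (Θ 0 - T i 0) w| ≤ c S i` (`h0`; here `max j 0 = j`) and sum over `i < n`.
-/

set_option autoImplicit false

namespace Crest.Agent.R141

open Finset
open scoped BigOperators

/-- Log power means of the partition chain. -/
noncomputable def gY {r : ℕ} (e : Expo r) {Θ L : Type} [Fintype L] (R : Θ → ℕ → Setoid L)
    (w : Θ → L → ℝ) (n i j : ℕ) (a : Θ) (l : L) : ℝ :=
  (Kern.part (R a)).lp e (fun l => (i : ℝ) / n * w a l) j l

/-- The tilt built from the log power means `x`. -/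
noncomputable def gT {r : ℕ} (e : Expo r) {Θ L : Type} (x : ℕ → ℕ → Θ → L → ℝ) (w : Θ → L → ℝ)
    (n i p : ℕ) (a : Θ) (l : L) : ℝ :=
  Real.exp (∑ j ∈ range (r + 1), e.d j * ((i : ℝ) / n * w a l - x i (max j p) a l))

/-! ### Averages over `Θ × L` -/

/-- The average over `Θ × L`. -/
noncomputable def gE {Θ L : Type} [Fintype Θ] [Fintype L] (μ : FinLaw Θ) (f : Θ → L → ℝ) : ℝ :=
  μ.E fun a => 𝔼 l, f a l

section gE
variable {Θ L : Type} [Fintype Θ] [Fintype L] (μ : FinLaw Θ)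

theorem gE_mono {f g : Θ → L → ℝ} (h : ∀ a l, f a l ≤ g a l) : gE μ f ≤ gE μ g :=
  μ.E_mono fun a => Finset.expect_le_expect fun l _ => h a l

theorem gE_add (f g : Θ → L → ℝ) : gE μ (fun a l => f a l + g a l) = gE μ f + gE μ g := by
  simp only [gE, Finset.expect_add_distrib, FinLaw.E_add]

theorem gE_sub (f g : Θ → L → ℝ) : gE μ (fun a l => f a l - g a l) = gE μ f - gE μ g := by
  simp only [gE, Finset.expect_sub_distrib, FinLaw.E_sub]

theorem gE_smul (c : ℝ) (f : Θ → L → ℝ) : gE μ (fun a l => c * f a l) = c * gE μ f := by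
  simp only [gE, ← Finset.mul_expect, FinLaw.E_smul]

theorem gE_const [Nonempty L] (c : ℝ) : gE μ (fun _ (_ : L) => c) = c := by
  simp only [gE, Fintype.expect_const, FinLaw.E_const]

theorem gE_sum (t : Finset ℕ) (f : ℕ → Θ → L → ℝ) :
    gE μ (fun a l => ∑ i ∈ t, f i a l) = ∑ i ∈ t, gE μ (f i) := by
  simp only [gE, Finset.expect_sum_comm, FinLaw.E_sum]

theorem gE_nonneg {f : Θ → L → ℝ} (h : ∀ a l, 0 ≤ f a l) : 0 ≤ gE μ f :=
  μ.E_nonneg fun a => Finset.expect_nonneg fun l _ => h a l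

theorem abs_gE_le {f g : Θ → L → ℝ} (h : ∀ a l, |f a l| ≤ g a l) : |gE μ f| ≤ gE μ g := by
  rw [abs_le]
  refine ⟨?_, gE_mono μ fun a l => (abs_le.1 (h a l)).2⟩
  have := gE_mono μ (f := fun a l => (-1) * g a l) (g := f) fun a l => by
    have := (abs_le.1 (h a l)).1
    linarith
  rw [gE_smul] at this
  linarith

end gE

/-! ### Scalar facts -/

theorem gron_abs_clip (t : ℝ) : |clip t| ≤ 1 :=
  abs_le.2 ⟨le_max_left _ _, max_le (by norm_num) (min_le_left _ _)⟩

theorem gron_clip_mul {η : ℝ} (hη : 0 < η) (t : ℝ) :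
    0 ≤ clip (t / η) * t ∧ |t| - η ≤ clip (t / η) * t := by
  obtain ⟨s, rfl⟩ : ∃ s, t = s * η := ⟨t / η, by field_simp⟩
  rw [mul_div_assoc, div_self hη.ne', mul_one, abs_mul, abs_of_pos hη, ← mul_assoc]
  have key : 0 ≤ clip s * s ∧ |s| - 1 ≤ clip s * s := by
    unfold clip
    rcases le_total s (-1) with h | h
    · rw [min_eq_right (by linarith), max_eq_left h, abs_of_nonpos (by linarith)]
      constructor <;> linarith
    · rcases le_total s 1 with h' | h'
      · rw [min_eq_right h', max_eq_right h]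
        have := abs_le.2 ⟨h, h'⟩
        constructor <;> nlinarith [mul_self_nonneg s]
      · rw [min_eq_left h', max_eq_right (by norm_num), abs_of_nonneg (by linarith)]
        constructor <;> linarith
  exact ⟨mul_nonneg key.1 hη.le, by nlinarith [mul_le_mul_of_nonneg_right key.2 hη.le]⟩

theorem gron_exp_lip {A B M : ℝ} (hA : A ≤ M) (hB : B ≤ M) :
    |Real.exp A - Real.exp B| ≤ Real.exp M * |A - B| := by
  wlog h : B ≤ A generalizing A B
  · rw [abs_sub_comm, abs_sub_comm A]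
    exact this hB hA (not_le.1 h).le
  have h1 : Real.exp B ≤ Real.exp A := Real.exp_le_exp.2 h
  rw [abs_of_nonneg (by linarith), abs_of_nonneg (by linarith)]
  have h2 : Real.exp B = Real.exp A * Real.exp (B - A) := by rw [← Real.exp_add]; congr 1; ring
  have h3 := Real.add_one_le_exp (B - A)
  have h4 : Real.exp A ≤ Real.exp M := Real.exp_le_exp.2 hA
  have h5 := Real.exp_pos A
  calc Real.exp A - Real.exp B ≤ Real.exp A * (A - B) := by rw [h2]; nlinarith
    _ ≤ _ := mul_le_mul_of_nonneg_right h4 (by linarith)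

theorem gron_sum_le {r : ℕ} (e : Expo r) {f g : ℕ → ℝ} (h : ∀ j ≤ r, f j ≤ g j) :
    ∑ j ∈ range (r + 1), e.d j * f j ≤ ∑ j ∈ range (r + 1), e.d j * g j :=
  sum_le_sum fun j hj => by
    have hj' : j ≤ r := Nat.lt_succ_iff.1 (mem_range.1 hj)
    exact mul_le_mul_of_nonneg_left (h j hj') (e.d_pos hj').le

theorem gron_sum_const {r : ℕ} (e : Expo r) (c : ℝ) : ∑ j ∈ range (r + 1), e.d j * c = c := by
  rw [← Finset.sum_mul, e.sum_d_top, one_mul]

theorem gron_log_le {r : ℕ} (e : Expo r) {C v : ℝ} {z : ℕ → ℝ} (hv : |v| ≤ C)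
    (hz : ∀ j ≤ r, |z j| ≤ C) : ∑ j ∈ range (r + 1), e.d j * (v - z j) ≤ 2 * C := by
  rw [← gron_sum_const e (2 * C)]
  refine gron_sum_le e fun j hj => ?_
  have := abs_le.1 hv
  have := abs_le.1 (hz j hj)
  linarith

theorem gron_exp_diff {r : ℕ} (e : Expo r) {C v : ℝ} {z z' g : ℕ → ℝ} (hv : |v| ≤ C)
    (hz : ∀ j ≤ r, |z j| ≤ C) (hz' : ∀ j ≤ r, |z' j| ≤ C) (hg : ∀ j ≤ r, |z' j - z j| ≤ g j) :
    |Real.exp (∑ j ∈ range (r + 1), e.d j * (v - z j)) -
      Real.exp (∑ j ∈ range (r + 1), e.d j * (v - z' j))| ≤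
      Real.exp (2 * C) * ∑ j ∈ range (r + 1), e.d j * g j := by
  refine (gron_exp_lip (gron_log_le e hv hz) (gron_log_le e hv hz')).trans
    (mul_le_mul_of_nonneg_left ?_ (Real.exp_pos _).le)
  rw [← Finset.sum_sub_distrib]
  refine (abs_sum_le_sum_abs _ _).trans (sum_le_sum fun j hj => ?_)
  have hj' : j ≤ r := Nat.lt_succ_iff.1 (mem_range.1 hj)
  rw [← mul_sub, abs_mul, abs_of_pos (e.d_pos hj'), show v - z j - (v - z' j) = z' j - z j by ring]
  exact mul_le_mul_of_nonneg_left (hg j hj') (e.d_pos hj').le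

theorem gron_split {r : ℕ} (e : Expo r) {p : ℕ} (hp : p ≤ r) (v h : ℝ) (y : ℕ → ℝ) :
    Real.exp (e.m (p + 1) * (y p - h)) *
      Real.exp (∑ j ∈ range (r + 1), e.d j * (v - y (max j p))) =
      Real.exp (∑ j ∈ range (r + 1), e.d j * (v - if j ≤ p then h else y j)) := by
  rw [← Real.exp_add]
  congr 1
  have hsplit : ∀ f : ℕ → ℝ, ∑ i ∈ range (r + 1), f i =
      ∑ i ∈ range (p + 1), f i + ∑ i ∈ Ico (p + 1) (r + 1), f i := fun f =>
    (Finset.sum_range_add_sum_Ico f (by omega)).symm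
  rw [hsplit, hsplit fun j => e.d j * (v - if j ≤ p then h else y j), ← add_assoc]
  congr 1
  · rw [← e.sum_d (p + 1), Finset.sum_mul, ← Finset.sum_add_distrib]
    refine sum_congr rfl fun i hi => ?_
    have hi' : i ≤ p := by have := mem_range.1 hi; omega
    rw [max_eq_right hi', if_pos hi']
    ring
  · refine sum_congr rfl fun i hi => ?_
    have hi' : p + 1 ≤ i := (mem_Ico.1 hi).1
    rw [max_eq_left (by omega : p ≤ i), if_neg (by omega)]

theorem gron_discrete {S : ℕ → ℝ} {c b : ℝ} {n : ℕ} (hn : 0 < n) (hc : 0 ≤ c) (hb : 0 ≤ b)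
    (h0 : S 0 = 0) (hS : ∀ i < n, S (i + 1) ≤ S i + c / n * (b + S i)) :
    ∀ i ≤ n, S i ≤ Real.exp c * b := by
  have hn' : (0 : ℝ) < n := by exact_mod_cast hn
  have hq : 0 ≤ c / n := div_nonneg hc hn'.le
  have key : ∀ i ≤ n, S i + b ≤ Real.exp (i * (c / n)) * b := by
    intro i hi
    induction i with
    | zero => simp [h0]
    | succ i ih =>
      have h1 := ih (by omega)
      have h2 := hS i (by omega)
      have h3 := Real.add_one_le_exp (c / n)
      have h4 : 0 ≤ Real.exp (i * (c / n)) * b := mul_nonneg (Real.exp_pos _).le hb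
      calc S (i + 1) + b ≤ (c / n + 1) * (S i + b) := by linarith
        _ ≤ (c / n + 1) * (Real.exp (i * (c / n)) * b) :=
          mul_le_mul_of_nonneg_left h1 (by linarith)
        _ ≤ Real.exp (c / n) * (Real.exp (i * (c / n)) * b) := mul_le_mul_of_nonneg_right h3 h4
        _ = _ := by
          rw [← mul_assoc, ← Real.exp_add]
          congr 2
          push_cast
          ring
  intro i hi
  have h1 : (i : ℝ) * (c / n) ≤ c := by
    have : (i : ℝ) ≤ n := by exact_mod_cast hi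
    calc (i : ℝ) * (c / n) ≤ n * (c / n) := mul_le_mul_of_nonneg_right this hq
      _ = c := by field_simp
  have h2 := mul_le_mul_of_nonneg_right (Real.exp_le_exp.2 h1) hb
  have := key i hi
  linarith

/-! ### The partition chain -/

section chain
variable {C₀ : ℝ} {r : ℕ} (e : Expo r) {Θ L : Type} [Fintype L] {R : Θ → ℕ → Setoid L}
  {w : Θ → L → ℝ} {n : ℕ}

theorem gron_abs_v (hw : ∀ a l, |w a l| ≤ C₀) {i : ℕ} (hi : i ≤ n) (a : Θ) (l : L) :
    |(i : ℝ) / n * w a l| ≤ C₀ := by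
  have h1 : (i : ℝ) / n ≤ 1 := div_le_one_of_le₀ (by exact_mod_cast hi) (Nat.cast_nonneg _)
  have h0 : 0 ≤ (i : ℝ) / n := by positivity
  rw [abs_mul, abs_of_nonneg h0]
  have := hw a l
  nlinarith [abs_nonneg (w a l)]

theorem abs_gY_le (hw : ∀ a l, |w a l| ≤ C₀) {i : ℕ} (hi : i ≤ n) (j : ℕ) (a : Θ) (l : L) :
    |gY e R w n i j a l| ≤ C₀ :=
  Kern.abs_lp_le _ e (fun l => gron_abs_v hw hi a l) j l

theorem gY_zero (j : ℕ) (a : Θ) (l : L) : gY e R w n 0 j a l = 0 := by
  simp only [gY, Nat.cast_zero, zero_div, zero_mul, Kern.lp_const]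

theorem gY_inv (hR : ∀ a j l l', R a (j + 1) l l' → R a j l l') (i : ℕ) {j : ℕ} (hj : j ≤ r)
    (a : Θ) {l l' : L} (h : R a j l l') : gY e R w n i j a l = gY e R w n i j a l' :=
  (FKS.part r (R a) (hR a)).inv_lp e _ hj l l' h

theorem ce_gT (hR : ∀ a j l l', R a (j + 1) l l' → R a j l l') (i p : ℕ) (a : Θ) (l : L) :
    ce (R a p) (gT e (gY e R w n) w n i p a) l = 1 :=
  (FKS.part r (R a) (hR a)).ex_tau e _ p l

theorem gY_step (hR : ∀ a j l l', R a (j + 1) l l' → R a j l l') (hw : ∀ a l, |w a l| ≤ C₀)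
    (hn : C₀ ≤ n) (hn0 : (0 : ℝ) < n) (i : ℕ) {p : ℕ} (hp : p ≤ r) (a : Θ) (l : L) :
    |gY e R w n (i + 1) p a l - gY e R w n i p a l -
      ce (R a p) (fun l => gT e (gY e R w n) w n i p a l * w a l) l / n| ≤ (C₀ / n) ^ 2 := by
  set Y := FKS.part r (R a) (hR a)
  have h1 := (Y.tilt e fun l => (i : ℝ) / n * w a l).abs_lp_sub_ex_le e
    (v := fun l => (n : ℝ)⁻¹ * w a l) (a := C₀ / n) ((div_le_one hn0).2 hn) (fun l => by
      rw [abs_mul, abs_of_pos (inv_pos.2 hn0), div_eq_inv_mul]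
      exact mul_le_mul_of_nonneg_left (hw a l) (inv_pos.2 hn0).le) hp l
  rw [Y.lp_tilt, Kern.ex_smul, Y.tilt_ex] at h1
  have e1 : (fun l => (i : ℝ) / n * w a l + (n : ℝ)⁻¹ * w a l) =
      fun l => ((i + 1 : ℕ) : ℝ) / n * w a l := by
    funext l
    push_cast
    ring
  rw [e1, ← div_eq_inv_mul] at h1
  exact h1

theorem gT_le {x : ℕ → ℕ → Θ → L → ℝ} (hw : ∀ a l, |w a l| ≤ C₀) {i p : ℕ} (hi : i ≤ n)
    (hp : p ≤ r) (hx : ∀ j ≤ r, ∀ a l, |x i j a l| ≤ C₀) (a : Θ) (l : L) :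
    gT e x w n i p a l ≤ Real.exp (2 * C₀) :=
  Real.exp_le_exp.2 (gron_log_le e (gron_abs_v hw hi a l) fun j hj => hx _ (max_le hj hp) a l)

end chain

/-! ### The pointwise inequalities -/

theorem gron_mul_le {ψ s K : ℝ} (hψ : |ψ| ≤ 1) (hs : |s| ≤ K) : ψ * s ≤ K := by
  refine (le_abs_self _).trans ?_
  rw [abs_mul]
  nlinarith [abs_nonneg ψ, abs_nonneg s]

theorem gron_abs_mul_le {s t K M : ℝ} (hs : |s| ≤ K) (ht : |t| ≤ M) : |s * t| ≤ K * M := by
  rw [abs_mul]
  exact mul_le_mul hs ht (abs_nonneg _) ((abs_nonneg _).trans hs)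

theorem gron_scale {n C s d : ℝ} (hn : 0 < n) (h : |s - d / n| ≤ (C / n) ^ 2) :
    |n * s - d| ≤ C ^ 2 / n := by
  have e1 : n * s - d = n * (s - d / n) := by field_simp
  rw [e1, abs_mul, abs_of_pos hn]
  calc n * |s - d / n| ≤ n * (C / n) ^ 2 := mul_le_mul_of_nonneg_left h hn.le
    _ = C ^ 2 / n := by field_simp

/-- The bound on the mean of `|Δy - Δxh|`. -/
theorem gron_a {C₀ : ℝ} (hC : 1 ≤ C₀) {r : ℕ} (e : Expo r) {Θ L : Type} [Fintype Θ] [Fintype L]
    [Nonempty L] (μ : FinLaw Θ) {R : Θ → ℕ → Setoid L}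
    (hR : ∀ a j l l', R a (j + 1) l l' → R a j l l') {w : Θ → L → ℝ} (hw : ∀ a l, |w a l| ≤ C₀)
    {n : ℕ} (hn : C₀ ≤ n) {x xh : ℕ → ℕ → Θ → L → ℝ} {D : Θ → L → ℝ} {η θ Ξ : ℝ} (hη : 0 < η)
    {i p : ℕ} (hi : i < n) (hp : p ≤ r) (hx : ∀ j ≤ r, ∀ a l, |x i j a l| ≤ C₀)
    (hD : ∀ a l, |x (i + 1) p a l - x i p a l - D a l / n| ≤ (C₀ / n) ^ 2)
    (hinv : ∀ a l l', R a p l l' → xh i p a l = xh i p a l')
    (hinv' : ∀ a l l', R a p l l' → xh (i + 1) p a l = xh (i + 1) p a l')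
    (hxh : ∀ a l, |xh i p a l| ≤ C₀) (hdh : ∀ a l, |xh (i + 1) p a l - xh i p a l| ≤ C₀ / n)
    (hθ : gE μ (fun a l => |xh i p a l - x i p a l|) ≤ θ)
    (hθ' : gE μ (fun a l => |xh (i + 1) p a l - x (i + 1) p a l|) ≤ θ)
    (hΞ : gE μ (fun a l => clip ((n * (gY e R w n (i + 1) p a l - gY e R w n i p a l) -
          n * (xh (i + 1) p a l - xh i p a l)) / η) *
          (gT e x w n i p a l * (w a l - D a l))) ≤ Ξ) :
    gE μ (fun a l => |n * (gY e R w n (i + 1) p a l - gY e R w n i p a l) -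
        n * (xh (i + 1) p a l - xh i p a l)|) ≤
      η + Real.exp (2 * C₀) * (Ξ + Real.exp (2 * C₀) * (2 * (C₀ ^ 2 / n) + 2 * n * θ +
        2 * C₀ * (θ + ∑ j ∈ range (r + 1),
          e.d j * gE μ fun a l => |x i j a l - gY e R w n i j a l|))) := by
  have hn0 : (0 : ℝ) < n := by linarith
  set K := Real.exp (2 * C₀) with hK
  have hK0 : 0 < K := Real.exp_pos _
  set y := gY e R w n with hy
  set dh : Θ → L → ℝ := fun a l => n * (xh (i + 1) p a l - xh i p a l) with hdh'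
  set dy : Θ → L → ℝ := fun a l => n * (y (i + 1) p a l - y i p a l) with hdy
  set ψ : Θ → L → ℝ := fun a l => clip ((dy a l - dh a l) / η) with hψ
  set u : Θ → L → ℝ := fun a l => Real.exp (e.m (p + 1) * (y i p a l - xh i p a l)) with hu
  set τ := gT e y w n i p with hτ
  set T := gT e x w n i p with hT
  set DY : Θ → L → ℝ := fun a l => ce (R a p) (fun l => τ a l * w a l) l with hDY
  have hyb : ∀ j a l, |y i j a l| ≤ C₀ := fun j a l => abs_gY_le e hw hi.le j a l
  have hψ1 : ∀ a l, |ψ a l| ≤ 1 := fun a l => gron_abs_clip _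
  have hlog : ∀ a l, |e.m (p + 1) * (y i p a l - xh i p a l)| ≤ 2 * C₀ := by
    intro a l
    have h1 : |e.m (p + 1)| ≤ 1 := by
      rw [abs_of_pos (e.pos hp)]
      exact e.le_one (by omega)
    have h2 : |y i p a l - xh i p a l| ≤ 2 * C₀ := by
      have := abs_sub (y i p a l) (xh i p a l)
      have := hyb p a l
      have := hxh a l
      linarith
    simpa using gron_abs_mul_le h1 h2
  have huK : ∀ a l, |u a l| ≤ K := fun a l => by
    rw [abs_of_pos (Real.exp_pos _)]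
    exact Real.exp_le_exp.2 (abs_le.1 (hlog a l)).2
  have hu1 : ∀ a l, 1 ≤ K * u a l := fun a l => by
    rw [hK, hu, ← Real.exp_add]
    exact Real.one_le_exp (by have := (abs_le.1 (hlog a l)).1; linarith)
  have hTK : ∀ a l, |T a l| ≤ K := fun a l => by
    rw [abs_of_pos (show 0 < T a l from Real.exp_pos _)]
    exact gT_le e hw hi.le hp hx a l
  -- (1)
  have h1 : ∀ a l, |dy a l - dh a l| ≤
      η + K * (u a l * ψ a l * DY a l - u a l * ψ a l * dh a l * 1 + K * (C₀ ^ 2 / n)) := by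
    intro a l
    obtain ⟨a1, a2⟩ := gron_clip_mul hη (dy a l - dh a l)
    have a3 : |dy a l - DY a l| ≤ C₀ ^ 2 / n := gron_scale hn0 (gY_step e hR hw hn hn0 i hp a l)
    have a4 := gron_mul_le (hψ1 a l) (gron_abs_mul_le (huK a l) a3)
    have a5 := mul_le_mul_of_nonneg_right (hu1 a l) a1
    have a6 := mul_le_mul_of_nonneg_left a4 hK0.le
    change 0 ≤ ψ a l * (dy a l - dh a l) at a1
    change _ ≤ ψ a l * (dy a l - dh a l) at a2
    change 1 * (ψ a l * (dy a l - dh a l)) ≤ K * u a l * (ψ a l * (dy a l - dh a l)) at a5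
    nlinarith
  -- (2)
  have hiu : ∀ a l l', R a p l l' → u a l * ψ a l = u a l' * ψ a l' := by
    intro a l l' h
    simp only [hu, hψ, hdy, hdh', hy, gY_inv e hR _ hp a h, hinv a l l' h, hinv' a l l' h]
  have h2 : gE μ (fun a l => u a l * ψ a l * DY a l) =
      gE μ fun a l => u a l * ψ a l * (τ a l * w a l) := by
    unfold gE
    congr 1
    funext a
    exact expect_mul_ce (R a p) (hiu a) _
  have h2' : gE μ (fun a l => u a l * ψ a l * dh a l * 1) =
      gE μ fun a l => u a l * ψ a l * dh a l * τ a l := by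
    unfold gE
    congr 1
    funext a
    rw [← expect_mul_ce (R a p) (u := fun l => u a l * ψ a l * dh a l) (fun l l' h => by
      simp only [hiu a l l' h, hdh', hinv a l l' h, hinv' a l l' h]) (τ a)]
    simp only [hτ, hy, ce_gT e hR]
  -- (3), (4), (5)
  have h3 : ∀ a l, u a l * ψ a l * (τ a l * w a l) - u a l * ψ a l * dh a l * τ a l ≤
      ψ a l * (T a l * (w a l - D a l)) + K * (C₀ ^ 2 / n +
        n * (|xh (i + 1) p a l - x (i + 1) p a l| + |xh i p a l - x i p a l|) +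
        2 * C₀ * (|xh i p a l - x i p a l| +
          ∑ j ∈ range (r + 1), e.d j * |x i j a l - y i j a l|)) := by
    intro a l
    have a1 : |u a l * τ a l - T a l| ≤ K * (|xh i p a l - x i p a l| +
        ∑ j ∈ range (r + 1), e.d j * |x i j a l - y i j a l|) := by
      have b1 := gron_split e hp ((i : ℝ) / n * w a l) (xh i p a l) fun j => y i j a l
      have b2 := gron_exp_diff e (z := fun j => if j ≤ p then xh i p a l else y i j a l)
        (z' := fun j => x i (max j p) a l)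
        (g := fun j => |xh i p a l - x i p a l| + |x i j a l - y i j a l|)
        (gron_abs_v hw hi.le a l) (fun j _ => by
          split_ifs
          exacts [hxh a l, hyb j a l]) (fun j hj => hx _ (max_le hj hp) a l) (fun j _ => by
          split_ifs with h
          · rw [max_eq_right h, abs_sub_comm]
            exact le_add_of_nonneg_right (abs_nonneg _)
          · rw [max_eq_left (not_le.1 h).le]
            exact le_add_of_nonneg_left (abs_nonneg _))
      rw [← b1] at b2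
      simp only [mul_add (e.d _), Finset.sum_add_distrib, gron_sum_const] at b2
      exact b2
    have a2 : |w a l - dh a l| ≤ 2 * C₀ := by
      have b1 : |dh a l| ≤ C₀ := by
        rw [hdh', abs_mul, abs_of_pos hn0]
        calc (n : ℝ) * |xh (i + 1) p a l - xh i p a l| ≤ n * (C₀ / n) :=
            mul_le_mul_of_nonneg_left (hdh a l) hn0.le
          _ = C₀ := by field_simp
      have := abs_sub (w a l) (dh a l)
      have := hw a l
      linarith
    have a3 := gron_mul_le (hψ1 a l) (gron_abs_mul_le a1 a2)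
    have a4 : |D a l - dh a l| ≤ C₀ ^ 2 / n +
        n * (|xh (i + 1) p a l - x (i + 1) p a l| + |xh i p a l - x i p a l|) := by
      have b1 := gron_scale hn0 (hD a l)
      have b2 : D a l - dh a l = -(n * (x (i + 1) p a l - x i p a l) - D a l) -
          n * ((xh (i + 1) p a l - x (i + 1) p a l) - (xh i p a l - x i p a l)) := by
        simp only [hdh']
        ring
      rw [b2]
      refine (abs_sub _ _).trans (add_le_add (by rwa [abs_neg]) ?_)
      rw [abs_mul, abs_of_pos hn0]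
      exact mul_le_mul_of_nonneg_left (abs_sub _ _) hn0.le
    have a5 := gron_mul_le (hψ1 a l) (gron_abs_mul_le (hTK a l) a4)
    nlinarith
  have h4 := gE_mono μ h3
  have h5 := gE_mono μ h1
  simp only [gE_add, gE_sub, gE_smul, gE_const, gE_sum] at h4 h5
  rw [h2, h2'] at h5
  have h6 : gE μ (fun a l => ψ a l * (T a l * (w a l - D a l))) ≤ Ξ := hΞ
  refine h5.trans (add_le_add_right (mul_le_mul_of_nonneg_left ?_ hK0.le) _)
  have h7 := mul_le_mul_of_nonneg_left (add_le_add hθ' hθ) (mul_pos hK0 hn0).le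
  have h8 := mul_le_mul_of_nonneg_left hθ (show 0 ≤ K * (2 * C₀) by positivity)
  nlinarith

theorem gron {C₀ : ℝ} (hC : 1 ≤ C₀) : ∃ A : ℝ, 0 ≤ A ∧
    ∀ {r : ℕ} (e : Expo r) {Θ L : Type} [Fintype Θ] [Fintype L] [Nonempty L] (μ : FinLaw Θ)
      (R : Θ → ℕ → Setoid L), (∀ a j l l', R a (j + 1) l l' → R a j l l') →
      ∀ (w : Θ → L → ℝ), (∀ a l, |w a l| ≤ C₀) → ∀ n : ℕ, C₀ ≤ n →
      ∀ (x D xh : ℕ → ℕ → Θ → L → ℝ) (η θ : ℝ) (Ξ : ℕ → ℝ), 0 < η → 0 ≤ θ → (∀ p, 0 ≤ Ξ p) →
      (∀ j ≤ r, ∀ a l, x 0 j a l = 0) →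
      (∀ i ≤ n, ∀ j ≤ r, ∀ a l, |x i j a l| ≤ C₀) →
      (∀ i < n, ∀ j ≤ r, ∀ a l, |x (i + 1) j a l - x i j a l - D i j a l / n| ≤ (C₀ / n) ^ 2) →
      (∀ i < n, ∀ j ≤ r, ∀ a l, |D i j a l| ≤ C₀) →
      (∀ i ≤ n, ∀ j ≤ r, ∀ a l l', R a j l l' → xh i j a l = xh i j a l') →
      (∀ i ≤ n, ∀ j ≤ r, ∀ a l, |xh i j a l| ≤ C₀) →
      (∀ i < n, ∀ j ≤ r, ∀ a l, |xh (i + 1) j a l - xh i j a l| ≤ C₀ / n) →
      (∀ i ≤ n, ∀ j ≤ r, μ.E (fun a => 𝔼 l, |xh i j a l - x i j a l|) ≤ θ) →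
      (∀ i < n, μ.E (fun a => 𝔼 l, gT e x w n i 0 a l * w a l) = μ.E fun a => 𝔼 l, D i 0 a l) →
      (∀ i < n, ∀ p ≤ r, μ.E (fun a => 𝔼 l,
        clip ((n * (gY e R w n (i + 1) p a l - gY e R w n i p a l) -
          n * (xh (i + 1) p a l - xh i p a l)) / η) *
          (gT e x w n i p a l * (w a l - D i p a l))) ≤ Ξ p) →
      |μ.E (fun a => 𝔼 l, x n 0 a l) - μ.E fun a => 𝔼 l, gY e R w n n 0 a l| ≤
        A * ((∑ p ∈ range (r + 1), e.d p * Ξ p) + η + n * θ + 1 / n) := by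
  set K := Real.exp (2 * C₀) with hK
  have hK1 : 1 ≤ K := Real.one_le_exp (by linarith)
  set c := 6 * K ^ 2 * C₀ ^ 2 with hc
  refine ⟨2 * C₀ ^ 2 + K * C₀ * Real.exp c, by positivity, ?_⟩
  intro r e Θ L _ _ _ μ R hR w hw n hn x D xh η θ Ξ hη hθ hΞ hx0 hx hD _ hinv hxh hdh happ h0 hcor
  have hn0 : (0 : ℝ) < n := by linarith
  have hn1 : 0 < n := by exact_mod_cast hn0
  set y := gY e R w n with hy
  set S : ℕ → ℝ := fun i => ∑ j ∈ range (r + 1), e.d j * gE μ fun a l => |x i j a l - y i j a l|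
    with hS
  set b := (∑ p ∈ range (r + 1), e.d p * Ξ p) + η + n * θ + 1 / n with hb
  have hΞ0 : 0 ≤ ∑ p ∈ range (r + 1), e.d p * Ξ p := by
    simpa using gron_sum_le e (f := fun _ => 0) fun j _ => hΞ j
  have hb1 : 1 / (n : ℝ) ≤ b := by
    have : 0 ≤ n * θ := by positivity
    linarith
  have hb0 : 0 ≤ b := le_trans (by positivity) hb1
  have hS0 : ∀ i, 0 ≤ S i := fun i => by
    simpa using gron_sum_le e (f := fun _ => 0)
      (g := fun j => gE μ fun a l => |x i j a l - y i j a l|)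
      fun j _ => gE_nonneg μ fun a l => abs_nonneg _
  have hK2 : K ≤ K ^ 2 := by nlinarith
  have hC2 : C₀ ≤ C₀ ^ 2 := by nlinarith
  have hKC : K ^ 2 * C₀ ≤ K ^ 2 * C₀ ^ 2 := mul_le_mul_of_nonneg_left hC2 (by positivity)
  have hKC' : K ^ 2 ≤ K ^ 2 * C₀ := le_mul_of_one_le_right (by positivity) hC
  have hstep : ∀ i < n, S (i + 1) ≤ S i + c / n * (b + S i) := by
    intro i hi
    have h1 : ∀ p ≤ r, gE μ (fun a l => |x (i + 1) p a l - y (i + 1) p a l|) ≤
        gE μ (fun a l => |x i p a l - y i p a l|) +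
          (c / n * Ξ p + c / n * (η + n * θ + 1 / n + S i)) := by
      intro p hp
      have a1 := gron_a hC e μ hR hw hn hη hi hp (hx i hi.le) (hD i hi p hp) (hinv i hi.le p hp)
        (hinv (i + 1) hi p hp) (hxh i hi.le p hp) (hdh i hi p hp) (happ i hi.le p hp)
        (happ (i + 1) hi p hp) (hcor i hi p hp)
      have a2 := gE_mono μ (f := fun a l => |x (i + 1) p a l - y (i + 1) p a l|)
        (g := fun a l => |x i p a l - y i p a l| +
          (|xh (i + 1) p a l - x (i + 1) p a l| + |xh i p a l - x i p a l|) +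
          (n : ℝ)⁻¹ * |n * (y (i + 1) p a l - y i p a l) - n * (xh (i + 1) p a l - xh i p a l)|)
        fun a l => by
          rw [← mul_sub, abs_mul, abs_of_pos hn0, inv_mul_cancel_left₀ hn0.ne']
          have b1 : x (i + 1) p a l - y (i + 1) p a l = (x i p a l - y i p a l) -
              ((xh (i + 1) p a l - x (i + 1) p a l) - (xh i p a l - x i p a l)) -
              (y (i + 1) p a l - y i p a l - (xh (i + 1) p a l - xh i p a l)) := by ring
          rw [b1]
          exact (abs_sub _ _).trans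
            (add_le_add_left ((abs_sub _ _).trans (add_le_add_right (abs_sub _ _) _)) _)
      simp only [gE_add, gE_smul] at a2
      have a3 : gE μ (fun a l => |xh i p a l - x i p a l|) ≤ θ := happ i hi.le p hp
      have a4 : gE μ (fun a l => |xh (i + 1) p a l - x (i + 1) p a l|) ≤ θ := happ (i + 1) hi p hp
      have a5 := mul_le_mul_of_nonneg_left a1 (inv_pos.2 hn0).le
      have a6 : 2 * (n * θ) + (η + K * (Ξ p + K * (2 * (C₀ ^ 2 / n) + 2 * n * θ +
          2 * C₀ * (θ + S i)))) ≤ c * (Ξ p + (η + n * θ + 1 / n + S i)) := by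
        have b1 : C₀ * θ ≤ n * θ := mul_le_mul_of_nonneg_right hn hθ
        have b2 : 0 ≤ n * θ := by positivity
        have b3 : (0 : ℝ) ≤ 1 / n := by positivity
        have b4 := hΞ p
        have b5 := hS0 i
        have b6 : C₀ ^ 2 / n = C₀ ^ 2 * (1 / n) := by ring
        have c1 : K * Ξ p ≤ c * Ξ p := mul_le_mul_of_nonneg_right (by nlinarith) b4
        have c2 : 1 * η ≤ c * η := mul_le_mul_of_nonneg_right (by nlinarith) hη.le
        have c3 : (2 + 4 * K ^ 2) * (n * θ) ≤ c * (n * θ) :=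
          mul_le_mul_of_nonneg_right (by nlinarith) b2
        have c4 : (2 * (K ^ 2 * C₀ ^ 2)) * (1 / n) ≤ c * (1 / n) :=
          mul_le_mul_of_nonneg_right (by nlinarith) b3
        have c5 : (2 * (K ^ 2 * C₀)) * S i ≤ c * S i :=
          mul_le_mul_of_nonneg_right (by nlinarith) b5
        have c6 := mul_le_mul_of_nonneg_left b1 (show 0 ≤ 2 * K ^ 2 by positivity)
        rw [b6]
        nlinarith
      have a7 := mul_le_mul_of_nonneg_left a6 (inv_pos.2 hn0).le
      have a8 : (n : ℝ)⁻¹ * (n * θ) = θ := inv_mul_cancel_left₀ hn0.ne' θ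
      rw [mul_add, mul_left_comm, a8] at a7
      have a9 : (n : ℝ)⁻¹ * (c * (Ξ p + (η + n * θ + 1 / n + S i))) =
          c / n * Ξ p + c / n * (η + n * θ + 1 / n + S i) := by ring
      rw [a9] at a7
      linarith
    have h2 := gron_sum_le e h1
    simp only [mul_add (e.d _), Finset.sum_add_distrib, gron_sum_const, mul_left_comm (e.d _),
      ← Finset.mul_sum] at h2
    refine h2.trans (le_of_eq ?_)
    simp only [hS, hb]
    ring
  have hSle := gron_discrete hn1 (by positivity) hb0 (by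
    refine Finset.sum_eq_zero fun j hj => ?_
    have hj' : j ≤ r := Nat.lt_succ_iff.1 (mem_range.1 hj)
    simp only [hx0 j hj', hy, gY_zero, sub_self, abs_zero, gE_const, mul_zero]) hstep
  -- the increments of the difference of the free energies
  set F : ℕ → ℝ := fun i => gE μ (x i 0) - gE μ (y i 0) with hF
  have hinc : ∀ i < n, |F (i + 1) - F i| ≤
      (n : ℝ)⁻¹ * ((2 * C₀ ^ 2 + K * C₀ * Real.exp c) * b) := by
    intro i hi
    set DY : Θ → L → ℝ := fun a l => ce (R a 0) (fun l => gT e y w n i 0 a l * w a l) l with hDY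
    have a1 : gE μ DY = gE μ fun a l => gT e y w n i 0 a l * w a l := by
      unfold gE
      congr 1
      funext a
      exact expect_ce _ _
    have a2 : gE μ (D i 0) = gE μ fun a l => gT e x w n i 0 a l * w a l := (h0 i hi).symm
    have a3 : |gE μ (D i 0) - gE μ DY| ≤ K * C₀ * S i := by
      rw [a1, a2, ← gE_sub]
      refine (abs_gE_le μ (g := fun a l => (K * C₀) *
        ∑ j ∈ range (r + 1), e.d j * |x i j a l - y i j a l|) fun a l => ?_).trans (le_of_eq ?_)
      · have b1 := gron_exp_diff e (z := fun j => x i (max j 0) a l)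
          (z' := fun j => y i (max j 0) a l) (g := fun j => |x i j a l - y i j a l|)
          (gron_abs_v hw hi.le a l) (fun j hj => hx i hi.le _ (by simpa using hj) a l)
          (fun j _ => abs_gY_le e hw hi.le _ a l)
          (fun j _ => by rw [max_eq_left (Nat.zero_le j), abs_sub_comm])
        rw [← sub_mul, mul_right_comm]
        exact gron_abs_mul_le b1 (hw a l)
      · simp only [gE_smul, gE_sum, hS]
    have a4 := abs_gE_le μ (g := fun _ _ => (C₀ / n) ^ 2) (hD i hi 0 (Nat.zero_le _))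
    have a5 := abs_gE_le μ (g := fun _ _ => (C₀ / n) ^ 2)
      (gY_step e hR hw hn hn0 i (Nat.zero_le r))
    simp only [div_eq_inv_mul _ (n : ℝ), gE_sub, gE_smul, gE_const] at a4 a5
    have a6 : F (i + 1) - F i =
        (gE μ (x (i + 1) 0) - gE μ (x i 0) - (n : ℝ)⁻¹ * gE μ (D i 0)) -
        (gE μ (y (i + 1) 0) - gE μ (y i 0) - (n : ℝ)⁻¹ * gE μ DY) +
        (n : ℝ)⁻¹ * (gE μ (D i 0) - gE μ DY) := by
      simp only [hF]
      ring
    rw [a6]
    refine (abs_add_le _ _).trans ?_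
    rw [abs_mul, abs_of_pos (inv_pos.2 hn0)]
    have a7 := (abs_sub _ _).trans (add_le_add a4 a5)
    have a8 := mul_le_mul_of_nonneg_left
      (a3.trans (mul_le_mul_of_nonneg_left (hSle i hi.le) (by positivity))) (inv_pos.2 hn0).le
    have a9 := mul_le_mul_of_nonneg_left hb1 (show 0 ≤ (n : ℝ)⁻¹ * (2 * C₀ ^ 2) by positivity)
    rw [one_div] at a9
    refine (add_le_add a7 a8).trans ?_
    nlinarith
  have hF0 : F 0 = 0 := by
    have e1 : x 0 0 = fun _ _ => 0 := by
      funext a l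
      exact hx0 0 (Nat.zero_le _) a l
    have e2 : y 0 0 = fun _ _ => 0 := by
      funext a l
      exact gY_zero e 0 a l
    simp only [hF, e1, e2, sub_self]
  have hsum := Finset.sum_range_sub F n
  rw [hF0, sub_zero] at hsum
  change |F n| ≤ _
  rw [← hsum]
  refine (abs_sum_le_sum_abs _ _).trans
    ((sum_le_sum fun i hi => hinc i (mem_range.1 hi)).trans (le_of_eq ?_))
  rw [Finset.sum_const, card_range, nsmul_eq_mul, mul_inv_cancel_left₀ hn0.ne']

end Crest.Agent.R141
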