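import Crest.Agent.R141.FKS

/-!
# Row 141: the key lemma in abstract form (helper69)

A family of signs `z a`, revealed at level `p + 1` and coupled with strength `τ` to bounded
observables `X a`, makes every average `F = ∑ a, u a * X a` almost determined at level `p + 1`
(seen from level `p`). The signs enter only through measure preserving flips `fl a`.
-/

set_option autoImplicit false
set_option linter.unusedVariables false

namespace Crest.Agent.R141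

open Finset
open scoped BigOperators

namespace FinLaw
variable {S : Type} [Fintype S] (μ : FinLaw S)

/-- Covariance. -/
def kcov (f g : S → ℝ) : ℝ := μ.E (fun s => f s * g s) - μ.E f * μ.E g

theorem kcov_comm (f g : S → ℝ) : μ.kcov f g = μ.kcov g f := by
  unfold kcov; simp only [mul_comm]

theorem kcov_eq (f g : S → ℝ) :
    μ.kcov f g = μ.E fun s => (f s - μ.E f) * (g s - μ.E g) := by
  have : (fun s => (f s - μ.E f) * (g s - μ.E g)) = fun s =>
      f s * g s - (μ.E g * f s + μ.E f * g s) + μ.E f * μ.E g := by funext s; ring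
  rw [this, E_add, E_sub, E_add, E_smul, E_smul, E_const, kcov]; ring

theorem kcov_self_nonneg (f : S → ℝ) : 0 ≤ μ.kcov f f := by
  rw [kcov_eq]; exact μ.E_nonneg fun s => mul_self_nonneg _

theorem kcov_add (f f' g : S → ℝ) :
    μ.kcov (fun s => f s + f' s) g = μ.kcov f g + μ.kcov f' g := by
  unfold kcov; simp only [add_mul, E_add]; ring

theorem kcov_sub (f f' g : S → ℝ) :
    μ.kcov (fun s => f s - f' s) g = μ.kcov f g - μ.kcov f' g := by
  unfold kcov; simp only [sub_mul, E_sub]; ring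

theorem kcov_smul (c : ℝ) (f g : S → ℝ) : μ.kcov (fun s => c * f s) g = c * μ.kcov f g := by
  unfold kcov; simp only [mul_assoc, E_smul]; ring

theorem kcov_sum {ι : Type*} (t : Finset ι) (f : ι → S → ℝ) (g : S → ℝ) :
    μ.kcov (fun s => ∑ i ∈ t, f i s) g = ∑ i ∈ t, μ.kcov (f i) g := by
  unfold kcov; simp only [Finset.sum_mul, E_sum, sum_sub_distrib]

theorem kcov_le_sqrt (f g : S → ℝ) : μ.kcov f g ≤ √(μ.kcov f f) * √(μ.kcov g g) := by
  rw [← Real.sqrt_mul (μ.kcov_self_nonneg f)]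
  refine Real.le_sqrt_of_sq_le ?_
  simp only [kcov_eq, E]
  refine Finset.sum_sq_le_sum_mul_sum_of_sq_le_mul _
    (fun s _ => mul_nonneg (μ.nonneg s) (mul_self_nonneg _))
    (fun s _ => mul_nonneg (μ.nonneg s) (mul_self_nonneg _)) fun s _ => le_of_eq (by ring)

theorem sqrt_kcov_le {f : S → ℝ} {a : ℝ} (ha : 0 ≤ a) (h : ∀ s, |f s| ≤ a) :
    √(μ.kcov f f) ≤ a := by
  rw [Real.sqrt_le_left ha]
  have h1 : μ.E (fun s => f s * f s) ≤ μ.E fun _ => a ^ 2 := μ.E_mono fun s => by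
    rw [← sq]; exact sq_le_sq' (abs_le.1 (h s)).1 (abs_le.1 (h s)).2
  rw [E_const] at h1
  unfold kcov
  nlinarith [mul_self_nonneg (μ.E f)]

theorem neg_kcov_le_sqrt (f g : S → ℝ) : -μ.kcov f g ≤ √(μ.kcov f f) * √(μ.kcov g g) := by
  have h := μ.kcov_le_sqrt (fun s => (-1) * f s) g
  have e : μ.kcov (fun s => (-1) * f s) (fun s => (-1) * f s) = μ.kcov f f := by
    rw [kcov_smul, kcov_comm, kcov_smul]; ring
  rw [e, kcov_smul] at h
  linarith

end FinLaw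

namespace FKS
variable {Ω : Type} [Fintype Ω] {r : ℕ} (T : FKS Ω r)

theorem kcov_ex {p i : ℕ} (hpi : p ≤ i) (hi : i ≤ r) (f : Ω → ℝ) {g : Ω → ℝ} (hg : T.Inv i g)
    (z : Ω) : (T.law p z).kcov (T.ex i f) g = (T.law p z).kcov f g := by
  unfold FinLaw.kcov
  simp only [← Kern.ex_eq_E]
  rw [T.ex_ex hpi hi, ← T.ex_ex hpi hi fun ω => f ω * g ω]
  congr 2
  funext ω
  simp only [mul_comm _ (g _)]
  rw [T.ex_inv_mul hg]

theorem kcov_split {p i : ℕ} (hpi : p ≤ i) (hi : i ≤ r) (f : Ω → ℝ) (z : Ω) :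
    (T.law p z).kcov f f = (T.law p z).kcov (T.ex i f) (T.ex i f) +
      T.ex p (fun ω => (f ω - T.ex i f ω) ^ 2) z := by
  have h1 := T.kcov_ex hpi hi f (T.inv_ex i f) z
  have h2 : (T.law p z).E (T.ex i f) = (T.law p z).E f := T.ex_ex hpi hi f z
  have h3 : (fun ω => (f ω - T.ex i f ω) ^ 2) = fun ω =>
      f ω * f ω - 2 * (f ω * T.ex i f ω) + T.ex i f ω * T.ex i f ω := by funext ω; ring
  rw [h3, Kern.ex_eq_E, FinLaw.E_add, FinLaw.E_sub, FinLaw.E_smul]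
  unfold FinLaw.kcov at h1 ⊢
  rw [h2] at h1 ⊢
  linarith

end FKS

/-- The data of the key lemma. -/
structure Flips {Ω G : Type} [Fintype Ω] {r : ℕ} (S : FKS Ω r) (p : ℕ) (τ : ℝ) (V : Ω → ℝ)
    (fl : G → Ω → Ω) (z X : G → Ω → ℝ) : Prop where
  hom : ∀ a, Kern.Hom r S.toKern S.toKern (fl a)
  rel : ∀ a ω, S.rel p ω (fl a ω)
  zinv : ∀ a, S.Inv (p + 1) (z a)
  zsq : ∀ a ω, z a ω * z a ω = 1
  zfl : ∀ a ω, z a (fl a ω) = -z a ω
  zne : ∀ a b ω, b ≠ a → z b (fl a ω) = z b ω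
  Xfl : ∀ a b ω, X b (fl a ω) = X b ω
  Xle : ∀ a ω, |X a ω| ≤ 1
  Vfl : ∀ a ω, V (fl a ω) = V ω + -(2 * τ) * (z a ω * X a ω)

namespace Flips
variable {Ω G : Type} [Fintype Ω] {r : ℕ} {S : FKS Ω r} {p : ℕ} {τ : ℝ} {V : Ω → ℝ}
  {fl : G → Ω → Ω} {z X : G → Ω → ℝ} (e : Expo r)

theorem abs_z (h : Flips S p τ V fl z X) (a : G) (ω : Ω) : |z a ω| = 1 := by
  have := h.zsq a ω
  rw [← abs_mul_abs_self] at this
  nlinarith [abs_nonneg (z a ω)]

/-- Logarithm of the ratio of the densities at `fl a ω` and `ω`. -/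
noncomputable def lr (S : FKS Ω r) (p : ℕ) (τ : ℝ) (V : Ω → ℝ) (z X : G → Ω → ℝ) (a : G)
    (ω : Ω) : ℝ :=
  -(2 * τ) * (z a ω * X a ω) - ∑ i ∈ Ico (p + 1) (r + 1),
    e.d i * (S.tilt e V).lp e (fun ω => -(2 * τ) * (z a ω * X a ω)) i ω

theorem tau_fl (h : Flips S p τ V fl z X) (hp : p ≤ r) (a : G) (ω : Ω) :
    S.tau e V p (fl a ω) = S.tau e V p ω * Real.exp (lr e S p τ V z X a ω) := by
  unfold FKS.tau lr
  rw [← Real.exp_add]
  congr 1
  have hsplit : ∀ f : ℕ → ℝ, ∑ i ∈ range (r + 1), f i =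
      ∑ i ∈ range (p + 1), f i + ∑ i ∈ Ico (p + 1) (r + 1), f i := fun f =>
    (Finset.sum_range_add_sum_Ico f (by omega)).symm
  have h1 := e.sum_d_top
  rw [hsplit] at h1
  rw [hsplit, hsplit fun i => e.d i * (V ω - S.lp e V (max i p) ω)]
  have a1 : ∑ i ∈ range (p + 1), e.d i * (V (fl a ω) - S.lp e V (max i p) (fl a ω)) =
      ∑ i ∈ range (p + 1), e.d i * (V ω - S.lp e V (max i p) ω) +
        (∑ i ∈ range (p + 1), e.d i) * (-(2 * τ) * (z a ω * X a ω)) := by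
    rw [Finset.sum_mul, ← sum_add_distrib]
    refine sum_congr rfl fun i hi => ?_
    have hi' : i ≤ p := by have := mem_range.1 hi; omega
    rw [max_eq_right hi', h.Vfl, ← S.inv_lp e V hp ω _ (h.rel a ω)]; ring
  have a2 : ∑ i ∈ Ico (p + 1) (r + 1), e.d i * (V (fl a ω) - S.lp e V (max i p) (fl a ω)) =
      ∑ i ∈ Ico (p + 1) (r + 1), e.d i * (V ω - S.lp e V (max i p) ω) +
        (∑ i ∈ Ico (p + 1) (r + 1), e.d i) * (-(2 * τ) * (z a ω * X a ω)) -
        ∑ i ∈ Ico (p + 1) (r + 1),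
          e.d i * (S.tilt e V).lp e (fun ω => -(2 * τ) * (z a ω * X a ω)) i ω := by
    rw [Finset.sum_mul, ← sum_add_distrib, ← sum_sub_distrib]
    refine sum_congr rfl fun i hi => ?_
    have hi' : p ≤ i := by have := (mem_Ico.1 hi).1; omega
    rw [max_eq_left hi', ← (h.hom a).lp e V i ω, S.lp_tilt]
    simp only [h.Vfl]; ring
  rw [a1, a2]
  linear_combination (-(2 * τ) * (z a ω * X a ω)) * h1

/-- Discrete integration by parts. -/
theorem ibp (h : Flips S p τ V fl z X) (hp : p ≤ r) (a : G) {g : Ω → ℝ}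
    (hg : ∀ ω, g (fl a ω) = g ω) (ω₀ : Ω) :
    (S.tilt e V).ex p (fun ω => z a ω * g ω) ω₀ = (S.tilt e V).ex p
      (fun ω => (1 / 2 * z a ω * (1 - Real.exp (lr e S p τ V z X a ω))) * g ω) ω₀ := by
  have h1 := h.hom a p hp (fun ω => S.tau e V p ω * (z a ω * g ω)) ω₀
  rw [← S.inv_ex p _ ω₀ _ (h.rel a ω₀)] at h1
  simp only [h.tau_fl e hp, h.zfl, hg] at h1
  rw [FKS.tilt_ex, FKS.tilt_ex]
  have h2 : (fun ω => S.tau e V p ω *
      ((1 / 2 * z a ω * (1 - Real.exp (lr e S p τ V z X a ω))) * g ω)) = fun ω =>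
      1 / 2 * (S.tau e V p ω * (z a ω * g ω)) +
        1 / 2 * (S.tau e V p ω * Real.exp (lr e S p τ V z X a ω) * (-z a ω * g ω)) := by
    funext ω; ring
  rw [h2, Kern.ex_add, Kern.ex_smul, Kern.ex_smul, h1]; ring

theorem kcov_ibp (h : Flips S p τ V fl z X) (hp : p ≤ r) (a : G) {g : Ω → ℝ}
    (hg : ∀ ω, g (fl a ω) = g ω) (ω₀ : Ω) :
    ((S.tilt e V).law p ω₀).kcov (z a) g = ((S.tilt e V).law p ω₀).kcov
      (fun ω => 1 / 2 * z a ω * (1 - Real.exp (lr e S p τ V z X a ω))) g := by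
  have h1 := h.ibp e hp a hg ω₀
  have h2 := h.ibp e hp a (g := fun _ => 1) (fun _ => rfl) ω₀
  simp only [mul_one] at h2
  unfold FinLaw.kcov
  simp only [← Kern.ex_eq_E]
  rw [h1, ← h2]

theorem sum_d_Ico (hp : p ≤ r) : ∑ i ∈ Ico (p + 1) (r + 1), e.d i = 1 - e.m (p + 1) := by
  have := Finset.sum_range_add_sum_Ico e.d (show p + 1 ≤ r + 1 by omega)
  rw [e.sum_d, e.sum_d_top] at this
  linarith

theorem lr_bounds (h : Flips S p τ V fl z X) (hp : p ≤ r) (hτ0 : 0 ≤ τ) (hτ : τ ≤ 1 / 4)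
    (a : G) (ω : Ω) :
    |1 / 2 * z a ω * (1 - Real.exp (lr e S p τ V z X a ω))| ≤ 1 ∧
    |1 / 2 * z a ω * (1 - Real.exp (lr e S p τ V z X a ω)) - τ * (X a ω -
      ∑ i ∈ Ico (p + 1) (r + 1), e.d i * (S.tilt e V).ex i (X a) ω)| ≤ 10 * τ ^ 2 := by
  set T := S.tilt e V
  have hδ : ∀ ω, |-(2 * τ) * (z a ω * X a ω)| ≤ 2 * τ := fun ω => by
    rw [abs_mul, abs_mul, h.abs_z, one_mul, abs_neg, abs_of_nonneg (by positivity)]
    exact mul_le_of_le_one_right (by positivity) (h.Xle a ω)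
  have hd : ∀ i ∈ Ico (p + 1) (r + 1), 0 ≤ e.d i := fun i hi =>
    (e.d_pos (by have := (mem_Ico.1 hi).2; omega)).le
  have hs : ∑ i ∈ Ico (p + 1) (r + 1), e.d i ≤ 1 := by
    rw [sum_d_Ico e hp]; linarith [e.pos hp]
  have wsum : ∀ (f : ℕ → ℝ) (c : ℝ), 0 ≤ c → (∀ i ∈ Ico (p + 1) (r + 1), |f i| ≤ c) →
      |∑ i ∈ Ico (p + 1) (r + 1), e.d i * f i| ≤ c := by
    intro f c hc hf
    refine (abs_sum_le_sum_abs _ _).trans ?_
    calc ∑ i ∈ Ico (p + 1) (r + 1), |e.d i * f i| ≤ ∑ i ∈ Ico (p + 1) (r + 1), e.d i * c :=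
          sum_le_sum fun i hi => by
            rw [abs_mul, abs_of_nonneg (hd i hi)]
            exact mul_le_mul_of_nonneg_left (hf i hi) (hd i hi)
      _ ≤ c := by rw [← Finset.sum_mul]; exact mul_le_of_le_one_left hc hs
  have b1 : |lr e S p τ V z X a ω| ≤ 4 * τ := by
    have := wsum (fun i => T.lp e (fun ω => -(2 * τ) * (z a ω * X a ω)) i ω) (2 * τ)
      (by positivity) fun i _ => T.abs_lp_le e hδ i ω
    have h2 := abs_sub (-(2 * τ) * (z a ω * X a ω))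
      (∑ i ∈ Ico (p + 1) (r + 1), e.d i * T.lp e (fun ω => -(2 * τ) * (z a ω * X a ω)) i ω)
    have h3 := hδ ω
    unfold lr
    linarith
  have b2 : |lr e S p τ V z X a ω - -(2 * τ) * z a ω * (X a ω -
      ∑ i ∈ Ico (p + 1) (r + 1), e.d i * T.ex i (X a) ω)| ≤ (2 * τ) ^ 2 := by
    have := wsum (fun i => T.lp e (fun ω => -(2 * τ) * (z a ω * X a ω)) i ω -
      -(2 * τ) * z a ω * T.ex i (X a) ω) ((2 * τ) ^ 2) (by positivity) fun i hi => by
        have hi1 := (mem_Ico.1 hi).1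
        have hi2 := (mem_Ico.1 hi).2
        have h4 := T.abs_lp_sub_ex_le e (by linarith) hδ (show i ≤ r by omega) ω
        have hz : T.Inv i (z a) := (h.zinv a).of_le hi1
        rwa [Kern.ex_smul, T.ex_inv_mul hz, ← mul_assoc] at h4
    rw [← abs_neg]
    convert this using 2
    unfold lr
    simp only [mul_sub, sum_sub_distrib, Finset.mul_sum]
    rw [show ∑ i ∈ Ico (p + 1) (r + 1), e.d i * (-(2 * τ) * z a ω * T.ex i (X a) ω) =
      ∑ i ∈ Ico (p + 1) (r + 1), -(2 * τ) * z a ω * (e.d i * T.ex i (X a) ω) from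
        sum_congr rfl fun i _ => by ring]
    ring
  set L := lr e S p τ V z X a ω
  set W := X a ω - ∑ i ∈ Ico (p + 1) (r + 1), e.d i * T.ex i (X a) ω
  have hL1 : |L| ≤ 1 := by linarith
  have c1 := Real.abs_exp_sub_one_le hL1
  have c2 := Real.abs_exp_sub_one_sub_id_le hL1
  have c3 : L ^ 2 ≤ (4 * τ) ^ 2 := sq_le_sq' (abs_le.1 b1).1 (abs_le.1 b1).2
  constructor
  · rw [abs_mul, abs_mul, h.abs_z, abs_sub_comm, abs_of_pos (by norm_num : (0 : ℝ) < 1 / 2)]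
    linarith
  · have e1 : 1 / 2 * z a ω * (1 - Real.exp L) - τ * W =
        -(1 / 2) * z a ω * ((Real.exp L - 1 - L) + (L - -(2 * τ) * z a ω * W)) := by
      linear_combination (τ * W) * h.zsq a ω
    rw [e1, abs_mul, abs_mul, h.abs_z, abs_neg, abs_of_pos (by norm_num : (0 : ℝ) < 1 / 2)]
    have := abs_add_le (Real.exp L - 1 - L) (L - -(2 * τ) * z a ω * W)
    nlinarith

/-- **Key lemma.** -/
theorem key [Fintype G] [DecidableEq G] (h : Flips S p τ V fl z X) (hp : p < r) (hτ0 : 0 ≤ τ)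
    (hτ : τ ≤ 1 / 4) (u : G → ℝ) (hu : ∀ a, |u a| ≤ 1) (ω₀ : Ω) :
    τ * e.m (p + 1) * (S.tilt e V).ex p (fun ω => (∑ a, u a * X a ω -
        (S.tilt e V).ex (p + 1) (fun ω => ∑ a, u a * X a ω) ω) ^ 2) ω₀ ≤
      Fintype.card G * √(2 * Fintype.card G) + 20 * τ ^ 2 * (Fintype.card G : ℝ) ^ 2 := by
  set T := S.tilt e V
  set μ := T.law p ω₀
  set c : ℝ := (Fintype.card G : ℝ)
  set m := e.m (p + 1)
  set F : Ω → ℝ := fun ω => ∑ a, u a * X a ω with hF
  set Z : Ω → ℝ := fun ω => ∑ a, u a * z a ω with hZ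
  set ρ : G → Ω → ℝ := fun a ω => 1 / 2 * z a ω * (1 - Real.exp (lr e S p τ V z X a ω)) with hρ
  set R : Ω → ℝ := fun ω => ∑ a, u a * ρ a ω -
    τ * (F ω - ∑ i ∈ Ico (p + 1) (r + 1), e.d i * T.ex i F ω) with hR
  have hc : 0 ≤ c := Nat.cast_nonneg _
  have hm : 0 < m := e.pos hp.le
  have usum : ∀ (f : G → ℝ) (b : ℝ), (∀ a, |f a| ≤ b) → |∑ a, u a * f a| ≤ b * c := by
    intro f b hf
    refine (abs_sum_le_sum_abs _ _).trans ?_
    calc ∑ a, |u a * f a| ≤ ∑ _a : G, b := sum_le_sum fun a _ => by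
          rw [abs_mul]
          exact (mul_le_of_le_one_left (abs_nonneg _) (hu a)).trans (hf a)
      _ = b * c := by simp [c, mul_comm]
  have hFb : ∀ ω, |F ω| ≤ c := fun ω => by simpa using usum _ 1 fun a => h.Xle a ω
  have hRb : ∀ ω, |R ω| ≤ 10 * τ ^ 2 * c := by
    intro ω
    have := usum _ _ fun a => (h.lr_bounds e hp.le hτ0 hτ a ω).2
    convert this using 2
    have e1 : ∀ i, T.ex i F ω = ∑ a, u a * T.ex i (X a) ω := fun i => by
      rw [hF, Kern.ex_sum]; simp only [Kern.ex_smul]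
    have e2 : ∑ i ∈ Ico (p + 1) (r + 1), e.d i * T.ex i F ω =
        ∑ a, u a * ∑ i ∈ Ico (p + 1) (r + 1), e.d i * T.ex i (X a) ω := by
      simp only [e1, Finset.mul_sum]
      rw [Finset.sum_comm]
      exact sum_congr rfl fun a _ => sum_congr rfl fun i _ => by ring
    show ∑ a, u a * ρ a ω - τ * (∑ a, u a * X a ω - _) = _
    rw [e2, ← sum_sub_distrib, Finset.mul_sum, ← sum_sub_distrib]
    exact sum_congr rfl fun a _ => by ring
  have hZinv : T.Inv (p + 1) Z := fun x y hxy => by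
    simp only [hZ]; exact sum_congr rfl fun a _ => by rw [h.zinv a x y hxy]
  have hρR : ∀ g, μ.kcov (fun ω => ∑ a, u a * ρ a ω) g = μ.kcov R g +
      τ * (μ.kcov F g - ∑ i ∈ Ico (p + 1) (r + 1), e.d i * μ.kcov (T.ex i F) g) := by
    intro g
    rw [hR, μ.kcov_sub, μ.kcov_smul, μ.kcov_sub, μ.kcov_sum (Ico (p + 1) (r + 1))]
    simp only [FinLaw.kcov_smul]; ring
  set s := √(μ.kcov (T.ex (p + 1) F) (T.ex (p + 1) F))
  set x := √(μ.kcov Z Z)
  have hs0 : 0 ≤ s := Real.sqrt_nonneg _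
  have hx0 : 0 ≤ x := Real.sqrt_nonneg _
  have hsc : s ≤ c := μ.sqrt_kcov_le hc fun ω => T.abs_ex_le _ hFb ω
  have hK : μ.kcov F Z ≤ s * x := by
    rw [← T.kcov_ex (Nat.le_succ p) hp F hZinv]; exact μ.kcov_le_sqrt _ _
  have hRs : √(μ.kcov R R) ≤ 10 * τ ^ 2 * c := μ.sqrt_kcov_le (by positivity) hRb
  -- the variance of `Z`
  have v1 : μ.kcov Z Z ≤ μ.kcov (fun ω => ∑ a, u a * ρ a ω) Z + 2 * c := by
    have e1 : μ.kcov Z Z = ∑ a, u a * μ.kcov (z a) Z := by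
      conv_lhs => rw [show μ.kcov Z Z = μ.kcov (fun ω => ∑ a, u a * z a ω) Z from rfl]
      rw [μ.kcov_sum]; simp only [FinLaw.kcov_smul]
    rw [e1, μ.kcov_sum]
    simp only [FinLaw.kcov_smul]
    have e2 : 2 * c = ∑ _a : G, (2 : ℝ) := by simp [c, mul_comm]
    rw [e2, ← sum_add_distrib]
    refine sum_le_sum fun a _ => ?_
    have e3 := h.kcov_ibp e hp.le a (g := fun ω => Z ω - u a * z a ω) (fun ω => by
      simp only [hZ]
      rw [← Finset.add_sum_erase _ _ (mem_univ a), ← Finset.add_sum_erase _ _ (mem_univ a),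
        add_sub_cancel_left, add_sub_cancel_left]
      exact sum_congr rfl fun b hb => by rw [h.zne a b ω (ne_of_mem_erase hb)]) ω₀
    change μ.kcov (z a) _ = μ.kcov (ρ a) _ at e3
    rw [μ.kcov_comm (z a), μ.kcov_comm (ρ a), μ.kcov_sub, μ.kcov_sub, μ.kcov_smul, μ.kcov_smul,
      μ.kcov_comm Z, μ.kcov_comm Z] at e3
    have z1 : √(μ.kcov (z a) (z a)) ≤ 1 := μ.sqrt_kcov_le zero_le_one fun ω => (h.abs_z a ω).le
    have r1 : √(μ.kcov (ρ a) (ρ a)) ≤ 1 :=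
      μ.sqrt_kcov_le zero_le_one fun ω => (h.lr_bounds e hp.le hτ0 hτ a ω).1
    have k1 : μ.kcov (z a) (z a) ≤ 1 := (μ.kcov_le_sqrt _ _).trans
      (mul_le_one₀ z1 (Real.sqrt_nonneg _) z1)
    have k2 : -μ.kcov (z a) (ρ a) ≤ 1 := (μ.neg_kcov_le_sqrt _ _).trans
      (mul_le_one₀ z1 (Real.sqrt_nonneg _) r1)
    have u2 : u a * u a ≤ 1 := by
      rw [← abs_mul_abs_self]; exact mul_le_one₀ (hu a) (abs_nonneg _) (hu a)
    have e4 : u a * μ.kcov (z a) Z = u a * μ.kcov (ρ a) Z +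
        u a * u a * (μ.kcov (z a) (z a) - μ.kcov (z a) (ρ a)) := by linear_combination u a * e3
    nlinarith [mul_self_nonneg (u a)]
  have v2 : μ.kcov (fun ω => ∑ a, u a * ρ a ω) Z ≤ (10 * τ ^ 2 * c + τ * m * s) * x := by
    rw [hρR]
    have e1 : ∑ i ∈ Ico (p + 1) (r + 1), e.d i * μ.kcov (T.ex i F) Z =
        (1 - m) * μ.kcov F Z := by
      rw [← sum_d_Ico e hp.le, Finset.sum_mul]
      refine sum_congr rfl fun i hi => ?_
      have hi1 := (mem_Ico.1 hi).1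
      have hi2 := (mem_Ico.1 hi).2
      rw [T.kcov_ex (by omega) (by omega) F (hZinv.of_le hi1)]
    have e2 := (μ.kcov_le_sqrt R Z).trans (mul_le_mul_of_nonneg_right hRs hx0)
    have e3 := mul_le_mul_of_nonneg_left hK (mul_nonneg hτ0 hm.le)
    rw [e1]; linarith
  have hx : x ≤ √(2 * c) + (10 * τ ^ 2 * c + τ * m * s) := by
    have hxx : x * x = μ.kcov Z Z := Real.mul_self_sqrt (μ.kcov_self_nonneg Z)
    have hq : √(2 * c) * √(2 * c) = 2 * c := Real.mul_self_sqrt (by positivity)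
    have hy : 0 ≤ 10 * τ ^ 2 * c + τ * m * s := by positivity
    by_contra hlt
    push Not at hlt
    nlinarith [Real.sqrt_nonneg (2 * c)]
  -- the covariance of `Z` and `F`
  have w1 : μ.kcov Z F = μ.kcov (fun ω => ∑ a, u a * ρ a ω) F := by
    conv_lhs => rw [show μ.kcov Z F = μ.kcov (fun ω => ∑ a, u a * z a ω) F from rfl]
    rw [μ.kcov_sum, μ.kcov_sum]
    simp only [FinLaw.kcov_smul]
    refine sum_congr rfl fun a _ => ?_
    rw [h.kcov_ibp e hp.le a (g := F) fun ω => by simp only [hF, h.Xfl]]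
  have w2 : ∑ i ∈ Ico (p + 1) (r + 1), e.d i * μ.kcov (T.ex i F) F ≤ (1 - m) * μ.kcov F F := by
    rw [← sum_d_Ico e hp.le, Finset.sum_mul]
    refine sum_le_sum fun i hi => ?_
    have hi1 := (mem_Ico.1 hi).1
    have hi2 := (mem_Ico.1 hi).2
    refine mul_le_mul_of_nonneg_left ?_ (e.d_pos (by omega)).le
    rw [μ.kcov_comm, ← T.kcov_ex (by omega) (by omega) F (T.inv_ex i F),
      T.kcov_split (p := p) (i := i) (by omega) (by omega) F ω₀]
    exact le_add_of_nonneg_right (T.ex_nonneg _ (fun ω => sq_nonneg _) _)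
  have w3 : -μ.kcov R F ≤ 10 * τ ^ 2 * c * c := (μ.neg_kcov_le_sqrt R F).trans
    (mul_le_mul hRs (μ.sqrt_kcov_le hc hFb) (Real.sqrt_nonneg _) (by positivity))
  have w4 := T.kcov_split (Nat.le_succ p) hp F ω₀
  have hss : s * s = μ.kcov (T.ex (p + 1) F) (T.ex (p + 1) F) :=
    Real.mul_self_sqrt (μ.kcov_self_nonneg _)
  rw [hρR, μ.kcov_comm Z] at w1
  change μ.kcov F F = _ at w4
  rw [← hss] at w4
  set D := T.ex p (fun ω => (F ω - T.ex (p + 1) F ω) ^ 2) ω₀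
  have w5 := mul_le_mul_of_nonneg_left w2 hτ0
  have w6 := mul_le_mul_of_nonneg_left hx hs0
  have w7 := mul_le_mul_of_nonneg_right hsc (Real.sqrt_nonneg (2 * c))
  have w8 := mul_le_mul_of_nonneg_right hsc (show 0 ≤ 10 * τ ^ 2 * c by positivity)
  have w9 : τ * m * μ.kcov F F = τ * m * (s * s) + τ * m * D := by rw [w4]; ring
  nlinarith

end Flips

end Crest.Agent.R141
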