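import Crest.Agent.R141.CDefs
import Crest.Agent.R141.KeyAbs

/-!
# Row 141: the key lemma (small covariance beyond the next level; idea of helper69)

Instantiation of the abstract key lemma `Flips.key` at the flips of the coordinates `zc g`.
-/

set_option autoImplicit false

namespace Crest.Agent.R141

open Finset Crest.ProbabilityR.Diluted
open scoped BigOperators

/-- The flip of one coordinate. -/
def keyFlip {I : Type} [DecidableEq I] (i : I) (ω : I → Bool) : I → Bool :=
  Function.update ω i (!ω i)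

theorem keyFlip_self {I : Type} [DecidableEq I] (i : I) (ω : I → Bool) :
    keyFlip i ω i = !ω i := by simp [keyFlip]

theorem keyFlip_ne {I : Type} [DecidableEq I] {i l : I} (h : l ≠ i) (ω : I → Bool) :
    keyFlip i ω l = ω l := by simp [keyFlip, h]

theorem keyFlip_flip {I : Type} [DecidableEq I] (i : I) : Function.Involutive (keyFlip i) := by
  intro ω
  funext l
  by_cases h : l = i
  · subst h; simp [keyFlip_self]
  · simp [keyFlip_ne h]

theorem key_lvl_A (r l j : ℕ) (a b : Bool) :
    (FKS.lvl Bool r l).A j a (!b) = (FKS.lvl Bool r l).A j (!a) b := by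
  rcases le_or_gt l j with h | h
  · rw [FKS.lvl_A_of_le _ _ h, FKS.lvl_A_of_le _ _ h]
    cases a <;> cases b <;> simp
  · rw [FKS.lvl_A_of_lt _ _ h, FKS.lvl_A_of_lt _ _ h]

theorem keyFlip_hom {I : Type} [Fintype I] [DecidableEq I] (r : ℕ) (lev : I → ℕ) (i : I) :
    Kern.Hom r (FKS.pi fun i => FKS.lvl Bool r (lev i)).toKern
      (FKS.pi fun i => FKS.lvl Bool r (lev i)).toKern (keyFlip i) := by
  intro j _ f z
  unfold Kern.ex
  rw [← Equiv.sum_comp (keyFlip_flip i).toPerm]
  refine sum_congr rfl fun ω _ => ?_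
  simp only [Function.Involutive.coe_toPerm, keyFlip_flip i ω]
  congr 1
  rw [FKS.pi_A, FKS.pi_A]
  refine prod_congr rfl fun l _ => ?_
  by_cases h : l = i
  · subst h
    rw [keyFlip_self, keyFlip_self, key_lvl_A]
  · rw [keyFlip_ne h, keyFlip_ne h]

theorem key_spinVal_not (b : Bool) : spinVal (!b) = -spinVal b := by
  cases b <;> simp [spinVal]

theorem key : ∃ A : ℝ, 0 ≤ A ∧
    ∀ {I C : Type} [Fintype I] [DecidableEq I] [Fintype C] [Nonempty C] {r : ℕ} (e : Expo r)
      (lev : I → ℕ) (p : ℕ), p < r → ∀ (zc : C → I), Function.Injective zc →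
      (∀ g, lev (zc g) = p + 1) → ∀ (ε : (I → Bool) → C → ℝ), (∀ ω g, |ε ω g| ≤ 1) →
      (∀ ω g g' b, ε (Function.update ω (zc g') b) g = ε ω g) →
      ∀ (V₀ : (I → Bool) → ℝ), (∀ ω g b, V₀ (Function.update ω (zc g) b) = V₀ ω) →
      ∀ τ : ℝ, 0 < τ → ∀ (G : FKS (I → Bool) r),
      G = (FKS.pi fun i => FKS.lvl Bool r (lev i)).tilt e
        (fun ω => V₀ ω + τ * ∑ g, spinVal (ω (zc g)) * ε ω g) →
      ∀ (z : I → Bool) (u : C → ℝ), (∀ g, |u g| ≤ 1) →
        G.ex p (fun ω => (𝔼 g, u g * (ε ω g - G.ex (p + 1) (fun a => ε a g) ω)) ^ 2) z ≤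
          A * (1 / (τ * Real.sqrt (Fintype.card C)) + τ) / e.m (p + 1) := by
  refine ⟨20, by norm_num, ?_⟩
  intro I C _ _ _ _ r e lev p hp zc hzc hlev ε hε hεu V₀ hV₀ τ hτ G hG z u hu
  classical
  have hm : 0 < e.m (p + 1) := e.pos hp.le
  have hm1 : e.m (p + 1) ≤ 1 := e.le_one (by omega)
  have hc : (0 : ℝ) < Fintype.card C := by exact_mod_cast Fintype.card_pos
  have hs : 0 < Real.sqrt (Fintype.card C) := Real.sqrt_pos.2 hc
  rw [le_div_iff₀ hm]
  rcases le_or_gt τ (1 / 4) with hτ4 | hτ4
  · have hF : Flips (FKS.pi fun i => FKS.lvl Bool r (lev i)) p τ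
        (fun ω => V₀ ω + τ * ∑ g, spinVal (ω (zc g)) * ε ω g) (fun a => keyFlip (zc a))
        (fun a ω => spinVal (ω (zc a))) (fun a ω => ε ω a) :=
      { hom := fun a => keyFlip_hom r lev (zc a)
        rel := fun a ω => by
          rw [FKS.pi_rel]
          intro l
          rw [FKS.lvl_rel]
          intro hl
          have : l ≠ zc a := by
            rintro rfl
            rw [hlev] at hl
            omega
          rw [keyFlip_ne this]
        zinv := fun a ω ω' h => by
          have := (FKS.lvl_rel Bool r _ _ _ _).1 ((FKS.pi_rel _ _ _ _).1 h (zc a)) (hlev a).le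
          simp only [this]
        zsq := fun a ω => by cases ω (zc a) <;> simp [spinVal]
        zfl := fun a ω => by simp only [keyFlip_self, key_spinVal_not]
        zne := fun a b ω h => by simp only [keyFlip_ne (hzc.ne h)]
        Xfl := fun a b ω => hεu _ _ _ _
        Xle := fun a ω => hε ω a
        Vfl := fun a ω => by
          have h1 : ∀ g, ε (keyFlip (zc a) ω) g = ε ω g := fun g => hεu _ _ _ _
          have h2 : V₀ (keyFlip (zc a) ω) = V₀ ω := hV₀ _ _ _
          simp only [h1, h2]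
          rw [← Finset.add_sum_erase _ _ (mem_univ a),
            ← Finset.add_sum_erase _ (fun g => spinVal (ω (zc g)) * ε ω g) (mem_univ a),
            keyFlip_self, key_spinVal_not,
            sum_congr rfl fun g hg => by rw [keyFlip_ne (hzc.ne (ne_of_mem_erase hg))]]
          ring }
    have hk := hF.key e hp hτ.le hτ4 u hu z
    rw [← hG] at hk
    have e1 : (fun ω => (𝔼 g, u g * (ε ω g - G.ex (p + 1) (fun a => ε a g) ω)) ^ 2) =
        fun ω => ((Fintype.card C : ℝ) ^ 2)⁻¹ * (∑ a, u a * ε ω a -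
          G.ex (p + 1) (fun ω => ∑ a, u a * ε ω a) ω) ^ 2 := by
      funext ω
      rw [Finset.expect_eq_sum_div_card, card_univ, G.ex_sum]
      simp only [Kern.ex_smul, mul_sub, sum_sub_distrib]
      field_simp
    rw [e1, Kern.ex_smul]
    set W := G.ex p (fun ω => (∑ a, u a * ε ω a -
          G.ex (p + 1) (fun ω => ∑ a, u a * ε ω a) ω) ^ 2) z
    set s := Real.sqrt (Fintype.card C) with hsdef
    have hss : s * s = Fintype.card C := Real.mul_self_sqrt hc.le
    have h2 : √(2 * (Fintype.card C : ℝ)) ≤ 20 * s := by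
      rw [Real.sqrt_le_left (by positivity)]
      nlinarith
    have h3 : τ * e.m (p + 1) * W ≤
        Fintype.card C * (20 * s) + 20 * τ ^ 2 * (Fintype.card C : ℝ) ^ 2 :=
      hk.trans (by gcongr)
    rw [← hss] at h3 ⊢
    have h4 : ((s * s) ^ 2)⁻¹ * W * e.m (p + 1) = (τ * e.m (p + 1) * W) / (τ * (s * s) ^ 2) := by
      field_simp
    rw [h4, div_le_iff₀ (by positivity)]
    refine h3.trans (le_of_eq ?_)
    field_simp
  · have h1 : G.ex p (fun ω => (𝔼 g, u g * (ε ω g - G.ex (p + 1) (fun a => ε a g) ω)) ^ 2) z ≤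
        G.ex p (fun _ => 4) z := by
      refine G.ex_mono p (fun ω => ?_) z
      have : |𝔼 g, u g * (ε ω g - G.ex (p + 1) (fun a => ε a g) ω)| ≤ 2 := by
        refine (Finset.abs_expect_le _ _).trans (Finset.expect_le univ_nonempty fun g _ => ?_)
        rw [abs_mul]
        have h1 := abs_sub (ε ω g) (G.ex (p + 1) (fun a => ε a g) ω)
        have h2 := G.abs_ex_le (p + 1) (fun a => hε a g) ω
        have h3 := hε ω g
        calc |u g| * |ε ω g - G.ex (p + 1) (fun a => ε a g) ω| ≤ 1 * 2 := by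
              gcongr
              · exact hu g
              · linarith
          _ = 2 := one_mul _
      nlinarith [abs_nonneg (𝔼 g, u g * (ε ω g - G.ex (p + 1) (fun a => ε a g) ω)),
        sq_abs (𝔼 g, u g * (ε ω g - G.ex (p + 1) (fun a => ε a g) ω))]
    rw [Kern.ex_const] at h1
    have h2 : 0 ≤ 1 / (τ * Real.sqrt (Fintype.card C)) := by positivity
    have h3 := mul_le_mul h1 hm1 hm.le (by norm_num)
    linarith

end Crest.Agent.R141
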