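import Crest.Agent.R141.CDefs

/-!
# Row 141: class rounding

Recipe. Split `ε - ex p ε = (ex (p+1) ε - ex p ε) + (ε - ex (p+1) ε)`.
First part: integrate `S` out first, `h γ g = (Kk γ).E fun S => ρ g γ S * ψ γ S (lab g)` has `|h| ≤ C₁`;
Cauchy–Schwarz in `g`, then Jensen (`E_sqrt_le`/`E_abs_le_sqrt`) in `γ`.
Second part: `ex 0 = ex 0 ∘ ex p` (`FKS.ex_ex`); fix the node `z` and `S` (`Kk`, `ρ` are constant on level-`p`
classes, `Kern.ex_congr` with `supp`; exchange `E_comm`). Let `ψ' γ S : Pat → [-1,1]` with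
`ψ γ S l = ψ' γ S (pat S l)` (choice), round it to the grid `ℤ/N`: a class
`cl γ ∈ (Pat → Fin (2N+1))`, at most `(2N+1)^P` classes, rounding error `≤ (2/N) 𝔼 g, ρ g z S`, of mean
`≤ 2 C₁/N ≤ θ`. For a class `c`, `u g = ρ g z S * c (pat S (lab g)) / C₂'` (`C₂' = C₂ + 1`) has `|u| ≤ 1` and
`ex p (1[cl = c] * 𝔼 g, u g (ε - ex (p+1) ε)) z ≤ χ` by Cauchy–Schwarz and `key`. `Λ = (2N+1)^P C₂'`.
-/

set_option autoImplicit false

namespace Crest.Agent.R141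

open Finset
open scoped BigOperators

/-- No rounding is needed: split along the values of the pattern. -/
theorem round_node {Ω C Pat : Type} [Fintype Ω] [Fintype C] [Fintype Pat] (μ : FinLaw Ω)
    (D : Ω → C → ℝ) {χ C₂ : ℝ} (hχ : 0 ≤ χ) (h₂ : 0 ≤ C₂)
    (key : ∀ u : C → ℝ, (∀ g, |u g| ≤ 1) → μ.E (fun ω => (𝔼 g, u g * D ω g) ^ 2) ≤ χ ^ 2)
    (ρ : C → ℝ) (hρ : ∀ g, 0 ≤ ρ g ∧ ρ g ≤ C₂) (pat : C → Pat) (φ : Ω → C → ℝ)
    (hφ : ∀ ω g, |φ ω g| ≤ 1) (hpat : ∀ ω g g', pat g = pat g' → φ ω g = φ ω g') :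
    μ.E (fun ω => 𝔼 g, ρ g * φ ω g * D ω g) ≤ Fintype.card Pat * (C₂ + 1) * χ := by
  classical
  have hC : 0 < C₂ + 1 := by linarith
  let φ' : Ω → Pat → ℝ := fun ω a => if h : ∃ g, pat g = a then φ ω h.choose else 0
  have h1 : ∀ ω a, |φ' ω a| ≤ 1 := fun ω a => by
    simp only [φ']
    split_ifs
    · exact hφ _ _
    · simp
  have h2 : ∀ ω g, φ' ω (pat g) = φ ω g := fun ω g => by
    have h : ∃ g', pat g' = pat g := ⟨g, rfl⟩
    simp only [φ', dif_pos h]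
    exact hpat ω _ _ h.choose_spec
  let u : Pat → C → ℝ := fun a g => if pat g = a then ρ g / (C₂ + 1) else 0
  have hu : ∀ a g, |u a g| ≤ 1 := fun a g => by
    simp only [u]
    split_ifs
    · rw [abs_of_nonneg (div_nonneg (hρ g).1 hC.le), div_le_one hC]
      linarith [(hρ g).2]
    · simp
  have h3 : ∀ ω, 𝔼 g, ρ g * φ ω g * D ω g ≤ ∑ a, (C₂ + 1) * |𝔼 g, u a g * D ω g| := fun ω => by
    have e : 𝔼 g, ρ g * φ ω g * D ω g = ∑ a, (C₂ + 1) * (φ' ω a * 𝔼 g, u a g * D ω g) := by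
      simp only [Finset.mul_expect, ← Finset.expect_sum_comm]
      refine Finset.expect_congr rfl fun g _ => ?_
      rw [Finset.sum_eq_single (pat g) (fun a _ ha => by simp [u, ha.symm]) (by simp), h2]
      simp only [u, if_true]
      field_simp
    rw [e]
    refine sum_le_sum fun a _ => mul_le_mul_of_nonneg_left ((le_abs_self _).trans ?_) hC.le
    rw [abs_mul]
    exact mul_le_of_le_one_left (abs_nonneg _) (h1 ω a)
  refine (μ.E_mono h3).trans ?_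
  rw [μ.E_sum, mul_assoc, ← nsmul_eq_mul, ← card_univ]
  refine sum_le_card_nsmul _ _ _ fun a _ => ?_
  rw [μ.E_smul]
  exact mul_le_mul_of_nonneg_left ((μ.E_abs_le_sqrt _).trans
    (Real.sqrt_le_iff.2 ⟨hχ, key _ (hu a)⟩)) hC.le

theorem round (P : ℕ) {C₁ C₂ θ : ℝ} (h₁ : 0 ≤ C₁) (h₂ : 0 ≤ C₂) (hθ : 0 < θ) : ∃ Λ : ℝ, 0 ≤ Λ ∧
    ∀ {Ω C 𝒮 L Pat : Type} [Fintype Ω] [Fintype C] [Nonempty C] [Fintype 𝒮] [Fintype Pat] {r : ℕ}
      (G : FKS Ω r) (z₀ : Ω) (p : ℕ), p < r → ∀ (ε : Ω → C → ℝ), (∀ ω g, |ε ω g| ≤ 1) →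
      ∀ χ : ℝ, 0 ≤ χ → (∀ (z : Ω) (u : C → ℝ), (∀ g, |u g| ≤ 1) →
        G.ex p (fun ω => (𝔼 g, u g * (ε ω g - G.ex (p + 1) (fun a => ε a g) ω)) ^ 2) z ≤ χ ^ 2) →
      ∀ (Kk : Ω → FinLaw 𝒮), (∀ z z', G.rel p z z' → Kk z = Kk z') →
      ∀ (ρ : C → Ω → 𝒮 → ℝ), (∀ g z z', G.rel p z z' → ρ g z = ρ g z') →
      (∀ g z S, 0 ≤ ρ g z S ∧ ρ g z S ≤ C₂) → (∀ g z, (Kk z).E (ρ g z) ≤ C₁) →
      ∀ (pat : 𝒮 → L → Pat), Fintype.card Pat ≤ P → ∀ (lab : C → L) (ψ : Ω → 𝒮 → L → ℝ),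
      (∀ γ S l, |ψ γ S l| ≤ 1) → (∀ γ S l l', pat S l = pat S l' → ψ γ S l = ψ γ S l') →
      G.ex 0 (fun γ => (Kk γ).E fun S =>
          𝔼 g, ρ g γ S * ψ γ S (lab g) * (ε γ g - G.ex p (fun a => ε a g) γ)) z₀ ≤
        C₁ * Real.sqrt (G.ex 0 (fun γ =>
          𝔼 g, (G.ex (p + 1) (fun a => ε a g) γ - G.ex p (fun a => ε a g) γ) ^ 2) z₀) +
        θ + Λ * χ := by
  refine ⟨P * (C₂ + 1), by positivity, ?_⟩
  intro Ω C 𝒮 L Pat _ _ _ _ _ r G z₀ p hp ε hε χ hχ key Kk hK ρ hρ hρ2 hρ1 pat hP lab ψ hψ hψ'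
  set Δ : Ω → C → ℝ := fun γ g =>
    G.ex (p + 1) (fun a => ε a g) γ - G.ex p (fun a => ε a g) γ with hΔ
  set D : Ω → C → ℝ := fun γ g => ε γ g - G.ex (p + 1) (fun a => ε a g) γ with hD
  have e : (fun γ => (Kk γ).E fun S =>
      𝔼 g, ρ g γ S * ψ γ S (lab g) * (ε γ g - G.ex p (fun a => ε a g) γ)) =
      fun γ => ((Kk γ).E fun S => 𝔼 g, ρ g γ S * ψ γ S (lab g) * Δ γ g) +
        (Kk γ).E fun S => 𝔼 g, ρ g γ S * ψ γ S (lab g) * D γ g := by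
    funext γ
    rw [← FinLaw.E_add]
    congr 1
    funext S
    rw [← Finset.expect_add_distrib]
    refine Finset.expect_congr rfl fun g _ => ?_
    simp only [hΔ, hD]
    ring
  have h1 : ∀ γ, ((Kk γ).E fun S => 𝔼 g, ρ g γ S * ψ γ S (lab g) * Δ γ g) ≤
      C₁ * Real.sqrt (𝔼 g, Δ γ g ^ 2) := fun γ => by
    simp only [← FinLaw.unif_E]
    rw [FinLaw.E_comm]
    refine le_trans ?_ (mul_le_mul_of_nonneg_left ((FinLaw.unif C).E_abs_le_sqrt (Δ γ)) h₁)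
    rw [← FinLaw.E_smul]
    refine FinLaw.E_mono _ fun g => le_trans (FinLaw.E_mono _ (g := fun S => |Δ γ g| * ρ g γ S)
      fun S => (le_abs_self _).trans ?_) ?_
    · rw [abs_mul, abs_mul, abs_of_nonneg (hρ2 g γ S).1, mul_comm]
      exact mul_le_mul_of_nonneg_left (mul_le_of_le_one_right (hρ2 g γ S).1 (hψ _ _ _))
        (abs_nonneg _)
    · rw [FinLaw.E_smul, mul_comm]
      exact mul_le_mul_of_nonneg_right (hρ1 g γ) (abs_nonneg _)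
  have h2 : ∀ z, G.ex p (fun γ => (Kk γ).E fun S => 𝔼 g, ρ g γ S * ψ γ S (lab g) * D γ g) z ≤
      P * (C₂ + 1) * χ := fun z => by
    rw [G.ex_congr p (g := fun γ => (Kk z).E fun S => 𝔼 g, ρ g z S * ψ γ S (lab g) * D γ g)
      fun γ hγ => by simp only [hK z γ (G.supp p z γ hγ), fun g => hρ g z γ (G.supp p z γ hγ)],
      Kern.ex_eq_E, FinLaw.E_comm, ← (Kk z).E_const (P * (C₂ + 1) * χ)]
    refine FinLaw.E_mono _ fun S => (round_node (G.law p z) D hχ h₂ (key z) (fun g => ρ g z S)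
      (fun g => hρ2 g z S) (fun g => pat S (lab g)) (fun γ g => ψ γ S (lab g))
      (fun γ g => hψ _ _ _) fun γ g g' h => hψ' γ S _ _ h).trans ?_
    have : (Fintype.card Pat : ℝ) ≤ P := by exact_mod_cast hP
    gcongr
  rw [e, G.ex_add, ← G.ex_ex (Nat.zero_le p) hp.le (fun γ => (Kk γ).E fun S =>
    𝔼 g, ρ g γ S * ψ γ S (lab g) * D γ g)]
  have h3 := G.ex_mono 0 h2 z₀
  have h4 := G.ex_mono 0 h1 z₀
  rw [G.ex_const] at h3
  rw [G.ex_smul] at h4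
  have h5 := mul_le_mul_of_nonneg_left ((G.law 0 z₀).E_sqrt_le (f := fun γ => 𝔼 g, Δ γ g ^ 2)
    fun γ => Finset.expect_nonneg fun g _ => sq_nonneg _) h₁
  simp only [← Kern.ex_eq_E] at h5
  linarith

end Crest.Agent.R141
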