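import Crest.Agent.R141.Xi2a
import Crest.Agent.R141.Round
import Crest.Agent.R141.Key

/-!
# Row 141: the correlation is small on average over the levels

Recipe. For each `B ≤ Bm` take `C₂, τ₀` from `xi₂_transfer` and `Λ` from `round` (`C₁ = 2 exp (2C₀)`,
`Pat = K → Fin (B+1) → Slot Bool κ r`, `pat S lab = fun k t j => if j ≤ p then Tr.map (· (lab k)) _ (S t j) else default`;
`psiBar` respects `pat` by `psi_congr`); take the worst case over `B ≤ Bm`; choose `τ`, then `c`, so that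
`χ = √(A (1/(τ √(c+1)) + τ) / m 1)` is small (`key` with `zc g = inr (inr (g, p))`, `ε = rd`, `e.m 1 ≤ e.m (p+1)`).
`Vp p = 𝔼 ξ', G'.ex 0 (𝔼 g, (…)²) root`, `∑ ≤ 1` by `sum_var_le`. Fix `(d, i)`. For `ξ' : Fin (c+1) → Gd` and `g` put
`ρ ξ' g = ` the `ρ` of `xi₂_transfer` for `ξ = g.removeNth ξ'`, `lab = (ξ' g).2` if `(ξ' g).1 = (d, i)`, else `0`
(`Fin.insertNth_self_removeNth`). For each `g`, `𝔼 ξ', Φ ξ' g = (|W| n)⁻¹ 𝔼 ξ, 𝔼 lab, Φ (insertNth g ((d,i),lab) ξ) g`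
(`pi_unif_E`, `pi_E_insertNth`); average over `g`, apply `round` to each `ξ'`, Jensen for the square root.
-/

set_option autoImplicit false

namespace Crest.Agent.R141

open Finset Crest.ProbabilityR.Diluted
open scoped BigOperators

theorem xi2b_E_expect {S G : Type} [Fintype S] [Fintype G] (μ : FinLaw S) (f : G → S → ℝ) :
    μ.E (fun s => 𝔼 g, f g s) = 𝔼 g, μ.E (f g) := by
  simp only [Fintype.expect_eq_sum_div_card, div_eq_inv_mul]
  rw [μ.E_smul, μ.E_sum]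

theorem xi2b_ex_expect {Ω G : Type} [Fintype Ω] [Fintype G] (S : Kern Ω) (j : ℕ) (f : G → Ω → ℝ)
    (z : Ω) : S.ex j (fun ω => 𝔼 g, f g ω) z = 𝔼 g, S.ex j (f g) z :=
  xi2b_E_expect (S.law j z) f

theorem xi2b_expect_insert {A : Type} [Fintype A] {c : ℕ} (g : Fin (c + 1))
    (H : A → (Fin c → A) → ℝ) :
    𝔼 ξ' : Fin (c + 1) → A, H (ξ' g) (g.removeNth ξ') = 𝔼 a, 𝔼 ξ : Fin c → A, H a ξ := by
  rw [← Finset.expect_product', Finset.univ_product_univ]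
  refine (Fintype.expect_equiv (Fin.insertNthEquiv (fun _ => A) g) _ _ fun x => ?_).symm
  simp [Fin.insertNthEquiv]

theorem xi2b_expect_ite {A L : Type} [Fintype A] [DecidableEq A] [Fintype L] (b : A) (h : L → ℝ) :
    𝔼 a : A × L, (if a.1 = b then h a.2 else 0) = (Fintype.card A : ℝ)⁻¹ * 𝔼 l, h l := by
  have h1 : 𝔼 a : A × L, (if a.1 = b then h a.2 else 0) =
      𝔼 a : A, 𝔼 l : L, (if a = b then h l else 0) := by
    rw [← Finset.expect_product', Finset.univ_product_univ]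
  have h2 : ∀ a : A, 𝔼 l : L, (if a = b then h l else 0) = if a = b then 𝔼 l, h l else 0 := by
    intro a
    split_ifs <;> simp
  rw [h1]
  simp only [h2]
  rw [Fintype.expect_eq_sum_div_card, div_eq_inv_mul]
  simp

theorem xi2b_abs_rd {ι C : Type} {r : ℕ} (ω : Co ι C r → Bool) (g : C) : |rd ω g| ≤ 1 := by
  unfold rd spinVal
  split_ifs <;> simp

/-- The key lemma for the gadget system. -/
theorem xi2b_key : ∃ A : ℝ, 0 ≤ A ∧ ∀ {r : ℕ} (e : Expo r) {W K ι C : Type} [Fintype ι]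
    [DecidableEq ι] [Fintype C] [DecidableEq C] [Nonempty C] (w : W → (K → Bool) → ℝ) (C₀ τ : ℝ),
    0 < τ → ∀ {n : ℕ} (v : (ι → Bool) → ℝ) (ξ : C → Gd W K ι n) (p : ℕ), p < r →
    ∀ (z : Co ι C r → Bool) (u : C → ℝ), (∀ g, |u g| ≤ 1) →
      (sys e w C₀ τ v ξ).ex p (fun ω => (𝔼 g, u g *
        (rd ω g - (sys e w C₀ τ v ξ).ex (p + 1) (fun a => rd a g) ω)) ^ 2) z ≤
        A * (1 / (τ * Real.sqrt (Fintype.card C)) + τ) / e.m 1 := by
  obtain ⟨A, hA0, hA⟩ := key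
  refine ⟨A, hA0, ?_⟩
  intro r e W K ι C _ _ _ _ _ w C₀ τ hτ n v ξ p hp z u hu
  let zc : C → Co ι C r := fun g => Sum.inr (Sum.inr (g, ⟨p, hp⟩))
  have hsig : ∀ (ω : Co ι C r → Bool) g b, sig (Function.update ω (zc g) b) = sig ω := by
    intro ω g b
    funext i
    exact Function.update_of_ne (by simp [zc]) _ _
  have hrd : ∀ (ω : Co ι C r → Bool) g g' b, rd (Function.update ω (zc g') b) g = rd ω g := by
    intro ω g g' b
    unfold rd
    rw [Function.update_of_ne (by simp [zc])]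
  have h := hA e Co.lev p hp zc (fun a b hab => by simpa [zc] using hab) (fun g => rfl) rd
    xi2b_abs_rd hrd
    (fun ω => v (sig ω) + ∑ g, (((ξ g).1.2 : ℝ) / n * w (ξ g).1.1 (fun k => sig ω ((ξ g).2 k)) +
      Real.log (1 + rd ω g * w (ξ g).1.1 (fun k => sig ω ((ξ g).2 k)) / (2 * C₀)) +
      τ * ∑ j ∈ univ.erase (⟨p, hp⟩ : Fin r), spinVal (ω (Sum.inr (Sum.inr (g, j)))) * rd ω g))
    (fun ω g b => by
      simp only [hsig, hrd]
      congr 1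
      refine sum_congr rfl fun g' _ => ?_
      congr 2
      refine sum_congr rfl fun j hj => ?_
      rw [Function.update_of_ne]
      simp only [zc, ne_eq, Sum.inr.injEq, Prod.mk.injEq, not_and]
      exact fun _ => (mem_erase.1 hj).1)
    τ hτ (sys e w C₀ τ v ξ) (by
      unfold sys base
      congr 1
      funext ω
      unfold totEn gEn
      rw [add_assoc, mul_sum, ← sum_add_distrib]
      congr 1
      refine sum_congr rfl fun g _ => ?_
      rw [← Finset.sum_erase_add _ _ (mem_univ (⟨p, hp⟩ : Fin r))]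
      simp only [zc]
      ring) z u hu
  refine h.trans ?_
  have h1 : 0 < e.m 1 := e.pos (Nat.zero_le r)
  have h2 : e.m 1 ≤ e.m (p + 1) := e.mono (by omega) (by omega)
  gcongr

theorem xi2b_choose {A m χ τ₀ : ℝ} (hA : 0 ≤ A) (hm : 0 < m) (hχ : 0 < χ) (hτ₀ : 0 < τ₀) :
    ∃ (τ : ℝ) (c : ℕ), 0 < τ ∧ τ ≤ τ₀ ∧
      A * (1 / (τ * Real.sqrt (Fintype.card (Fin (c + 1)))) + τ) / m ≤ χ ^ 2 := by
  set τ := min τ₀ (m * χ ^ 2 / (2 * (A + 1))) with hτ
  have hτ0 : 0 < τ := lt_min hτ₀ (by positivity)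
  set D := 2 * (A + 1) / (τ * m * χ ^ 2) with hD
  have hD0 : 0 < D := by positivity
  refine ⟨τ, ⌈D ^ 2⌉₊, hτ0, min_le_left _ _, ?_⟩
  have h1 : D ≤ Real.sqrt (Fintype.card (Fin (⌈D ^ 2⌉₊ + 1))) := by
    refine Real.le_sqrt_of_sq_le ?_
    rw [Fintype.card_fin]
    push_cast
    linarith [Nat.le_ceil (D ^ 2)]
  have h2 : 1 / (τ * Real.sqrt (Fintype.card (Fin (⌈D ^ 2⌉₊ + 1)))) ≤ 1 / (τ * D) := by
    gcongr
  have h3 : 1 / (τ * D) = m * χ ^ 2 / (2 * (A + 1)) := by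
    rw [hD]; field_simp
  have h4 : τ ≤ m * χ ^ 2 / (2 * (A + 1)) := min_le_right _ _
  rw [div_le_iff₀ hm]
  calc A * (1 / (τ * Real.sqrt (Fintype.card (Fin (⌈D ^ 2⌉₊ + 1)))) + τ)
      ≤ (A + 1) * (m * χ ^ 2 / (2 * (A + 1)) + m * χ ^ 2 / (2 * (A + 1))) :=
        mul_le_mul (by linarith) (by linarith) (by positivity) (by linarith)
    _ = χ ^ 2 * m := by field_simp; ring

theorem xi₂_bound {r : ℕ} (e : Expo r) {W K : Type} [Fintype W] [Nonempty W] [Fintype K]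
    [DecidableEq K] {w : W → (K → Bool) → ℝ} {C₀ : ℝ} (hC : 1 ≤ C₀) (hw : ∀ d x, |w d x| ≤ C₀)
    (n κ Bm : ℕ) {θ : ℝ} (hθ : 0 < θ) :
    ∃ (τ : ℝ) (c : ℕ), 0 < τ ∧ ∀ {ι : Type} [Fintype ι] [DecidableEq ι] [Nonempty ι]
      (v : (ι → Bool) → ℝ), ∃ Vp : ℕ → ℝ, (∀ p, 0 ≤ Vp p) ∧ ∑ p ∈ range r, Vp p ≤ 1 ∧
        ∀ B ≤ Bm, ∀ p : Fin (r + 1), (p : ℕ) < r → ∀ (d : W) (i : Fin n) (η : ℝ),
          𝔼 ξ : Fin c → Gd W K ι n, 𝔼 lab : K → ι,
              xi₂ (sys e w C₀ τ v ξ) e sig root κ B η n i (w d) p lab ≤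
            4 * C₀ * Real.exp (2 * C₀) * (Fintype.card W * n) * Real.sqrt (Vp p) + θ := by
  classical
  rcases Nat.eq_zero_or_pos n with rfl | hn
  · exact ⟨1, 0, one_pos, fun v => ⟨fun _ => 0, fun _ => le_rfl, by simp,
      fun B _ p _ d i => i.elim0⟩⟩
  have : Nonempty (Fin n) := ⟨⟨0, hn⟩⟩
  set N : ℝ := Fintype.card W * n with hN
  have hN0 : 0 < N := by
    have := Fintype.card_pos (α := W)
    positivity
  set θ₂ : ℝ := θ / (8 * C₀ * N) with hθ₂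
  have hθ₂0 : 0 < θ₂ := by positivity
  choose C₂ τ₀ hC₂ hτ₀ htr using fun B : ℕ => xi₂_transfer e hC κ B (half_pos hθ)
  choose Λ hΛ hround using fun B : ℕ => round (Fintype.card (K → Fin (B + 1) → Slot Bool κ r))
    (show 0 ≤ 2 * Real.exp (2 * C₀) by positivity) (hC₂ B) hθ₂0
  obtain ⟨B₀, -, hB₀⟩ := Finset.exists_min_image (range (Bm + 1)) τ₀ ⟨0, by simp⟩
  set Λs : ℝ := ∑ B ∈ range (Bm + 1), Λ B with hΛs
  have hΛs0 : 0 ≤ Λs := sum_nonneg fun B _ => hΛ B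
  obtain ⟨A, hA0, hA⟩ := xi2b_key
  obtain ⟨τ, c, hτ, hττ, hχ⟩ := xi2b_choose hA0 (e.pos (Nat.zero_le r))
    (show 0 < θ₂ / (Λs + 1) by positivity) (hτ₀ B₀)
  refine ⟨τ, c, hτ, fun {ι} _ _ _ v => ?_⟩
  let G : (Fin (c + 1) → Gd W K ι n) → FKS (Co ι (Fin (c + 1)) r → Bool) r :=
    fun ξ' => sys e w C₀ τ v ξ'
  let V : ℕ → (Fin (c + 1) → Gd W K ι n) → ℝ := fun p ξ' => (G ξ').ex 0 (fun γ =>
    𝔼 g, ((G ξ').ex (p + 1) (fun a => rd a g) γ - (G ξ').ex p (fun a => rd a g) γ) ^ 2) root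
  have hV0 : ∀ p ξ', 0 ≤ V p ξ' := fun p ξ' =>
    (G ξ').ex_nonneg 0 (fun γ => expect_nonneg fun g _ => sq_nonneg _) _
  refine ⟨fun p => 𝔼 ξ', V p ξ', fun p => expect_nonneg fun ξ' _ => hV0 p ξ', ?_, ?_⟩
  · rw [← Finset.expect_sum_comm]
    refine expect_le univ_nonempty fun ξ' _ => ?_
    simp only [V, xi2b_ex_expect]
    rw [← Finset.expect_sum_comm]
    exact expect_le univ_nonempty fun g _ => (G ξ').sum_var_le (fun ω => xi2b_abs_rd ω g) root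
  intro B hB p hp d i η
  have hBm : B ∈ range (Bm + 1) := mem_range.2 (by omega)
  let Kk : (Fin (c + 1) → Gd W K ι n) → (Co ι (Fin (c + 1)) r → Bool) →
      FinLaw (Fin (B + 1) → Slot (ι → Bool) κ r) := fun ξ' γ =>
    FinLaw.pi fun _ : Fin (B + 1) => slotLE (G ξ').toKern r κ sig p γ
  let Φ : (Fin (c + 1) → Gd W K ι n) → Fin (c + 1) →
      ((Co ι (Fin (c + 1)) r → Bool) → (Fin (B + 1) → Slot (ι → Bool) κ r) → ℝ) → ℝ :=
    fun ξ' g ρ => (G ξ').ex 0 (fun γ => (Kk ξ' γ).E fun S =>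
      ρ γ S * psiBar (G ξ').toKern e sig κ B η n i (w d) p γ S (ξ' g).2 *
        (rd γ g - (G ξ').ex p (fun a => rd a g) γ)) root
  let H : Gd W K ι n → (Fin c → Gd W K ι n) → ℝ := fun a ξ =>
    if a.1 = (d, i) then xi₂ (sys e w C₀ τ v ξ) e sig root κ B η n i (w d) p a.2 - θ / 2 else 0
  have hρ : ∀ (ξ' : Fin (c + 1) → Gd W K ι n) (g : Fin (c + 1)),
      ∃ ρ : (Co ι (Fin (c + 1)) r → Bool) → (Fin (B + 1) → Slot (ι → Bool) κ r) → ℝ,
        (∀ z z', (G ξ').rel p z z' → ρ z = ρ z') ∧ (∀ z S, 0 ≤ ρ z S ∧ ρ z S ≤ C₂ B) ∧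
        (∀ z, (Kk ξ' z).E (ρ z) ≤ 2 * Real.exp (2 * C₀)) ∧
        H (ξ' g) (g.removeNth ξ') ≤ 2 * C₀ * Φ ξ' g ρ := by
    intro ξ' g
    by_cases h : (ξ' g).1 = (d, i)
    · have hξ : (Fin.insertNth g ((d, i), (ξ' g).2) (g.removeNth ξ') :
          Fin (c + 1) → Gd W K ι n) = ξ' := by
        rw [← h]
        exact Fin.insertNth_self_removeNth g ξ'
      obtain ⟨ρ, h1, h2, h3, h4⟩ := htr B τ hτ.le (hττ.trans (hB₀ B hBm)) w hw n c v
        (g.removeNth ξ') g d i (ξ' g).2 p η (G ξ') (by rw [hξ])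
      refine ⟨ρ, h1, h2, h3, ?_⟩
      simp only [H, if_pos h]
      linarith
    · refine ⟨fun _ _ => 0, fun _ _ _ => rfl, fun _ _ => ⟨le_rfl, hC₂ B⟩, fun z => ?_, ?_⟩
      · rw [FinLaw.E_const]; positivity
      · simp only [H, if_neg h, Φ, zero_mul, FinLaw.E_const, Kern.ex_const, mul_zero, le_refl]
  choose ρ hρ1 hρ2 hρ3 hρ4 using hρ
  have hR : ∀ ξ', 𝔼 g, Φ ξ' g (ρ ξ' g) ≤
      2 * Real.exp (2 * C₀) * Real.sqrt (V p ξ') + θ₂ + θ₂ := by
    intro ξ'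
    have h := hround B (G ξ') root p hp rd xi2b_abs_rd (θ₂ / (Λs + 1)) (by positivity)
      (fun z u hu => (hA e w C₀ τ hτ v ξ' p hp z u hu).trans hχ) (Kk ξ')
      (fun z z' hz => by simp only [Kk, slotLE_inv (G ξ') κ sig hz]) (ρ ξ') (hρ1 ξ') (hρ2 ξ')
      (hρ3 ξ') (Pat := K → Fin (B + 1) → Slot Bool κ r)
      (fun S lab k t j => Tr.map (fun s => s (lab k)) _ (S t j)) le_rfl (fun g => (ξ' g).2)
      (psiBar (G ξ').toKern e sig κ B η n i (w d) p)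
      (fun γ S l => FinLaw.abs_E_le _ fun S' => abs_clip_le _)
      (fun γ S l l' hl => by
        unfold psiBar
        congr 1
        funext S'
        refine psi_congr e η n i (w d) p _ _ fun k t _ j hj => ?_
        simp only [Slot.mix, if_pos hj]
        exact congrFun (congrFun (congrFun hl k) t) j)
    simp only [xi2b_E_expect, xi2b_ex_expect (f := fun g γ => (Kk ξ' γ).E fun S =>
      ρ ξ' g γ S * psiBar (G ξ').toKern e sig κ B η n i (w d) p γ S (ξ' g).2 *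
        (rd γ g - (G ξ').ex p (fun a => rd a g) γ))] at h
    have h2 : Λ B * (θ₂ / (Λs + 1)) ≤ θ₂ := by
      have : Λ B ≤ Λs := single_le_sum (fun B _ => hΛ B) hBm
      rw [← mul_div_assoc, div_le_iff₀ (by positivity)]
      nlinarith
    exact h.trans (by linarith)
  set Y := 𝔼 ξ : Fin c → Gd W K ι n, 𝔼 lab : K → ι,
    xi₂ (sys e w C₀ τ v ξ) e sig root κ B η n i (w d) p lab with hY
  have hg : ∀ g : Fin (c + 1), 𝔼 ξ' : Fin (c + 1) → Gd W K ι n, H (ξ' g) (g.removeNth ξ') =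
      N⁻¹ * (Y - θ / 2) := by
    intro g
    rw [xi2b_expect_insert, Finset.expect_comm]
    simp only [H]
    have : ∀ ξ : Fin c → Gd W K ι n, 𝔼 a : Gd W K ι n, (if a.1 = (d, i) then
        xi₂ (sys e w C₀ τ v ξ) e sig root κ B η n i (w d) p a.2 - θ / 2 else 0) =
        N⁻¹ * ((𝔼 lab : K → ι, xi₂ (sys e w C₀ τ v ξ) e sig root κ B η n i (w d) p lab) -
          θ / 2) := by
      intro ξ
      rw [xi2b_expect_ite (d, i) fun lab : K → ι =>
        xi₂ (sys e w C₀ τ v ξ) e sig root κ B η n i (w d) p lab - θ / 2,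
        Finset.expect_sub_distrib, Fintype.expect_const, Fintype.card_prod, Fintype.card_fin]
      push_cast
      rfl
    simp only [this]
    rw [← Finset.mul_expect, Finset.expect_sub_distrib, Fintype.expect_const]
  have h1 : N⁻¹ * (Y - θ / 2) ≤ 2 * C₀ * 𝔼 ξ', 𝔼 g, Φ ξ' g (ρ ξ' g) := by
    rw [Finset.expect_comm, Finset.mul_expect]
    refine le_expect univ_nonempty fun g _ => ?_
    rw [← hg g, Finset.mul_expect]
    exact expect_le_expect fun ξ' _ => hρ4 ξ' g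
  have h2 : 𝔼 ξ', 𝔼 g, Φ ξ' g (ρ ξ' g) ≤
      2 * Real.exp (2 * C₀) * Real.sqrt (𝔼 ξ', V p ξ') + θ₂ + θ₂ := by
    refine (expect_le_expect fun ξ' _ => hR ξ').trans ?_
    rw [Finset.expect_add_distrib, Finset.expect_add_distrib, Fintype.expect_const,
      ← Finset.mul_expect]
    have := (FinLaw.unif (Fin (c + 1) → Gd W K ι n)).E_sqrt_le (hV0 p)
    rw [FinLaw.unif_E, FinLaw.unif_E] at this
    gcongr
  have h3 : Y - θ / 2 ≤
      N * (2 * C₀ * (2 * Real.exp (2 * C₀) * Real.sqrt (𝔼 ξ', V p ξ') + θ₂ + θ₂)) := by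
    rw [← inv_mul_le_iff₀ hN0]
    exact h1.trans (mul_le_mul_of_nonneg_left h2 (by positivity))
  have h4 : N * (2 * C₀ * (θ₂ + θ₂)) = θ / 2 := by
    rw [hθ₂]; field_simp; ring
  linarith

end Crest.Agent.R141
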