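import Crest.Agent.R141.Xi1
import Crest.Agent.R141.Xi2b
import Crest.Agent.R141.Gron

/-!
# Row 141: the Gronwall argument applied to a family of systems with reference trees
-/

set_option autoImplicit false

namespace Crest.Agent.R141

open Finset Crest.ProbabilityR.Diluted
open scoped BigOperators

theorem FinLaw.E_expect {S L : Type} [Fintype S] [Fintype L] (μ : FinLaw S) (f : S → L → ℝ) :
    μ.E (fun a => 𝔼 l, f a l) = 𝔼 l, μ.E fun a => f a l := by
  simp only [FinLaw.E, Finset.mul_expect]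
  exact (Finset.expect_sum_comm _ _ _).symm

section
variable {Ξ Ω ι K : Type} [Fintype Ξ] [Nonempty Ξ] [Fintype Ω] [Fintype ι] [DecidableEq ι]
  [Fintype K] [DecidableEq K] {r : ℕ}

/-- Disorder, main replica, reference trees. -/
noncomputable def strLaw (G : Ξ → FKS Ω r) (σ : Ω → ι → Bool) (z₀ : Ω) (κ B : ℕ) :
    FinLaw (Ξ × Ω × (Fin (B + 1) → Slot (ι → Bool) κ r)) :=
  (FinLaw.unif Ξ).cp fun ξ => ((G ξ).law 0 z₀).cp fun γ =>
    FinLaw.pi fun _ : Fin (B + 1) => slotLaw (G ξ).toKern r κ σ γ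

omit [DecidableEq K] in
theorem strLaw_E (G : Ξ → FKS Ω r) (σ : Ω → ι → Bool) (z₀ : Ω) (κ B : ℕ) {L : Type} [Fintype L]
    (F : Ξ × Ω × (Fin (B + 1) → Slot (ι → Bool) κ r) → L → ℝ) :
    (strLaw G σ z₀ κ B).E (fun a => 𝔼 l, F a l) = 𝔼 ξ, 𝔼 l, (G ξ).ex 0 (fun γ =>
      (FinLaw.pi fun _ : Fin (B + 1) => slotLaw (G ξ).toKern r κ σ γ).E fun Sl =>
        F (ξ, γ, Sl) l) z₀ := by
  rw [strLaw, FinLaw.cp_E, FinLaw.unif_E]
  refine Finset.expect_congr rfl fun ξ _ => ?_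
  rw [FinLaw.E_expect]
  refine Finset.expect_congr rfl fun l _ => ?_
  rw [FinLaw.cp_E]
  rfl

omit [Fintype K] [DecidableEq K] in
theorem abs_scl_le {u : (K → Bool) → ℝ} {C₀ : ℝ} (hu : ∀ x, |u x| ≤ C₀) {n i : ℕ} (hi : i ≤ n)
    (x : K → Bool) : |scl n i u x| ≤ C₀ := by
  have h0 : 0 ≤ C₀ := (abs_nonneg _).trans (hu x)
  have h1 : (i : ℝ) / n ≤ 1 := div_le_one_of_le₀ (by exact_mod_cast hi) (by positivity)
  rw [scl, abs_mul, abs_of_nonneg (by positivity)]
  calc (i : ℝ) / n * |u x| ≤ 1 * C₀ := mul_le_mul h1 (hu x) (abs_nonneg _) zero_le_one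
    _ = C₀ := one_mul _

omit [Fintype K] [DecidableEq K] in
theorem scl_succ (u : (K → Bool) → ℝ) (n i : ℕ) (x : K → Bool) :
    scl n (i + 1) u x = scl n i u x + (1 / (n : ℝ)) * u x := by
  simp only [scl]; push_cast; ring

omit [Fintype ι] [DecidableEq ι] [Fintype K] [DecidableEq K] in
theorem abs_cen_le [Fintype ι] [DecidableEq ι] [Fintype K] [DecidableEq K] (S : FKS Ω r)
    (e : Expo r) (σ : Ω → ι → Bool) {n i : ℕ} (hi : i ≤ n) {u : (K → Bool) → ℝ} {C₀ : ℝ}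
    (hu : ∀ x, |u x| ≤ C₀) (p : ℕ) (lab : K → ι) (γ : Ω) :
    |cen S e σ n i u p lab γ| ≤ Real.exp (2 * C₀) * (2 * C₀) := by
  rw [cen, abs_mul, abs_of_pos (S.tau_pos _ _ _ _)]
  refine mul_le_mul (S.tau_le e (fun ω => abs_scl_le hu hi _) _ _) ?_ (abs_nonneg _)
    (Real.exp_pos _).le
  have h1 : |labE σ u lab γ| ≤ C₀ := hu _
  have h2 := (S.tilt e (labE σ (scl n i u) lab)).abs_ex_le p (f := labE σ u lab)
    (fun ω => hu _) γ
  have := abs_sub (labE σ u lab γ) ((S.tilt e (labE σ (scl n i u) lab)).ex p (labE σ u lab) γ)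
  linarith

theorem gron_sys {C₀ : ℝ} (hC : 1 ≤ C₀) : ∃ A : ℝ, 0 ≤ A ∧
    ∀ {Ξ Ω ι K : Type} [Fintype Ξ] [Nonempty Ξ] [Fintype Ω] [Fintype ι] [DecidableEq ι]
      [Nonempty ι] [Fintype K] [DecidableEq K] {r : ℕ} (e : Expo r) (G : Ξ → FKS Ω r)
      (σ : Ω → ι → Bool) (z₀ : Ω) (κ B n : ℕ) (u : (K → Bool) → ℝ) (η θ : ℝ) (Ξb : ℕ → ℝ),
      1 ≤ κ → (∀ x, |u x| ≤ C₀) → C₀ ≤ n → 0 < η → 0 ≤ θ → (∀ p, 0 ≤ Ξb p) →
      (∀ (S : Kern Ω) (v : (ι → Bool) → ℝ), (∀ s, |v s| ≤ C₀) → ∀ d ≤ r + 1, ∀ z : Ω,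
        (treeLaw S r κ σ d z).E (fun τ =>
          |treeLP e κ d (Tr.map v d τ) - S.lp e (fun ω => v (σ ω)) (r + 1 - d) z|) ≤ θ) →
      (∀ i < n, ∀ p : Fin (r + 1),
        𝔼 ξ, 𝔼 lab : K → ι, xi₁ (G ξ) e σ z₀ κ B η n i u p lab ≤ Ξb p) →
      |(𝔼 ξ, 𝔼 lab : K → ι, (G ξ).lp e (labE σ u lab) 0 z₀) -
          (strLaw G σ z₀ κ B).E fun a => (Trial.part r (colRel a.2.2 fun _ => True)
            (colRel_refine _ _) (σ a.2.1)).val e u| ≤
        A * ((∑ p ∈ range (r + 1), e.d p * Ξb p) + η + n * θ + 1 / n) := by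
  obtain ⟨A, hA, hg⟩ := gron hC
  refine ⟨A, hA, ?_⟩
  intro Ξ Ω ι K _ _ _ _ _ _ _ _ r e G σ z₀ κ B n u η θ Ξb hκ hu hn hη hθ hΞ hlln hxi
  have hn0 : (0 : ℝ) < n := by linarith
  have hscl : scl n n u = u := by
    funext x; simp only [scl]; rw [div_self hn0.ne', one_mul]
  have key := hg e (strLaw G σ z₀ κ B)
    (fun a j => piRel K (colRel a.2.2 (fun _ => True) j))
    (fun a j l l' h k => colRel_refine _ _ _ _ _ (h k))
    (fun a (l : K → ι) => labE σ u l a.2.1) (fun a l => hu _) n hn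
    (fun i j a l => (G a.1).lp e (labE σ (scl n i u) l) j a.2.1)
    (fun i j a l => ((G a.1).tilt e (labE σ (scl n i u) l)).ex j (labE σ u l) a.2.1)
    (fun i j a l => if h : j ≤ r then Xhat e (a.2.2 0) (scl n i u) ⟨j, Nat.lt_succ_of_le h⟩ l else 0)
    η θ Ξb hη hθ hΞ ?_ ?_ ?_ ?_ ?_ ?_ ?_ ?_ ?_ ?_
  · convert key using 3
    · rw [strLaw_E]
      refine Finset.expect_congr rfl fun ξ _ => Finset.expect_congr rfl fun l _ => ?_
      simp only [FinLaw.E_const, hscl]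
      exact ((G ξ).ex_of_inv ((G ξ).inv_lp e _ (Nat.zero_le r)) z₀).symm
    · congr 1
      funext a
      rw [Trial.part_val]
      refine Finset.expect_congr rfl fun l _ => ?_
      simp only [gY, labE, div_self hn0.ne', one_mul]
  · intro j _ a l
    have : labE σ (scl n 0 u) l = fun _ => 0 := by funext ω; simp [labE, scl]
    simp only [this, Kern.lp_const]
  · intro i hi j _ a l
    exact (G a.1).abs_lp_le e (fun ω => abs_scl_le hu hi _) _ _
  · intro i hi j hj a l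
    have h1 : labE σ (scl n (i + 1) u) l =
        fun ω => labE σ (scl n i u) l ω + (1 / (n : ℝ)) * labE σ u l ω := by
      funext ω; exact scl_succ u n i _
    have h2 := ((G a.1).tilt e (labE σ (scl n i u) l)).abs_lp_sub_ex_le e
      (v := fun ω => (1 / (n : ℝ)) * labE σ u l ω) (a := C₀ / n)
      (div_le_one_of_le₀ hn hn0.le) (fun ω => by
        rw [abs_mul, abs_of_pos (by positivity), one_div, mul_comm, ← div_eq_mul_inv]
        exact div_le_div_of_nonneg_right (hu _) hn0.le) hj a.2.1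
    rw [FKS.lp_tilt, Kern.ex_smul, ← h1] at h2
    convert h2 using 3
    ring
  · intro i _ j _ a l
    exact Kern.abs_ex_le _ _ (fun ω => hu _) _
  · intro i _ j hj a l l' h
    simp only [dif_pos hj, Xhat]
    congr 1
    exact Tr.map_lab_congr (scl n i u) fun k => h k 0 trivial ⟨j, Nat.lt_succ_of_le hj⟩ le_rfl
  · intro i hi j hj a l
    simp only [dif_pos hj, Xhat]
    exact abs_treeLP_le e hκ (fun s => abs_scl_le hu hi _) (Nat.sub_le _ _) _
  · intro i _ j hj a l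
    simp only [dif_pos hj, Xhat]
    refine abs_treeLP_sub_le e hκ (fun s => ?_) (Nat.sub_le _ _) _
    rw [scl_succ, add_sub_cancel_left, abs_mul, abs_of_pos (by positivity), one_div, mul_comm,
      ← div_eq_mul_inv]
    exact div_le_div_of_nonneg_right (hu _) hn0.le
  · intro i hi j hj
    rw [strLaw_E]
    refine Finset.expect_le univ_nonempty fun ξ _ => Finset.expect_le univ_nonempty fun l _ => ?_
    rw [← (G ξ).ex_const 0 θ z₀]
    refine (G ξ).ex_mono 0 (fun γ => ?_) z₀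
    simp only [dif_pos hj]
    rw [FinLaw.pi_E_eval (fun _ : Fin (B + 1) => slotLaw (G ξ).toKern r κ σ γ) 0
      (fun τ => |Xhat e τ (scl n i u) ⟨j, Nat.lt_succ_of_le hj⟩ l -
        (G ξ).lp e (labE σ (scl n i u) l) j γ|), slotLaw]
    have := FinLaw.pi_E_eval
      (fun j' : Fin (r + 1) => treeLaw (G ξ).toKern r κ σ (r + 1 - j') γ) ⟨j, Nat.lt_succ_of_le hj⟩
      (fun τ => |treeLP e κ _ (Tr.map (fun s => scl n i u fun k => s (l k)) _ τ) -
        (G ξ).lp e (labE σ (scl n i u) l) j γ|)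
    refine this.le.trans ?_
    have h3 := hlln (G ξ).toKern (fun s => scl n i u fun k => s (l k))
      (fun s => abs_scl_le hu hi _) (r + 1 - j) (Nat.sub_le _ _) γ
    rw [show r + 1 - (r + 1 - j) = j by omega] at h3
    exact h3
  · intro i _
    rw [strLaw_E, strLaw_E]
    refine Finset.expect_congr rfl fun ξ _ => Finset.expect_congr rfl fun l _ => ?_
    simp only [FinLaw.E_const, gT]
    rw [(G ξ).ex_of_inv (((G ξ).tilt e (labE σ (scl n i u) l)).inv_ex 0 _) z₀, FKS.tilt_ex]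
    rfl
  · intro i hi p hp
    rw [strLaw_E]
    refine le_trans (le_of_eq ?_) (hxi i hi ⟨p, Nat.lt_succ_of_le hp⟩)
    refine Finset.expect_congr rfl fun ξ _ => Finset.expect_congr rfl fun l _ => ?_
    simp only [dif_pos hp]
    rfl

end

end Crest.Agent.R141
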