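import Crest.Agent.R141.ATAux

/-!
# Row 141: choice of the number of reference trees and the bound on `xi₁`
-/

set_option autoImplicit false

namespace Crest.Agent.R141

open Finset Crest.ProbabilityR.Diluted
open scoped BigOperators

theorem xi₁_bound {r : ℕ} (e : Expo r) {W K : Type} [Fintype W] [Nonempty W] [Fintype K]
    [DecidableEq K] {w : W → (K → Bool) → ℝ} {C₀ : ℝ} (hC : 1 ≤ C₀) (hw : ∀ d x, |w d x| ≤ C₀)
    {n : ℕ} (hn : 1 ≤ n) (κ : ℕ) {η a : ℝ} (hη : 0 < η) (ha : 0 < a) :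
    ∃ (τ : ℝ) (c : ℕ), 0 < τ ∧ ∀ {ι : Type} [Fintype ι] [DecidableEq ι] [Nonempty ι]
      (v : (ι → Bool) → ℝ), ∃ (B : ℕ) (Vp : ℕ → ℝ), (∀ p, 0 ≤ Vp p) ∧ ∑ p ∈ range r, Vp p ≤ 1 ∧
        ∀ p : Fin (r + 1), (p : ℕ) < r → ∀ (d : W), ∀ i < n,
          𝔼 ξ : Fin c → Gd W K ι n, 𝔼 lab : K → ι,
              xi₁ (sys e w C₀ τ v ξ) e sig root κ B η n i (w d) p lab ≤
            4 * C₀ * Real.exp (2 * C₀) * (Fintype.card W * n) * Real.sqrt (Vp p) + a := by
  obtain ⟨A, hA, hxi⟩ := xi₁_sub_xi₂ e hC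
  have hn0 : (0 : ℝ) < n := by exact_mod_cast hn
  set b : ℝ := a / (6 * (A + 1)) with hb
  have hb0 : 0 < b := by positivity
  set θ₄ : ℝ := b * η / (2 * n * (r + 1)) with hθ₄
  have hθ₄0 : 0 < θ₄ := by positivity
  set q : ℝ := Real.exp (-(2 * C₀ * slotNodes κ r)) / 2 with hq
  have hq0 : 0 < q := by positivity
  have hq2 : q ≤ 1 / 2 := by
    have : Real.exp (-(2 * C₀ * slotNodes κ r)) ≤ 1 := by
      rw [Real.exp_le_one_iff]
      have : (0 : ℝ) ≤ 2 * C₀ * slotNodes κ r := by positivity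
      linarith
    rw [hq]; linarith
  obtain ⟨f, Mx, hf, hMx, hfM, hsel⟩ := selErr_small hq0 hq2 hb0
  set Cw : ℝ := Fintype.card W * ((n + 1) * Real.exp (2 * C₀)) with hCw
  have hCw0 : 0 ≤ Cw := by positivity
  obtain ⟨Nw, hNw⟩ := exists_nat_gt (n / η * (2 * (r + 1)) * Cw / (θ₄ * b))
  have hNw0 : (0 : ℝ) < Nw := lt_of_le_of_lt (by positivity) hNw
  have hNw0' : 0 < Nw := by exact_mod_cast hNw0
  set bs : ℕ → ℕ := fun t => f^[t] 0 with hbs
  have hbs_succ : ∀ t, bs (t + 1) = f (bs t) := fun t => Function.iterate_succ_apply' f t 0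
  have hbs_mono : Monotone bs := monotone_nat_of_le_succ fun t => by
    rw [hbs_succ]; exact (hf _).le
  set Bm := bs (2 * Nw ^ (r + 1)) with hBm
  obtain ⟨τ, c, hτ, hx2⟩ := xi₂_bound e hC hw n κ Bm (half_pos ha)
  refine ⟨τ, c, hτ, ?_⟩
  intro ι _ _ _ v
  obtain ⟨Vp, hV0, hV1, hV⟩ := hx2 v
  have : Nonempty (Fin n) := ⟨⟨0, hn⟩⟩
  set en : W → ℕ → (ℕ → ℕ) → ℕ → ℕ → (Fin c → Gd W K ι n) → ℝ := fun d i k j t ξ =>
    energy (sys e w C₀ τ v ξ) e sig root κ Bm (scl n i (w d)) (fun j' => bs (k j')) j (bs t)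
    with hen
  have hen_mono : ∀ d i k j ξ, Monotone fun t => en d i k j t ξ := fun d i k j ξ s t hst =>
    energy_mono _ e _ _ _ _ _ _ _ (hbs_mono hst)
  obtain ⟨k, t₀, ht₀, hk, hW⟩ := window r Nw hNw0' Cw
    (fun k j t => ∑ d, ∑ i ∈ range (n + 1), 𝔼 ξ, en d i k j t ξ)
    (fun k k' j _ h => by
      funext t
      refine sum_congr rfl fun d _ => sum_congr rfl fun i _ => Finset.expect_congr rfl fun ξ _ => ?_
      simp only [hen]
      rw [energy_dep _ e _ _ _ _ _ (k := fun j' => bs (k j')) (k' := fun j' => bs (k' j'))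
        fun j' h1 h2 => by simp only [h j' h1 h2]])
    (fun k j _ s t hst => sum_le_sum fun d _ => sum_le_sum fun i _ =>
      Finset.expect_le_expect fun ξ _ => hen_mono d i k j ξ hst)
    (fun k j hj t => by
      have hbd : ∀ d, ∀ i ∈ range (n + 1), ∀ ξ,
          0 ≤ en d i k j t ξ ∧ en d i k j t ξ ≤ Real.exp (2 * C₀) := fun d i hi ξ =>
        energy_bdd _ e _ _ _ _ (by linarith)
          (abs_scl_le (hw d) (Nat.lt_succ_iff.1 (mem_range.1 hi))) _ hj _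
      refine ⟨sum_nonneg fun d _ => sum_nonneg fun i hi =>
        Finset.expect_nonneg fun ξ _ => (hbd d i hi ξ).1, ?_⟩
      calc ∑ d, ∑ i ∈ range (n + 1), 𝔼 ξ, en d i k j t ξ
          ≤ ∑ _d : W, ∑ _i ∈ range (n + 1), Real.exp (2 * C₀) :=
            sum_le_sum fun d _ => sum_le_sum fun i hi =>
              Finset.expect_le univ_nonempty fun ξ _ => (hbd d i hi ξ).2
        _ = Cw := by simp [hCw])
  obtain ⟨B, hB⟩ : ∃ B, bs (t₀ + 1) = B + 1 :=
    ⟨bs (t₀ + 1) - 1, by have := hf (bs t₀); rw [hbs_succ]; omega⟩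
  have hb₂ : bs (t₀ + 2) = f (B + 1) := by rw [← hB]; exact hbs_succ (t₀ + 1)
  have hb₂m : bs (t₀ + 2) ≤ Bm := hbs_mono ht₀
  have hk₀ : bs t₀ ≤ B + 1 := hB ▸ hbs_mono (Nat.le_succ _)
  have hBm' : B ≤ Bm := by have := hf (B + 1); omega
  refine ⟨B, Vp, hV0, hV1, fun p hp d i hi => ?_⟩
  have h2 := hV B hBm' p hp d ⟨i, hi⟩ η
  -- each energy increment is small on average
  have hinc : ∀ j ≤ r, ∀ i' ≤ n,
      𝔼 ξ, (en d i' k j (t₀ + 2) ξ - en d i' k j (k j) ξ) ≤ Cw / Nw := by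
    intro j hj i' hi'
    refine le_trans ?_ (hW j hj)
    rw [← sum_sub_distrib]
    have hnn : ∀ d i', 0 ≤ (𝔼 ξ, en d i' k j (t₀ + 2) ξ) - 𝔼 ξ, en d i' k j (k j) ξ :=
      fun d i' => sub_nonneg.2 (Finset.expect_le_expect fun ξ _ =>
        hen_mono d i' k j ξ (by have := hk j hj; omega))
    refine le_trans ?_ (single_le_sum (f := fun d => (∑ i ∈ range (n + 1),
      𝔼 ξ, en d i k j (t₀ + 2) ξ) - ∑ i ∈ range (n + 1), 𝔼 ξ, en d i k j (k j) ξ)
      (fun d _ => by rw [← sum_sub_distrib]; exact sum_nonneg fun i _ => hnn d i) (mem_univ d))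
    rw [← sum_sub_distrib, Finset.expect_sub_distrib]
    exact single_le_sum (f := fun i => (𝔼 ξ, en d i k j (t₀ + 2) ξ) - 𝔼 ξ, en d i k j (k j) ξ)
      (fun i _ => hnn d i) (mem_range.2 (Nat.lt_succ_of_le hi'))
  have h1 : ∀ ξ : Fin c → Gd W K ι n, 𝔼 lab : K → ι,
      |xi₁ (sys e w C₀ τ v ξ) e sig root κ B η n i (w d) p lab -
        xi₂ (sys e w C₀ τ v ξ) e sig root κ B η n i (w d) p lab| ≤
      A * (n / η * (∑ j ∈ range (r + 1), ∑ i' ∈ ({i, i + 1} : Finset ℕ),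
        (θ₄ + (en d i' k j (t₀ + 2) ξ - en d i' k j (k j) ξ) / θ₄)) + b) := by
    intro ξ
    refine (hxi (sys e w C₀ τ v ξ) sig root κ B (Mx (B + 1)) Bm (bs (t₀ + 2)) (bs t₀)
      (fun j' => bs (k j')) η θ₄ n i (w d) p hη hθ₄0 hi (hw d) (fun j hj => hbs_mono (hk j hj)) hk₀
      (hMx _) (hb₂ ▸ hfM _) hb₂m).trans ?_
    have := hsel (bs t₀) (B + 1) (by rw [← hbs_succ, hB])
    gcongr
  have h3 : 𝔼 ξ : Fin c → Gd W K ι n, A * (n / η * (∑ j ∈ range (r + 1),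
      ∑ i' ∈ ({i, i + 1} : Finset ℕ),
        (θ₄ + (en d i' k j (t₀ + 2) ξ - en d i' k j (k j) ξ) / θ₄)) + b) ≤ a / 2 := by
    rw [← Finset.mul_expect, Finset.expect_add_distrib, ← Finset.mul_expect,
      Finset.expect_const univ_nonempty, Finset.expect_sum_comm]
    have h4 : ∑ j ∈ range (r + 1), 𝔼 ξ : Fin c → Gd W K ι n, ∑ i' ∈ ({i, i + 1} : Finset ℕ),
        (θ₄ + (en d i' k j (t₀ + 2) ξ - en d i' k j (k j) ξ) / θ₄) ≤
        ∑ _j ∈ range (r + 1), 2 * (θ₄ + Cw / Nw / θ₄) := by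
      refine sum_le_sum fun j hj => ?_
      have hj' : j ≤ r := Nat.lt_succ_iff.1 (mem_range.1 hj)
      rw [Finset.expect_sum_comm, sum_pair (by omega)]
      simp only [Finset.expect_add_distrib, Finset.expect_const univ_nonempty, ← Finset.expect_div]
      have e1 := div_le_div_of_nonneg_right (hinc j hj' i hi.le) hθ₄0.le
      have e2 := div_le_div_of_nonneg_right (hinc j hj' (i + 1) hi) hθ₄0.le
      linarith
    rw [sum_const, card_range, nsmul_eq_mul] at h4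
    push_cast at h4
    have h5 : n / η * ((r + 1) * (2 * (θ₄ + Cw / Nw / θ₄))) ≤ 2 * b := by
      have e1 : n / η * ((r + 1) * (2 * θ₄)) = b := by rw [hθ₄]; field_simp
      have e2 : n / η * ((r + 1) * (2 * (Cw / Nw / θ₄))) ≤ b := by
        rw [div_lt_iff₀ (by positivity)] at hNw
        have : n / η * ((r + 1) * (2 * (Cw / Nw / θ₄))) =
            (n / η * (2 * (r + 1)) * Cw) / (Nw * θ₄) := by field_simp
        rw [this, div_le_iff₀ (by positivity)]
        nlinarith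
      have : n / η * ((r + 1) * (2 * (θ₄ + Cw / Nw / θ₄))) =
          n / η * ((r + 1) * (2 * θ₄)) + n / η * ((r + 1) * (2 * (Cw / Nw / θ₄))) := by ring
      linarith
    have h6 := mul_le_mul_of_nonneg_left h4 (by positivity : (0 : ℝ) ≤ n / η)
    have h7 : A * (3 * b) ≤ a / 2 := by
      have : (A + 1) * (3 * b) = a / 2 := by rw [hb]; field_simp; norm_num
      nlinarith
    refine le_trans (mul_le_mul_of_nonneg_left ?_ hA) h7
    linarith
  have h8 : 𝔼 ξ : Fin c → Gd W K ι n, 𝔼 lab : K → ι,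
      xi₁ (sys e w C₀ τ v ξ) e sig root κ B η n i (w d) p lab ≤
      (𝔼 ξ : Fin c → Gd W K ι n, 𝔼 lab : K → ι,
        xi₂ (sys e w C₀ τ v ξ) e sig root κ B η n i (w d) p lab) + a / 2 := by
    refine le_trans ?_ (add_le_add_right h3 _)
    rw [← Finset.expect_add_distrib]
    refine Finset.expect_le_expect fun ξ _ => ?_
    refine le_trans ?_ (add_le_add_right (h1 ξ) _)
    rw [← Finset.expect_add_distrib]
    refine Finset.expect_le_expect fun lab _ => ?_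
    have := le_abs_self (xi₁ (sys e w C₀ τ v ξ) e sig root κ B η n i (w d) p lab -
        xi₂ (sys e w C₀ τ v ξ) e sig root κ B η n i (w d) p lab)
    linarith
  simp only at h2
  linarith

end Crest.Agent.R141
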