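import Crest.Agent.R141.PiLaw

/-!
# Row 141: product laws, product kernels, partitions (tool box)

Recipes. Everything is a finite-sum identity. For `FinLaw.pi` use `Equiv.piSplitAt`,
`Equiv.piEquivPiSubtypeProd`, `Fin.consEquiv`/`Fin.insertNthEquiv`, `Finset.prod_univ_sum`.
`pi_E_restrict`: split `L` into the range of `ι` and its complement (or prove first `pi_E_update`
and remove the coordinates outside the range one by one). The kernel statements are the law
statements for the laws `(T l).law j (z l)` (`Kern.ex_eq_E`; `(Kern.pi T).law j z` is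
`FinLaw.pi fun l => (T l).law j (z l)` by `rfl`).
-/

set_option autoImplicit false

namespace Crest.Agent.R141

open Finset
open scoped BigOperators

/-! ### Partitions -/

section Part
variable {Ω : Type} [Fintype Ω]

/-- The coordinatewise relation on tuples. -/
def piRel (K : Type) (R : Setoid Ω) : Setoid (K → Ω) :=
  ⟨fun z z' => ∀ k, R (z k) (z' k),
    ⟨fun _ _ => Setoid.refl' _ _, fun h k => Setoid.symm' _ (h k),
      fun h h' k => Setoid.trans' _ (h k) (h' k)⟩⟩

theorem clsW_piRel (K : Type) [Fintype K] [DecidableEq K] (R : Setoid Ω) (z ω : K → Ω) :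
    clsW (piRel K R) z ω = ∏ k, clsW R (z k) (ω k) := by
  classical
  by_cases h : ∀ k, R (z k) (ω k)
  · have h1 : clsW (piRel K R) z ω =
        ((univ.filter fun a => (piRel K R) z a).card : ℝ)⁻¹ := by
      unfold clsW
      rw [if_pos (show (piRel K R) z ω from h)]
    have h2 : ∀ k, clsW R (z k) (ω k) = ((univ.filter fun a => R (z k) a).card : ℝ)⁻¹ := by
      intro k
      unfold clsW
      rw [if_pos (h k)]
    have h3 : (univ.filter fun a => (piRel K R) z a) =
        Fintype.piFinset fun k => univ.filter fun a => R (z k) a := by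
      ext a
      simp only [mem_filter, mem_univ, true_and, Fintype.mem_piFinset]
      rfl
    rw [h1, h3, Fintype.card_piFinset]
    simp only [h2]
    rw [Finset.prod_inv_distrib, Nat.cast_prod]
  · have h1 : clsW (piRel K R) z ω = 0 := by
      unfold clsW
      rw [if_neg (show ¬ (piRel K R) z ω from h)]
    push Not at h
    obtain ⟨k, hk⟩ := h
    rw [h1, eq_comm]
    refine Finset.prod_eq_zero (mem_univ k) ?_
    unfold clsW
    rw [if_neg hk]

theorem pi_part (K : Type) [Fintype K] [DecidableEq K] (R : ℕ → Setoid Ω) :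
    (Kern.pi fun _ : K => Kern.part R) = Kern.part fun j => piRel K (R j) := by
  have : (Kern.pi fun _ : K => Kern.part R).A = (Kern.part fun j => piRel K (R j)).A := by
    funext j z ω
    exact (clsW_piRel K (R j) z ω).symm
  revert this
  generalize (Kern.pi fun _ : K => Kern.part R) = S
  generalize (Kern.part fun j => piRel K (R j)) = T
  intro h
  cases S; cases T; cases h; rfl

theorem Trial.part_val (r : ℕ) [Nonempty Ω] (R : ℕ → Setoid Ω)
    (hR : ∀ j a b, R (j + 1) a b → R j a b) (s : Ω → Bool) (e : Expo r) {K : Type} [Fintype K]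
    [DecidableEq K] (w : (K → Bool) → ℝ) :
    (Trial.part r R hR s).val e w =
      𝔼 lab : K → Ω, (Kern.part fun j => piRel K (R j)).lp e (fun lab => w fun k => s (lab k)) 0
        lab := by
  rw [← pi_part]
  exact FinLaw.pi_unif_E _

theorem ce_congr (R : Setoid Ω) (f : Ω → ℝ) {z z' : Ω} (h : R z z') : ce R f z = ce R f z' := by
  simp only [ce, clsW_congr R h]

theorem ce_of_inv (R : Setoid Ω) {u : Ω → ℝ} (hu : ∀ a b, R a b → u a = u b) (f : Ω → ℝ) (z : Ω) :
    ce R (fun ω => u ω * f ω) z = u z * ce R f z := by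
  simp only [ce, Finset.mul_sum]
  refine sum_congr rfl fun ω _ => ?_
  by_cases h : R z ω
  · rw [hu z ω h]; ring
  · have : clsW R z ω = 0 := by unfold clsW; rw [if_neg h]
    simp [this]

/-- Coarse after fine. -/
theorem ce_ce {R R' : Setoid Ω} (h : ∀ a b, R' a b → R a b) (f : Ω → ℝ) (z : Ω) :
    ce R (ce R' f) z = ce R f z := by
  simp only [ce, Finset.mul_sum]
  rw [Finset.sum_comm]
  refine sum_congr rfl fun ω _ => ?_
  rw [← clsW_tower h z ω, Finset.sum_mul]
  exact sum_congr rfl fun _ _ => by ring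

/-- Fine after coarse. -/
theorem ce_ce' {R R' : Setoid Ω} (h : ∀ a b, R' a b → R a b) (f : Ω → ℝ) (z : Ω) :
    ce R' (ce R f) z = ce R f z := by
  have := ce_of_inv R' (u := ce R f) (fun a b hab => ce_congr R f (h a b hab)) (fun _ => 1) z
  simpa [ce, clsW_sum] using this

theorem expect_mul_ce (R : Setoid Ω) {u : Ω → ℝ} (hu : ∀ a b, R a b → u a = u b) (f : Ω → ℝ) :
    𝔼 z, u z * ce R f z = 𝔼 z, u z * f z := by
  simp only [← ce_of_inv R hu f]
  simp only [ce, Fintype.expect_eq_sum_div_card]
  congr 1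
  rw [Finset.sum_comm]
  refine sum_congr rfl fun ω _ => ?_
  simp only [clsW_symm R _ ω]
  rw [← Finset.sum_mul, clsW_sum, one_mul]

theorem expect_ce (R : Setoid Ω) (f : Ω → ℝ) : 𝔼 z, ce R f z = 𝔼 z, f z := by
  simpa using expect_mul_ce R (u := fun _ => 1) (fun _ _ _ => rfl) f

/-- Energy increment identity. -/
theorem expect_sq_ce_sub {R R' : Setoid Ω} (h : ∀ a b, R' a b → R a b) (f : Ω → ℝ) :
    𝔼 z, (ce R' f z - ce R f z) ^ 2 = (𝔼 z, ce R' f z ^ 2) - 𝔼 z, ce R f z ^ 2 := by
  have h1 : 𝔼 z, ce R f z * ce R' f z = 𝔼 z, ce R f z ^ 2 := by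
    rw [← expect_mul_ce R (fun a b hab => ce_congr R f hab) (ce R' f)]
    simp only [ce_ce h, sq]
  have h2 : ∀ z, (ce R' f z - ce R f z) ^ 2 =
      ce R' f z ^ 2 - (ce R f z * ce R' f z + ce R f z * ce R' f z) + ce R f z ^ 2 :=
    fun z => by ring
  simp only [h2, Finset.expect_add_distrib, Finset.expect_sub_distrib, h1]
  ring

end Part

end Crest.Agent.R141
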