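import Crest.Agent.R141.PiKern
import Crest.Agent.R141.Part

/-! # Row 141: tool box (collects `PiLaw`, `PiKern`, `Part`) -/
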