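import Crest.Prelude.Def_DilutedSpinGlass
import Crest.Agent.R141.PiHom

/-!
# Row 141, lower bound: definitions (reference trees, column partitions, gadget systems)
-/

set_option autoImplicit false

namespace Crest.Agent.R141

open Finset Crest.ProbabilityR.Diluted
open scoped BigOperators

/-! ### Reference trees -/

/-- `κ`-ary trees of depth `d` with leaves labelled by `β`. -/
def Tr (β : Type) (κ : ℕ) : ℕ → Type
  | 0 => β
  | d + 1 => Fin κ → Tr β κ d

instance Tr.fintype (β : Type) [Fintype β] (κ : ℕ) : ∀ d, Fintype (Tr β κ d)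
  | 0 => inferInstanceAs (Fintype β)
  | d + 1 => letI := Tr.fintype β κ d
    inferInstanceAs (Fintype (Fin κ → Tr β κ d))

instance Tr.inhabited (β : Type) [Inhabited β] (κ : ℕ) : ∀ d, Inhabited (Tr β κ d)
  | 0 => inferInstanceAs (Inhabited β)
  | d + 1 => letI := Tr.inhabited β κ d
    inferInstanceAs (Inhabited (Fin κ → Tr β κ d))

/-- Relabel the leaves. -/
def Tr.map {β γ : Type} {κ : ℕ} (f : β → γ) : ∀ d, Tr β κ d → Tr γ κ d
  | 0, x => f x
  | d + 1, τ => fun i => Tr.map f d (τ i)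

/-- Number of sampled points in a tree of depth `d`. -/
def Tr.nodes (κ : ℕ) : ℕ → ℕ
  | 0 => 0
  | d + 1 => κ * (1 + Tr.nodes κ d)

/-- Law of a tree of depth `d` grown from `z` (its root sits at level `r + 1 - d`); the leaves
are read through `σ`. -/
noncomputable def treeLaw {Ω β : Type} [Fintype Ω] [Fintype β] (S : Kern Ω) (r κ : ℕ)
    (σ : Ω → β) : ∀ d, Ω → FinLaw (Tr β κ d)
  | 0, z => FinLaw.dirac (S := β) (σ z)
  | d + 1, z => FinLaw.pi fun _ : Fin κ =>
      ((S.law (r - d) z).cp fun ω => treeLaw S r κ σ d ω).map Prod.snd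

/-- Log nested power mean along a tree (uniform weights on the children). -/
noncomputable def treeLP {r : ℕ} (e : Expo r) (κ : ℕ) : ∀ d, Tr ℝ κ d → ℝ
  | 0, x => x
  | d + 1, τ => (e.m (r - d + 1))⁻¹ *
      Real.log (𝔼 i : Fin κ, Real.exp (e.m (r - d + 1) * treeLP e κ d (τ i)))

/-- One reference tree for each level `p ≤ r`. -/
abbrev Slot (β : Type) (κ r : ℕ) : Type := (p : Fin (r + 1)) → Tr β κ (r + 1 - p)

/-- Number of sampled points in a slot. -/
def slotNodes (κ r : ℕ) : ℕ := ∑ p : Fin (r + 1), Tr.nodes κ (r + 1 - p)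

section Slots
variable {Ω β : Type} [Fintype Ω] [Fintype β] {r : ℕ}

/-- Trees of the levels `≤ p` grown with `S`, those of the levels `> p` with `S'`. -/
noncomputable def slotLaw₂ (S S' : Kern Ω) (r κ : ℕ) (σ : Ω → β) (p : ℕ) (γ : Ω) :
    FinLaw (Slot β κ r) :=
  FinLaw.pi fun j : Fin (r + 1) =>
    if (j : ℕ) ≤ p then treeLaw S r κ σ (r + 1 - j) γ else treeLaw S' r κ σ (r + 1 - j) γ

/-- All trees grown with `S`. -/
noncomputable def slotLaw (S : Kern Ω) (r κ : ℕ) (σ : Ω → β) (γ : Ω) : FinLaw (Slot β κ r) :=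
  FinLaw.pi fun j : Fin (r + 1) => treeLaw S r κ σ (r + 1 - j) γ

/-- Only the trees of the levels `≤ p` (the others are set to `default`). -/
noncomputable def slotLE [Inhabited β] (S : Kern Ω) (r κ : ℕ) (σ : Ω → β) (p : ℕ) (γ : Ω) :
    FinLaw (Slot β κ r) :=
  FinLaw.pi fun j : Fin (r + 1) =>
    if (j : ℕ) ≤ p then treeLaw S r κ σ (r + 1 - j) γ else FinLaw.dirac default

/-- Levels `≤ p` from `τ`, levels `> p` from `τ'`. -/
def Slot.mix {κ : ℕ} (p : ℕ) (τ τ' : Slot β κ r) : Slot β κ r :=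
  fun j => if (j : ℕ) ≤ p then τ j else τ' j

end Slots

/-! ### Column partitions and the trial power means -/

section Cols
variable {ι K I : Type} {κ r : ℕ}

/-- Two sites have the same columns on the trees of level `≤ j` of the slots `t` with `P t`. -/
def colRel (Sl : I → Slot (ι → Bool) κ r) (P : I → Prop) (j : ℕ) : Setoid ι :=
  ⟨fun a b => ∀ t, P t → ∀ j' : Fin (r + 1), (j' : ℕ) ≤ j →
      Tr.map (fun s => s a) _ (Sl t j') = Tr.map (fun s => s b) _ (Sl t j'),
    ⟨fun _ _ _ _ _ => rfl, fun h t ht j' hj => (h t ht j' hj).symm,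
      fun h h' t ht j' hj => (h t ht j' hj).trans (h' t ht j' hj)⟩⟩

theorem colRel_refine (Sl : I → Slot (ι → Bool) κ r) (P : I → Prop) (j : ℕ) (a b : ι)
    (h : colRel Sl P (j + 1) a b) : colRel Sl P j a b :=
  fun t ht j' hj => h t ht j' (Nat.le_succ_of_le hj)

variable [Fintype ι] [Fintype K] [DecidableEq K]

/-- Log nested power mean over label tuples, level `j` revealing the columns on the slots `P j`. -/
noncomputable def Ylp (e : Expo r) (s : ι → Bool) (Sl : I → Slot (ι → Bool) κ r)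
    (P : ℕ → I → Prop) (u : (K → Bool) → ℝ) (j : ℕ) (lab : K → ι) : ℝ :=
  (Kern.part fun j => piRel K (colRel Sl (P j) j)).lp e (fun lab => u fun k => s (lab k)) j lab

/-- Log nested power mean along one reference tree of level `p`. -/
noncomputable def Xhat (e : Expo r) (τ : Slot (ι → Bool) κ r) (u : (K → Bool) → ℝ)
    (p : Fin (r + 1)) (lab : K → ι) : ℝ :=
  treeLP e κ _ (Tr.map (fun s => u fun k => s (lab k)) _ (τ p))

/-- Truncation to `[-1, 1]`. -/
noncomputable def clip (x : ℝ) : ℝ := max (-1) (min 1 x)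

/-- `(i/n) u`. -/
noncomputable def scl (n i : ℕ) (u : (K → Bool) → ℝ) : (K → Bool) → ℝ :=
  fun x => (i : ℝ) / n * u x

/-- The test function of the Gronwall argument. -/
noncomputable def psi (e : Expo r) (η : ℝ) (n i : ℕ) (u : (K → Bool) → ℝ) (p : Fin (r + 1))
    {B : ℕ} (s : ι → Bool) (Sl : Fin (B + 1) → Slot (ι → Bool) κ r) (lab : K → ι) : ℝ :=
  clip ((n * (Ylp e s Sl (fun _ _ => True) (scl n (i + 1) u) p lab -
      Ylp e s Sl (fun _ _ => True) (scl n i u) p lab) -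
    n * (Xhat e (Sl 0) (scl n (i + 1) u) p lab - Xhat e (Sl 0) (scl n i u) p lab)) / η)

variable [DecidableEq ι] {Ω : Type} [Fintype Ω]

/-- The energy `u (σ ∘ lab)` on the system. -/
def labE (σ : Ω → ι → Bool) (u : (K → Bool) → ℝ) (lab : K → ι) : Ω → ℝ :=
  fun ω => u fun k => σ ω (lab k)

/-- The centred tilted observable `τ_p (u - D_p)`. -/
noncomputable def cen (S : FKS Ω r) (e : Expo r) (σ : Ω → ι → Bool) (n i : ℕ)
    (u : (K → Bool) → ℝ) (p : ℕ) (lab : K → ι) (γ : Ω) : ℝ :=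
  S.tau e (labE σ (scl n i u) lab) p γ *
    (labE σ u lab γ - (S.tilt e (labE σ (scl n i u) lab)).ex p (labE σ u lab) γ)

/-- The correlation to be bounded, for one label tuple; all trees grown with `S`. -/
noncomputable def xi₁ (S : FKS Ω r) (e : Expo r) (σ : Ω → ι → Bool) (z₀ : Ω) (κ B : ℕ) (η : ℝ)
    (n i : ℕ) (u : (K → Bool) → ℝ) (p : Fin (r + 1)) (lab : K → ι) : ℝ :=
  S.ex 0 (fun γ => (FinLaw.pi fun _ : Fin (B + 1) => slotLaw S.toKern r κ σ γ).E fun Sl =>
    psi e η n i u p (σ γ) Sl lab * cen S e σ n i u p lab γ) z₀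

/-- The same with the trees of the levels `> p` grown with the tilted system. -/
noncomputable def xi₂ (S : FKS Ω r) (e : Expo r) (σ : Ω → ι → Bool) (z₀ : Ω) (κ B : ℕ) (η : ℝ)
    (n i : ℕ) (u : (K → Bool) → ℝ) (p : Fin (r + 1)) (lab : K → ι) : ℝ :=
  S.ex 0 (fun γ => (FinLaw.pi fun _ : Fin (B + 1) =>
    slotLaw₂ S.toKern (S.tilt e (labE σ (scl n i u) lab)).toKern r κ σ p γ).E fun Sl =>
    psi e η n i u p (σ γ) Sl lab * cen S e σ n i u p lab γ) z₀

/-- `psi` with the trees of the levels `> p` averaged out. -/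
noncomputable def psiBar (G : Kern Ω) (e : Expo r) (σ : Ω → ι → Bool) (κ B : ℕ) (η : ℝ)
    (n i : ℕ) (u : (K → Bool) → ℝ) (p : Fin (r + 1)) (γ : Ω)
    (Sl : Fin (B + 1) → Slot (ι → Bool) κ r) (lab : K → ι) : ℝ :=
  (FinLaw.pi fun _ : Fin (B + 1) => slotLaw G r κ σ γ).E fun Sl' =>
    psi e η n i u p (σ γ) (fun t => Slot.mix p (Sl t) (Sl' t)) lab

/-- Energy captured at level `j` by the first `b` of `Bm` slots, the deeper levels `j'` using the
first `k j'` slots. -/
noncomputable def energy (S : FKS Ω r) (e : Expo r) (σ : Ω → ι → Bool) (z₀ : Ω) (κ Bm : ℕ)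
    (u : (K → Bool) → ℝ) (k : ℕ → ℕ) (j b : ℕ) : ℝ :=
  S.ex 0 (fun γ => (FinLaw.pi fun _ : Fin Bm => slotLaw S.toKern r κ σ γ).E fun Sl =>
    𝔼 lab : K → ι, ce (piRel K (colRel Sl (fun t => (t : ℕ) < b) j))
      (fun lab' => Real.exp (e.m (j + 1) *
        Ylp e (σ γ) Sl (fun j' t => (t : ℕ) < k j') u (j + 1) lab')) lab ^ 2) z₀

end Cols

/-- Error term of the selection lemma. -/
noncomputable def selErr (q : ℝ) (k B M : ℕ) : ℝ :=
  2 * 2 ^ k * (1 - q / 2) ^ B + 3 * Real.sqrt ((1 + 4 / (q ^ 2 * M)) ^ B - 1)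

/-! ### Gadget systems -/

section Gadget
variable {W K ι C : Type} {r : ℕ}

/-- Coordinates: spins, read-out bits, field bits. -/
abbrev Co (ι C : Type) (r : ℕ) : Type := ι ⊕ C ⊕ C × Fin r

/-- Level at which a coordinate is revealed. -/
def Co.lev : Co ι C r → ℕ
  | Sum.inl _ => r + 1
  | Sum.inr (Sum.inl _) => r + 1
  | Sum.inr (Sum.inr x) => x.2 + 1

/-- Level-`0` data of a gadget: type, grid value of `λ`, labels. -/
abbrev Gd (W K ι : Type) (n : ℕ) : Type := (W × Fin n) × (K → ι)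

/-- The spins. -/
def sig (ω : Co ι C r → Bool) : ι → Bool := fun i => ω (Sum.inl i)

/-- The read-out spin of gadget `g`. -/
def rd (ω : Co ι C r → Bool) (g : C) : ℝ := spinVal (ω (Sum.inr (Sum.inl g)))

/-- Energy of gadget `g` with data `a`. -/
noncomputable def gEn (w : W → (K → Bool) → ℝ) (C₀ τ : ℝ) {n : ℕ} (a : Gd W K ι n) (g : C)
    (ω : Co ι C r → Bool) : ℝ :=
  (a.1.2 : ℝ) / n * w a.1.1 (fun k => sig ω (a.2 k)) +
    Real.log (1 + rd ω g * w a.1.1 (fun k => sig ω (a.2 k)) / (2 * C₀)) +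
    τ * ∑ j : Fin r, spinVal (ω (Sum.inr (Sum.inr (g, j)))) * rd ω g

variable [Fintype ι] [DecidableEq ι] [Fintype C] [DecidableEq C]

/-- Independent fair bits. -/
noncomputable def base (ι C : Type) [Fintype ι] [DecidableEq ι] [Fintype C] [DecidableEq C]
    (r : ℕ) : FKS (Co ι C r → Bool) r :=
  FKS.pi fun c : Co ι C r => FKS.lvl Bool r c.lev

/-- Total energy. -/
noncomputable def totEn (w : W → (K → Bool) → ℝ) (C₀ τ : ℝ) {n : ℕ} (v : (ι → Bool) → ℝ)
    (ξ : C → Gd W K ι n) (ω : Co ι C r → Bool) : ℝ :=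
  v (sig ω) + ∑ g, gEn w C₀ τ (ξ g) g ω

/-- The perturbed system. -/
noncomputable def sys (e : Expo r) (w : W → (K → Bool) → ℝ) (C₀ τ : ℝ) {n : ℕ}
    (v : (ι → Bool) → ℝ) (ξ : C → Gd W K ι n) : FKS (Co ι C r → Bool) r :=
  (base ι C r).tilt e (totEn w C₀ τ v ξ)

/-- The starting point. -/
def root : Co ι C r → Bool := fun _ => false

/-- The perturbed free energy on `M` sites with `c` gadgets. -/
noncomputable def Psi [Fintype W] [Fintype K] [DecidableEq K] (e : Expo r)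
    (w : W → (K → Bool) → ℝ) (C₀ τ : ℝ) (n c M : ℕ) (v : (Fin M → Bool) → ℝ) : ℝ :=
  𝔼 ξ : Fin c → Gd W K (Fin M) n, (base (Fin M) (Fin c) r).lp e (totEn w C₀ τ v ξ) 0 root

end Gadget

end Crest.Agent.R141
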