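import Crest.Agent.R141.Kern

/-!
# Row 141: filtered kernel systems, tilting, products, partition chains

A filtered kernel system (`FKS`) of depth `r`: `A j z ·` resamples everything that is revealed
at the levels `> j`; `rel j z z'` says that `z, z'` agree on the levels `≤ j`.
-/

set_option autoImplicit false

namespace Crest.Agent.R141

open Finset
open scoped BigOperators

/-- Filtered kernel system of depth `r`. -/
structure FKS (Ω : Type) [Fintype Ω] (r : ℕ) extends Kern Ω where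
  rel : ℕ → Setoid Ω
  supp : ∀ j z ω, A j z ω ≠ 0 → rel j z ω
  inv : ∀ j z z', rel j z z' → A j z = A j z'
  refine : ∀ j z z', rel (j + 1) z z' → rel j z z'
  tower : ∀ j, j < r → ∀ z ω', ∑ ω, A j z ω * A (j + 1) ω ω' = A j z ω'

namespace FKS
variable {Ω : Type} [Fintype Ω] {r : ℕ} (S : FKS Ω r) (e : Expo r)

/-- `f` is constant on the level-`j` classes. -/
def Inv (j : ℕ) (f : Ω → ℝ) : Prop := ∀ z z', S.rel j z z' → f z = f z'

theorem rel_of_le {i j : ℕ} (hij : i ≤ j) {z z' : Ω} (h : S.rel j z z') : S.rel i z z' := by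
  induction j, hij using Nat.le_induction with
  | base => exact h
  | succ k _ ih => exact ih (S.refine k z z' h)

theorem Inv.of_le {S : FKS Ω r} {i j : ℕ} (hij : i ≤ j) {f : Ω → ℝ} (h : S.Inv i f) :
    S.Inv j f := fun z z' hz => h z z' (S.rel_of_le hij hz)

theorem inv_ex (j : ℕ) (f : Ω → ℝ) : S.Inv j (S.ex j f) := fun z z' h => by
  simp only [Kern.ex, S.inv j z z' h]

theorem inv_lp (v : Ω → ℝ) {j : ℕ} (hj : j ≤ r) : S.Inv j (S.lp e v j) := fun z z' h => by
  rw [S.lp_succ e v hj, S.lp_succ e v hj, S.inv_ex j _ z z' h]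

/-- Pull a level-`j` function out of the level-`j` average. -/
theorem ex_inv_mul {j : ℕ} {u : Ω → ℝ} (hu : S.Inv j u) (f : Ω → ℝ) (z : Ω) :
    S.ex j (fun ω => u ω * f ω) z = u z * S.ex j f z := by
  rw [← S.ex_smul]
  exact S.ex_congr j fun ω hω => by rw [hu z ω (S.supp j z ω hω)]

theorem ex_of_inv {j : ℕ} {u : Ω → ℝ} (hu : S.Inv j u) (z : Ω) : S.ex j u z = u z := by
  have := S.ex_inv_mul hu (fun _ => 1) z
  simpa [S.ex_const] using this

theorem ex_ex_succ {j : ℕ} (hj : j < r) (f : Ω → ℝ) (z : Ω) :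
    S.ex j (S.ex (j + 1) f) z = S.ex j f z := by
  simp only [Kern.ex, Finset.mul_sum]
  rw [Finset.sum_comm]
  refine sum_congr rfl fun ω' _ => ?_
  rw [← S.tower j hj z ω', Finset.sum_mul]
  exact sum_congr rfl fun ω _ => by ring

/-- Tower property. -/
theorem ex_ex {i j : ℕ} (hij : i ≤ j) (hj : j ≤ r) (f : Ω → ℝ) (z : Ω) :
    S.ex i (S.ex j f) z = S.ex i f z := by
  induction j, hij using Nat.le_induction generalizing f with
  | base => exact S.ex_of_inv (S.inv_ex i f) z
  | succ k hk ih =>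
    rw [← ih (by omega) (S.ex (k + 1) f), ← ih (by omega) f]
    congr 1
    funext ω
    exact S.ex_ex_succ (by omega) f ω

theorem ex_le_lp (v : Ω → ℝ) {j : ℕ} (hj : j ≤ r) (z : Ω) : S.ex j v z ≤ S.lp e v j z := by
  induction j using down_ind (r := r) generalizing z with
  | top j hj' => omega
  | step j _ ih =>
    refine le_trans ?_ (S.ex_lp_succ_le e v hj z)
    by_cases h : j = r
    · rw [S.lp_top e v (by omega)]
    · rw [← S.ex_ex_succ (by omega) v z]
      exact S.ex_mono j (fun ω => ih (by omega) ω) z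

theorem exp_lp_le_ex (v : Ω → ℝ) {j : ℕ} (hj : j ≤ r) (z : Ω) :
    Real.exp (S.lp e v j z) ≤ S.ex j (fun ω => Real.exp (v ω)) z := by
  induction j using down_ind (r := r) generalizing z with
  | top j hj' => omega
  | step j _ ih =>
    refine (S.exp_lp_le e v hj z).trans ?_
    by_cases h : j = r
    · rw [S.lp_top e v (by omega)]
    · rw [← S.ex_ex_succ (by omega) (fun ω => Real.exp (v ω)) z]
      exact S.ex_mono j (fun ω => ih (by omega) ω) z

/-- Second-order sandwich: `ex v ≤ lp v ≤ ex v + a²` for `|v| ≤ a ≤ 1`. -/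
theorem abs_lp_sub_ex_le {v : Ω → ℝ} {a : ℝ} (ha : a ≤ 1) (hv : ∀ ω, |v ω| ≤ a) {j : ℕ}
    (hj : j ≤ r) (z : Ω) : |S.lp e v j z - S.ex j v z| ≤ a ^ 2 := by
  have h1 := S.ex_le_lp e v hj z
  have h2 := S.exp_lp_le_ex e v hj z
  have h3 : S.ex j (fun ω => Real.exp (v ω)) z ≤ S.ex j (fun ω => (1 + a ^ 2) + v ω) z := by
    refine S.ex_mono j (fun ω => ?_) z
    have := Real.abs_exp_sub_one_sub_id_le ((hv ω).trans ha)
    have h4 : v ω ^ 2 ≤ a ^ 2 := sq_le_sq' (abs_le.1 (hv ω)).1 (abs_le.1 (hv ω)).2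
    have := (abs_le.1 this).2
    linarith
  rw [S.ex_add, S.ex_const] at h3
  have h5 := Real.add_one_le_exp (S.lp e v j z)
  rw [abs_le]
  constructor
  · nlinarith [sq_nonneg a]
  · linarith

/-- The density of the tilted level-`j` kernel. -/
noncomputable def tau (v : Ω → ℝ) (j : ℕ) (ω : Ω) : ℝ :=
  Real.exp (∑ i ∈ range (r + 1), e.d i * (v ω - S.lp e v (max i j) ω))

theorem tau_pos (v : Ω → ℝ) (j : ℕ) (ω : Ω) : 0 < S.tau e v j ω := Real.exp_pos _

theorem tau_top (v : Ω → ℝ) {j : ℕ} (hj : r + 1 ≤ j) (ω : Ω) : S.tau e v j ω = 1 := by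
  unfold tau
  rw [Finset.sum_eq_zero, Real.exp_zero]
  intro i _
  rw [S.lp_top e v (le_max_of_le_right hj), sub_self, mul_zero]

theorem tau_succ (v : Ω → ℝ) {j : ℕ} (hj : j ≤ r) (ω : Ω) :
    S.tau e v j ω =
      Real.exp (e.m (j + 1) * (S.lp e v (j + 1) ω - S.lp e v j ω)) * S.tau e v (j + 1) ω := by
  unfold tau
  rw [← Real.exp_add]
  congr 1
  have hsplit : ∀ f : ℕ → ℝ, ∑ i ∈ range (r + 1), f i =
      ∑ i ∈ range (j + 1), f i + ∑ i ∈ Ico (j + 1) (r + 1), f i := fun f =>
    (Finset.sum_range_add_sum_Ico f (by omega)).symm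
  rw [hsplit, hsplit fun i => e.d i * (v ω - S.lp e v (max i (j + 1)) ω), ← add_assoc]
  congr 1
  · rw [← e.sum_d (j + 1), Finset.sum_mul, ← Finset.sum_add_distrib]
    refine sum_congr rfl fun i hi => ?_
    have hi' : i ≤ j := by have := mem_range.1 hi; omega
    rw [max_eq_right hi', max_eq_right (by omega : i ≤ j + 1)]
    ring
  · refine sum_congr rfl fun i hi => ?_
    have hi' : j + 1 ≤ i := (mem_Ico.1 hi).1
    rw [max_eq_left hi', max_eq_left (by omega : j ≤ i)]

theorem abs_log_tau_le {v : Ω → ℝ} {a : ℝ} (hv : ∀ ω, |v ω| ≤ a) (j : ℕ) (ω : Ω) :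
    |∑ i ∈ range (r + 1), e.d i * (v ω - S.lp e v (max i j) ω)| ≤ 2 * a := by
  refine (abs_sum_le_sum_abs _ _).trans ?_
  calc ∑ i ∈ range (r + 1), |e.d i * (v ω - S.lp e v (max i j) ω)|
      ≤ ∑ i ∈ range (r + 1), e.d i * (2 * a) := by
        refine sum_le_sum fun i hi => ?_
        have hd := (e.d_pos (show i ≤ r by have := mem_range.1 hi; omega)).le
        rw [abs_mul, abs_of_nonneg hd]
        refine mul_le_mul_of_nonneg_left ?_ hd
        have h1 := hv ω
        have h2 := S.abs_lp_le e hv (max i j) ω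
        have := abs_sub (v ω) (S.lp e v (max i j) ω)
        linarith
    _ = 2 * a := by rw [← Finset.sum_mul, e.sum_d_top, one_mul]

theorem tau_le {v : Ω → ℝ} {a : ℝ} (hv : ∀ ω, |v ω| ≤ a) (j : ℕ) (ω : Ω) :
    S.tau e v j ω ≤ Real.exp (2 * a) :=
  Real.exp_le_exp.2 (abs_le.1 (S.abs_log_tau_le e hv j ω)).2

theorem le_tau {v : Ω → ℝ} {a : ℝ} (hv : ∀ ω, |v ω| ≤ a) (j : ℕ) (ω : Ω) :
    Real.exp (-(2 * a)) ≤ S.tau e v j ω :=
  Real.exp_le_exp.2 (abs_le.1 (S.abs_log_tau_le e hv j ω)).1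

/-- One step of the tilted average, for a level-`(j+1)` function times `tau (j+1) * f`. -/
theorem ex_tau_succ (v : Ω → ℝ) {j : ℕ} (hj : j < r) (f : Ω → ℝ) (z : Ω) :
    S.ex j (fun ω => S.tau e v j ω * f ω) z =
      S.ex j (fun ω => Real.exp (e.m (j + 1) * (S.lp e v (j + 1) ω - S.lp e v j ω)) *
        S.ex (j + 1) (fun ω' => S.tau e v (j + 1) ω' * f ω') ω) z := by
  rw [← S.ex_ex_succ hj]
  congr 1
  funext ω
  have hu : S.Inv (j + 1) fun ω =>
      Real.exp (e.m (j + 1) * (S.lp e v (j + 1) ω - S.lp e v j ω)) := fun a b h => by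
    simp only
    rw [S.inv_lp e v (by omega : j + 1 ≤ r) a b h, S.inv_lp e v hj.le a b (S.refine j a b h)]
  rw [← S.ex_inv_mul hu]
  congr 1
  funext ω'
  rw [S.tau_succ e v hj.le]; ring

theorem ex_exp_step (v : Ω → ℝ) {j : ℕ} (hj : j ≤ r) (z : Ω) :
    S.ex j (fun ω => Real.exp (e.m (j + 1) * (S.lp e v (j + 1) ω - S.lp e v j ω))) z = 1 := by
  have hu : S.Inv j fun ω => Real.exp (-(e.m (j + 1) * S.lp e v j ω)) := fun a b h => by
    simp only
    rw [S.inv_lp e v hj a b h]
  have : (fun ω => Real.exp (e.m (j + 1) * (S.lp e v (j + 1) ω - S.lp e v j ω))) =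
      fun ω => Real.exp (-(e.m (j + 1) * S.lp e v j ω)) *
        Real.exp (e.m (j + 1) * S.lp e v (j + 1) ω) := by
    funext ω; rw [← Real.exp_add]; congr 1; ring
  rw [this, S.ex_inv_mul hu, ← S.exp_mul_lp e v hj, ← Real.exp_add]
  simp

theorem ex_tau (v : Ω → ℝ) (j : ℕ) (z : Ω) : S.ex j (S.tau e v j) z = 1 := by
  induction j using down_ind (r := r) generalizing z with
  | top j hj =>
    have : S.tau e v j = fun _ => 1 := funext fun ω => S.tau_top e v hj ω
    rw [this, S.ex_const]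
  | step j hj ih =>
    by_cases h : j = r
    · rw [← S.ex_exp_step e v hj z]
      congr 1
      funext ω
      rw [S.tau_succ e v hj, S.tau_top e v (by omega), mul_one]
    · have := S.ex_tau_succ e v (show j < r by omega) (fun _ => 1) z
      simp only [mul_one] at this
      have h2 : ∀ ω, S.ex (j + 1) (fun ω' => S.tau e v (j + 1) ω') ω = 1 := ih
      simp only [h2, mul_one] at this
      exact this.trans (S.ex_exp_step e v hj z)

/-- The system tilted by the weight `exp v`. -/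
noncomputable def tilt (v : Ω → ℝ) : FKS Ω r where
  A j z ω := S.A j z ω * S.tau e v j ω
  nonneg j z ω := mul_nonneg (S.nonneg j z ω) (S.tau_pos e v j ω).le
  sum_one j z := S.ex_tau e v j z
  rel := S.rel
  supp j z ω h := S.supp j z ω (left_ne_zero_of_mul h)
  inv j z z' h := by funext ω; rw [S.inv j z z' h]
  refine := S.refine
  tower j hj z ω' := by
    classical
    have h1 := S.ex_tau_succ e v hj (fun ω => if ω = ω' then 1 else 0) z
    have h2 := S.ex_tau_succ e v hj (fun ω => S.A (j + 1) ω ω' * S.tau e v (j + 1) ω') z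
    have h3 : ∀ ω, S.ex (j + 1) (fun ω'' => S.tau e v (j + 1) ω'' *
        (S.A (j + 1) ω'' ω' * S.tau e v (j + 1) ω')) ω =
        S.A (j + 1) ω ω' * S.tau e v (j + 1) ω' := by
      intro ω
      have hu : S.Inv (j + 1) fun a => S.A (j + 1) a ω' * S.tau e v (j + 1) ω' := fun a b h => by
        simp only; rw [S.inv _ a b h]
      have := S.ex_inv_mul hu (S.tau e v (j + 1)) ω
      rw [S.ex_tau, mul_one] at this
      rw [← this]; congr 1; funext a; ring
    have h4 : ∀ ω, S.ex (j + 1) (fun ω'' => S.tau e v (j + 1) ω'' *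
        (if ω'' = ω' then 1 else 0)) ω = S.A (j + 1) ω ω' * S.tau e v (j + 1) ω' := by
      intro ω; simp [Kern.ex]
    simp only [h3] at h2
    simp only [h4] at h1
    rw [← h1] at h2
    have h5 : S.ex j (fun ω => S.tau e v j ω * (if ω = ω' then 1 else 0)) z =
        S.A j z ω' * S.tau e v j ω' := by simp [Kern.ex]
    rw [← h5, ← h2]
    exact sum_congr rfl fun ω _ => by ring

theorem tilt_A (v : Ω → ℝ) (j : ℕ) (z ω : Ω) :
    (S.tilt e v).A j z ω = S.A j z ω * S.tau e v j ω := rfl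

@[simp] theorem tilt_rel (v : Ω → ℝ) : (S.tilt e v).rel = S.rel := rfl

theorem tilt_ex (v : Ω → ℝ) (j : ℕ) (f : Ω → ℝ) (z : Ω) :
    (S.tilt e v).ex j f z = S.ex j (fun ω => S.tau e v j ω * f ω) z :=
  sum_congr rfl fun _ _ => mul_assoc _ _ _

/-- For a level-`(j+1)` function only the first factor of `tau j` matters. -/
theorem tilt_ex_of_inv (v : Ω → ℝ) {j : ℕ} (hj : j < r) {f : Ω → ℝ} (hf : S.Inv (j + 1) f)
    (z : Ω) : (S.tilt e v).ex j f z =
      S.ex j (fun ω => Real.exp (e.m (j + 1) * (S.lp e v (j + 1) ω - S.lp e v j ω)) * f ω) z := by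
  rw [tilt_ex, S.ex_tau_succ e v hj]
  congr 1
  funext ω
  have := S.ex_inv_mul hf (S.tau e v (j + 1)) ω
  rw [S.ex_tau, mul_one] at this
  rw [← this]; congr 2; funext a; ring

/-- Chain rule. -/
theorem lp_tilt (v v' : Ω → ℝ) (j : ℕ) (z : Ω) :
    (S.tilt e v).lp e v' j z = S.lp e (fun ω => v ω + v' ω) j z - S.lp e v j z := by
  induction j using down_ind (r := r) generalizing z with
  | top j hj => rw [Kern.lp_top _ e _ hj, S.lp_top e _ hj, S.lp_top e _ hj]; ring
  | step j hj ih =>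
    have hm := e.pos hj
    have key : (S.tilt e v).ex j (fun ω => Real.exp (e.m (j + 1) *
        (S.tilt e v).lp e v' (j + 1) ω)) z = Real.exp (-(e.m (j + 1) * S.lp e v j z)) *
        S.ex j (fun ω => Real.exp (e.m (j + 1) * S.lp e (fun ω => v ω + v' ω) (j + 1) ω)) z := by
      have hu : S.Inv j fun ω => Real.exp (-(e.m (j + 1) * S.lp e v j ω)) := fun a b h => by
        simp only
        rw [S.inv_lp e v hj a b h]
      rw [← S.ex_inv_mul hu]
      have hpt : ∀ ω, Real.exp (e.m (j + 1) * (S.lp e v (j + 1) ω - S.lp e v j ω)) *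
          Real.exp (e.m (j + 1) * (S.tilt e v).lp e v' (j + 1) ω) =
          Real.exp (-(e.m (j + 1) * S.lp e v j ω)) *
          Real.exp (e.m (j + 1) * S.lp e (fun ω => v ω + v' ω) (j + 1) ω) := by
        intro ω
        rw [ih, ← Real.exp_add, ← Real.exp_add]; congr 1; ring
      by_cases h : j = r
      · rw [tilt_ex]
        congr 1
        funext ω
        rw [← hpt, S.tau_succ e v hj, S.tau_top e v (by omega), mul_one]
      · rw [S.tilt_ex_of_inv e v (show j < r by omega)]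
        · simp only [hpt]
        · intro a b hab
          simp only
          rw [(S.tilt e v).inv_lp e v' (by omega : j + 1 ≤ r) a b hab]
    rw [Kern.lp_succ _ e _ hj, key, S.lp_succ e (fun ω => v ω + v' ω) hj,
      Real.log_mul (Real.exp_pos _).ne' (S.ex_exp_pos _ _ _).ne', Real.log_exp]
    field_simp
    ring

theorem tau_tilt (v v' : Ω → ℝ) (j : ℕ) (ω : Ω) :
    S.tau e v j ω * (S.tilt e v).tau e v' j ω = S.tau e (fun ω => v ω + v' ω) j ω := by
  unfold tau
  rw [← Real.exp_add, ← Finset.sum_add_distrib]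
  congr 1
  refine sum_congr rfl fun i _ => ?_
  rw [S.lp_tilt]; ring

theorem tilt_tilt_A (v v' : Ω → ℝ) (j : ℕ) (z ω : Ω) :
    ((S.tilt e v).tilt e v').A j z ω = (S.tilt e fun ω => v ω + v' ω).A j z ω := by
  rw [tilt_A, tilt_A, tilt_A, mul_assoc, tau_tilt]

theorem tilt_tilt_ex (v v' : Ω → ℝ) (j : ℕ) (f : Ω → ℝ) (z : Ω) :
    ((S.tilt e v).tilt e v').ex j f z = (S.tilt e fun ω => v ω + v' ω).ex j f z := by
  simp only [Kern.ex, tilt_tilt_A]

theorem tilt_tilt_kern (v v' : Ω → ℝ) :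
    ((S.tilt e v).tilt e v').toKern = (S.tilt e fun ω => v ω + v' ω).toKern := by
  have : ((S.tilt e v).tilt e v').A = (S.tilt e fun ω => v ω + v' ω).A := by
    funext j z ω; exact S.tilt_tilt_A e v v' j z ω
  cases h1 : ((S.tilt e v).tilt e v').toKern
  cases h2 : (S.tilt e fun ω => v ω + v' ω).toKern
  have a1 : ((S.tilt e v).tilt e v').A = _ := congrArg Kern.A h1
  have a2 : (S.tilt e fun ω => v ω + v' ω).A = _ := congrArg Kern.A h2
  simp only at a1 a2
  have := a1.symm.trans (this.trans a2)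
  subst this
  rfl

theorem tilt_hom {Ω' : Type} [Fintype Ω'] {S : FKS Ω r} {S' : FKS Ω' r} {φ : Ω → Ω'}
    (h : Kern.Hom r S.toKern S'.toKern φ) (e : Expo r) (v : Ω' → ℝ) :
    Kern.Hom r (S.tilt e fun ω => v (φ ω)).toKern (S'.tilt e v).toKern φ := fun j hj f z => by
  rw [tilt_ex, tilt_ex, ← h j hj]
  congr 1
  funext ω
  unfold tau
  simp only [h.lp e v]

/-- Product of two systems. -/
noncomputable def prod {Ω' : Type} [Fintype Ω'] (S : FKS Ω r) (S' : FKS Ω' r) :
    FKS (Ω × Ω') r where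
  toKern := S.toKern.prod S'.toKern
  rel j := (S.rel j).prod (S'.rel j)
  supp j z ω h := ⟨S.supp j _ _ (left_ne_zero_of_mul h), S'.supp j _ _ (right_ne_zero_of_mul h)⟩
  inv j z z' h := by
    funext ω
    show S.A j z.1 ω.1 * S'.A j z.2 ω.2 = S.A j z'.1 ω.1 * S'.A j z'.2 ω.2
    rw [S.inv j _ _ h.1, S'.inv j _ _ h.2]
  refine j z z' h := ⟨S.refine j _ _ h.1, S'.refine j _ _ h.2⟩
  tower j hj z ω' := by
    show ∑ ω : Ω × Ω', (S.A j z.1 ω.1 * S'.A j z.2 ω.2) *
      (S.A (j + 1) ω.1 ω'.1 * S'.A (j + 1) ω.2 ω'.2) = S.A j z.1 ω'.1 * S'.A j z.2 ω'.2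
    rw [← S.tower j hj, ← S'.tower j hj, Finset.sum_mul_sum, Fintype.sum_prod_type]
    exact sum_congr rfl fun a _ => sum_congr rfl fun b _ => by ring

/-- Product of a finite family of systems on a common space. -/
noncomputable def pi {L : Type} [Fintype L] [DecidableEq L] (T : L → FKS Ω r) :
    FKS (L → Ω) r where
  toKern := Kern.pi fun l => (T l).toKern
  rel j := ⟨fun z z' => ∀ l, (T l).rel j (z l) (z' l),
    ⟨fun _ _ => Setoid.refl' _ _, fun h l => Setoid.symm' _ (h l),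
      fun h h' l => Setoid.trans' _ (h l) (h' l)⟩⟩
  supp j z ω h l := (T l).supp j _ _ (prod_ne_zero_iff.1 h l (mem_univ l))
  inv j z z' h := by
    funext ω
    exact prod_congr rfl fun l _ => by
      show (T l).A j (z l) (ω l) = (T l).A j (z' l) (ω l)
      rw [(T l).inv j _ _ (h l)]
  refine j z z' h l := (T l).refine j _ _ (h l)
  tower j hj z ω' := by
    show ∑ ω : L → Ω, (∏ l, (T l).A j (z l) (ω l)) * (∏ l, (T l).A (j + 1) (ω l) (ω' l)) =
      ∏ l, (T l).A j (z l) (ω' l)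
    simp only [← prod_mul_distrib]
    rw [← Fintype.piFinset_univ,
      ← Finset.prod_univ_sum (fun _ => univ) fun l a => (T l).A j (z l) a * (T l).A (j + 1) a (ω' l)]
    exact prod_congr rfl fun l _ => (T l).tower j hj _ _

theorem pi_rel {L : Type} [Fintype L] [DecidableEq L] (T : L → FKS Ω r) (j : ℕ) (z z' : L → Ω) :
    (pi T).rel j z z' ↔ ∀ l, (T l).rel j (z l) (z' l) := Iff.rfl

theorem pi_A {L : Type} [Fintype L] [DecidableEq L] (T : L → FKS Ω r) (j : ℕ) (z ω : L → Ω) :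
    (pi T).A j z ω = ∏ l, (T l).A j (z l) (ω l) := rfl

end FKS

open Classical in
/-- Uniform law on the class of `z`. -/
noncomputable def clsW {Ω : Type} [Fintype Ω] (R : Setoid Ω) (z ω : Ω) : ℝ :=
  if R z ω then ((univ.filter fun a => R z a).card : ℝ)⁻¹ else 0

theorem clsW_nonneg {Ω : Type} [Fintype Ω] (R : Setoid Ω) (z ω : Ω) : 0 ≤ clsW R z ω := by
  unfold clsW; split_ifs <;> positivity

theorem clsW_sum {Ω : Type} [Fintype Ω] (R : Setoid Ω) (z : Ω) : ∑ ω, clsW R z ω = 1 := by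
  classical
  unfold clsW
  rw [← Finset.sum_filter, Finset.sum_const, nsmul_eq_mul]
  have : (univ.filter fun a => R z a).card ≠ 0 :=
    Finset.card_ne_zero.2 ⟨z, by simp⟩
  convert mul_inv_cancel₀ (Nat.cast_ne_zero.2 this : ((_ : ℕ) : ℝ) ≠ 0)

theorem clsW_congr {Ω : Type} [Fintype Ω] (R : Setoid Ω) {z z' : Ω} (h : R z z') :
    clsW R z = clsW R z' := by
  have : ∀ a, R z a ↔ R z' a := fun a =>
    ⟨fun h' => Setoid.trans' _ (Setoid.symm' _ h) h', fun h' => Setoid.trans' _ h h'⟩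
  have h2 : R.r z = R.r z' := funext fun a => propext (this a)
  funext ω
  unfold clsW
  rw [h2]

theorem clsW_symm {Ω : Type} [Fintype Ω] (R : Setoid Ω) (z ω : Ω) : clsW R z ω = clsW R ω z := by
  by_cases h : R z ω
  · rw [clsW_congr R h]
    unfold clsW
    rw [if_pos (Setoid.refl' R ω), if_pos (Setoid.symm' _ h)]
  · unfold clsW
    rw [if_neg h, if_neg fun h' => h (Setoid.symm' _ h')]

/-- The class average ("conditional expectation") of `f`. -/
noncomputable def ce {Ω : Type} [Fintype Ω] (R : Setoid Ω) (f : Ω → ℝ) (z : Ω) : ℝ :=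
  ∑ ω, clsW R z ω * f ω

/-- Kernel family of class averages (the partitions need not be nested). -/
noncomputable def Kern.part {Ω : Type} [Fintype Ω] (R : ℕ → Setoid Ω) : Kern Ω where
  A j := clsW (R j)
  nonneg j := clsW_nonneg (R j)
  sum_one j := clsW_sum (R j)

theorem Kern.part_ex {Ω : Type} [Fintype Ω] (R : ℕ → Setoid Ω) (j : ℕ) (f : Ω → ℝ) :
    (Kern.part R).ex j f = ce (R j) f := rfl

theorem clsW_tower {Ω : Type} [Fintype Ω] {R R' : Setoid Ω} (h : ∀ a b, R' a b → R a b)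
    (z ω' : Ω) : ∑ ω, clsW R z ω * clsW R' ω ω' = clsW R z ω' := by
  have : ∀ ω, clsW R z ω * clsW R' ω ω' = clsW R z ω' * clsW R' ω' ω := by
    intro ω
    rw [clsW_symm R' ω' ω]
    by_cases h' : R' ω ω'
    · rw [clsW_symm R z ω, clsW_congr R (h _ _ h'), clsW_symm R z ω']
    · have : clsW R' ω ω' = 0 := by unfold clsW; rw [if_neg h']
      rw [this, mul_zero, mul_zero]
  simp only [this, ← Finset.mul_sum, clsW_sum, mul_one]

/-- A refining chain of partitions, with the uniform law on each class. -/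
noncomputable def FKS.part {Ω : Type} [Fintype Ω] (r : ℕ) (R : ℕ → Setoid Ω)
    (hR : ∀ j a b, R (j + 1) a b → R j a b) : FKS Ω r where
  toKern := Kern.part R
  rel := R
  supp j z ω h := by
    by_contra h'
    exact h (by show clsW (R j) z ω = 0; unfold clsW; rw [if_neg h'])
  inv j z z' h := clsW_congr (R j) h
  refine := hR
  tower j _ z ω' := clsW_tower (hR j) z ω'

/-- A single uniform coordinate revealed at level `l` (frozen by the kernels `A j`, `l ≤ j`). -/
noncomputable def FKS.lvl (V : Type) [Fintype V] (r l : ℕ) : FKS V r :=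
  FKS.part r (fun j => if l ≤ j then ⊥ else ⊤) (fun j a b h => by
    by_cases h1 : l ≤ j
    · rw [if_pos (by omega)] at h; rw [if_pos h1]; exact h
    · rw [if_neg h1]; trivial)

theorem FKS.lvl_A_of_le (V : Type) [Fintype V] [DecidableEq V] (r : ℕ) {l j : ℕ} (h : l ≤ j)
    (z ω : V) : (FKS.lvl V r l).A j z ω = if ω = z then 1 else 0 := by
  show clsW (if l ≤ j then ⊥ else ⊤) z ω = _
  rw [if_pos h]
  unfold clsW
  have h1 : ∀ a, (⊥ : Setoid V) z a ↔ z = a := fun a => Iff.rfl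
  simp only [h1]
  rw [Finset.filter_eq, if_pos (mem_univ z)]
  simp [eq_comm]

theorem FKS.lvl_A_of_lt (V : Type) [Fintype V] (r : ℕ) {l j : ℕ} (h : j < l)
    (z ω : V) : (FKS.lvl V r l).A j z ω = (Fintype.card V : ℝ)⁻¹ := by
  show clsW (if l ≤ j then ⊥ else ⊤) z ω = _
  rw [if_neg (by omega)]
  unfold clsW
  simp

theorem FKS.lvl_rel (V : Type) [Fintype V] (r l j : ℕ) (z z' : V) :
    (FKS.lvl V r l).rel j z z' ↔ (l ≤ j → z = z') := by
  show (if l ≤ j then (⊥ : Setoid V) else ⊤) z z' ↔ _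
  by_cases h : l ≤ j
  · rw [if_pos h]; exact ⟨fun h' _ => h', fun h' => h' h⟩
  · rw [if_neg h]; exact ⟨fun _ h' => absurd h' h, fun _ => trivial⟩

/-- Attach to each point an independent mark with law `q ω`, revealed at the last level. -/
noncomputable def FKS.mark {Ω V : Type} [Fintype Ω] [Fintype V] {r : ℕ} (S : FKS Ω r)
    (q : Ω → FinLaw V) : FKS (Ω × V) r where
  A j z ω := S.A j z.1 ω.1 * (q ω.1).w ω.2
  nonneg _ _ _ := mul_nonneg (S.nonneg _ _ _) ((q _).nonneg _)
  sum_one j z := by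
    rw [Fintype.sum_prod_type]
    simp only [← Finset.mul_sum, FinLaw.sum_one, mul_one, S.sum_one]
  rel j := (S.rel j).comap Prod.fst
  supp j z ω h := S.supp j _ _ (left_ne_zero_of_mul h)
  inv j z z' h := by funext ω; rw [S.inv j z.1 z'.1 h]
  refine j z z' h := S.refine j _ _ h
  tower j hj z ω' := by
    rw [Fintype.sum_prod_type, ← S.tower j hj, Finset.sum_mul]
    refine sum_congr rfl fun a _ => ?_
    simp only
    rw [← Finset.sum_mul, ← Finset.mul_sum, FinLaw.sum_one]; ring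

end Crest.Agent.R141
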