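import Crest.Agent.R141.ASSInc

/-!
# Row 141: the lower bound for finite disorder

Recipe. `f M v = log 𝔼 σ, exp (v σ)` is 1-Lipschitz and `M * X.pressure α M = M log 2 + disAvg X α M (f M)`
(`shiftOp_iterate`, `pi_E_prod_law`, `pi_unif_E`, `poisOp_E`-type exchange of the finite sum with the `tsum`).
`a M = disAvg X α M (Ψ M)` satisfies `|a M - disAvg X α M (f M)| ≤ C` (`le_poisOp_sub` both ways) and
`a (M+1) - a M ≥ I - log 2 - ε/3 - A/M`; sum from a large `M₀` on and divide by `N`.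
-/

set_option autoImplicit false

namespace Crest.Agent.R141

open Finset Crest.ProbabilityR.Diluted
open scoped BigOperators

theorem Model.dis_sym {p : ℕ} {B F H : Type} [Fintype B] [Fintype F] [Fintype H]
    (M : Model p B F H) : M.dis.Sym := by
  intro π Φ
  change (M.πb.prod (FinLaw.pi fun _ : Fin p => M.πf)).E _ =
    (M.πb.prod (FinLaw.pi fun _ : Fin p => M.πf)).E _
  rw [FinLaw.prod_E, FinLaw.prod_E]
  congr 1
  funext b
  have h := FinLaw.pi_E_restrict (fun _ : Fin p => M.πf) π.symm π.symm.injective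
    fun y => Φ (M.dis.θ (b, y))
  rw [← h]
  congr 1
  funext y
  congr 1
  funext s
  change Real.log (1 + M.b b * ∏ l, M.f (y l) (s (π l))) =
    Real.log (1 + M.b b * ∏ l, M.f (y (π.symm l)) (s l))
  rw [← Equiv.prod_comp π fun l => M.f (y (π.symm l)) (s l)]
  simp only [Equiv.symm_apply_apply]

theorem Lower_lip (A : Type) [Fintype A] [Nonempty A] :
    LipschitzWith 1 fun v : A → ℝ => Real.log (𝔼 σ, Real.exp (v σ)) := by
  refine LipschitzWith.of_le_add fun v w => ?_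
  have hpos : ∀ u : A → ℝ, 0 < 𝔼 σ, Real.exp (u σ) := fun u =>
    Finset.expect_pos (fun _ _ => Real.exp_pos _) univ_nonempty
  rw [← Real.log_exp (dist v w), ← Real.log_mul (hpos w).ne' (Real.exp_pos _).ne']
  refine Real.log_le_log (hpos v) ?_
  rw [Finset.expect_mul]
  refine Finset.expect_le_expect fun σ _ => ?_
  rw [← Real.exp_add]
  refine Real.exp_le_exp.2 ?_
  have := dist_le_pi_dist v w σ
  rw [Real.dist_eq] at this
  linarith [le_abs_self (v σ - w σ)]

theorem Lower_logZ {p : ℕ} {D H : Type} [Fintype D] [Fintype H] (X : Dis p D H) (M n : ℕ)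
    (ds : Fin n → D) (hs : Fin M → H) (idx : Fin n → Fin p → Fin M) :
    logPartition M (fun k => X.θ (ds k)) idx (fun i => X.h (hs i)) = M * Real.log 2 +
      Real.log (𝔼 σ, Real.exp ((fieldEn X hs + ∑ i, clauseEn X M (ds i, idx i)) σ)) := by
  have hpos : 0 < 𝔼 σ, Real.exp ((fieldEn X hs + ∑ i, clauseEn X M (ds i, idx i)) σ) :=
    Finset.expect_pos (fun _ _ => Real.exp_pos _) univ_nonempty
  rw [← Real.log_pow, ← Real.log_mul (by positivity) hpos.ne', Fintype.expect_eq_sum_div_card]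
  unfold logPartition
  congr 1
  have hc : (Fintype.card (Fin M → Bool) : ℝ) = 2 ^ M := by simp
  rw [hc, mul_div_cancel₀ _ (by positivity)]
  refine sum_congr rfl fun σ _ => ?_
  simp only [Pi.add_apply, Finset.sum_apply, fieldEn, clauseEn]
  rw [add_comm]

theorem Lower_pressure {p : ℕ} {D H : Type} [Fintype D] [Fintype H] (X : Dis p D H) {α : ℝ}
    (hα : 0 ≤ α) (M : ℕ) [NeZero M] :
    M * X.pressure α M = M * Real.log 2 +
      disAvg X α M fun v => Real.log (𝔼 σ, Real.exp (v σ)) := by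
  have hM : (M : ℝ) ≠ 0 := by exact_mod_cast NeZero.ne M
  have hl : 0 ≤ α * M := by positivity
  set f : ((Fin M → Bool) → ℝ) → ℝ := fun v => Real.log (𝔼 σ, Real.exp (v σ)) with hf
  have hs1 : ∀ hs : Fin M → H, Summable fun n : ℕ => poissonWeight (α * M) n *
      ((shiftOp (clauseLaw X M) (clauseEn X M))^[n] f) (fieldEn X hs) := fun hs =>
    summable_poisOp hl _ _ (Lower_lip _) _
  have h1 : disAvg X α M f = ∑' n : ℕ, poissonWeight (α * M) n *
      (FinLaw.pi fun _ : Fin M => X.πh).E fun hs =>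
        ((shiftOp (clauseLaw X M) (clauseEn X M))^[n] f) (fieldEn X hs) := by
    unfold disAvg poisOp
    rw [E_tsum_comm _ _ hs1]
    simp only [FinLaw.E_smul]
  have hs2 : Summable fun n : ℕ => poissonWeight (α * M) n *
      (FinLaw.pi fun _ : Fin M => X.πh).E fun hs =>
        ((shiftOp (clauseLaw X M) (clauseEn X M))^[n] f) (fieldEn X hs) := by
    simp only [← FinLaw.E_smul]
    unfold FinLaw.E
    exact summable_sum fun hs _ => (hs1 hs).mul_left _
  have h2 : ∀ n : ℕ, ((FinLaw.pi fun _ : Fin n => X.πd).E fun ds =>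
      (FinLaw.pi fun _ : Fin M => X.πh).E fun hs =>
        (Fintype.card (Fin n → Fin p → Fin M) : ℝ)⁻¹ * ∑ idx : Fin n → Fin p → Fin M,
          logPartition M (fun k => X.θ (ds k)) idx (fun i => X.h (hs i))) =
      M * Real.log 2 + (FinLaw.pi fun _ : Fin M => X.πh).E fun hs =>
        ((shiftOp (clauseLaw X M) (clauseEn X M))^[n] f) (fieldEn X hs) := by
    intro n
    rw [FinLaw.E_comm, ← (FinLaw.pi fun _ : Fin M => X.πh).E_const (M * Real.log 2),
      ← FinLaw.E_add]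
    congr 1
    funext hs
    rw [shiftOp_iterate]
    unfold clauseLaw
    rw [FinLaw.pi_E_prod_law, ← (FinLaw.pi fun _ : Fin n => X.πd).E_const (M * Real.log 2),
      ← FinLaw.E_add]
    congr 1
    funext ds
    rw [FinLaw.pi_unif_E, ← div_eq_inv_mul, ← Fintype.expect_eq_sum_div_card]
    simp only [Lower_logZ]
    rw [Finset.expect_add_distrib, Finset.expect_const univ_nonempty]
  unfold Dis.pressure
  simp only [h2, mul_add]
  rw [((hasSum_poi _).summable.mul_right _).tsum_add hs2, tsum_poi_const, h1]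
  field_simp

theorem lower_fin {p : ℕ} (hp : 1 ≤ p) {D H : Type} [Fintype D] [Fintype H] (X : Dis p D H)
    (hX : X.Sym) {α : ℝ} (hα : 0 ≤ α) {I : ℝ}
    (hI : ∀ (r n : ℕ) [NeZero n] (R : ℕ → Setoid (Fin n))
      (hR : ∀ j a b, R (j + 1) a b → R j a b) (s : Fin n → Bool),
      I ≤ X.P α (Expo.unif r) (Trial.part r R hR s)) {ε : ℝ} (hε : 0 < ε) :
    ∀ᶠ N in Filter.atTop, I - ε ≤ X.pressure α N := by
  obtain ⟨C, Ψ, -, hlip, happ, hnew, hcav⟩ := cavity_step hp X hα hI (ε := ε / 3) (by positivity)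
  obtain ⟨A, hA⟩ := disAvg_succ_sub hp X hX hα C
  set J : ℝ := I - Real.log 2 - ε / 3 with hJ
  set a : ℕ → ℝ := fun M => disAvg X α (M + 1) (Ψ (M + 1)) with ha
  have hinc : ∀ M : ℕ, J - A / ((M + 1 : ℕ) : ℝ) ≤ a (M + 1) - a M := fun M =>
    hA (M + 1) (Ψ (M + 1)) (Ψ (M + 1 + 1)) J (hlip _) (hlip _)
      (hnew (M + 1) (by omega)) (hcav (M + 1))
  have hlow : ∀ M : ℕ, a M - C ≤ disAvg X α (M + 1)
      fun v => Real.log (𝔼 σ, Real.exp (v σ)) := by
    intro M
    have h1 := (FinLaw.pi fun _ : Fin (M + 1) => X.πh).E_mono (f := fun _ => -C)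
      (g := fun hs => poisOp (α * ((M + 1 : ℕ) : ℝ)) (clauseLaw X (M + 1)) (clauseEn X (M + 1))
          (fun v => Real.log (𝔼 σ, Real.exp (v σ))) (fieldEn X hs) -
        poisOp (α * ((M + 1 : ℕ) : ℝ)) (clauseLaw X (M + 1)) (clauseEn X (M + 1))
          (Ψ (M + 1)) (fieldEn X hs)) fun hs =>
      le_poisOp_sub (by positivity) _ _ (Lower_lip _) (hlip _) (fun y => by
        have := abs_le.1 (happ (M + 1) (by omega) y)
        linarith [this.2]) _
    rw [FinLaw.E_const, FinLaw.E_sub] at h1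
    simp only [ha, disAvg]
    linarith
  obtain ⟨M₀, hM₀⟩ := exists_nat_ge (3 * |A| / ε)
  have hstep : ∀ M, M₀ ≤ M → J - ε / 3 ≤ a (M + 1) - a M := by
    intro M hM
    refine le_trans ?_ (hinc M)
    have h1 : (M₀ : ℝ) ≤ ((M + 1 : ℕ) : ℝ) := by exact_mod_cast (by omega : M₀ ≤ M + 1)
    have h2 : (0 : ℝ) < ((M + 1 : ℕ) : ℝ) := by positivity
    have h3 : A / ((M + 1 : ℕ) : ℝ) ≤ ε / 3 := by
      rw [div_le_iff₀ h2]
      rw [div_le_iff₀ hε] at hM₀
      have := le_abs_self A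
      nlinarith
    linarith
  have hsum : ∀ k : ℕ, a M₀ + k * (J - ε / 3) ≤ a (M₀ + k) := by
    intro k
    induction k with
    | zero => simp
    | succ k ih =>
      have := hstep (M₀ + k) (by omega)
      rw [← add_assoc]
      push_cast
      linarith
  set K : ℝ := a M₀ - (M₀ + 1) * (J - ε / 3) - C with hK
  obtain ⟨N₀, hN₀⟩ := exists_nat_ge (3 * |K| / ε)
  filter_upwards [Filter.eventually_ge_atTop (M₀ + 1), Filter.eventually_ge_atTop N₀] with N h1 h2
  obtain ⟨k, rfl⟩ : ∃ k, N = M₀ + k + 1 := ⟨N - (M₀ + 1), by omega⟩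
  have h3 := Lower_pressure X hα (M₀ + k + 1)
  have h4 := hlow (M₀ + k)
  have h5 := hsum k
  have h6 : (0 : ℝ) < ((M₀ + k + 1 : ℕ) : ℝ) := by positivity
  have h7 : (N₀ : ℝ) ≤ ((M₀ + k + 1 : ℕ) : ℝ) := by exact_mod_cast h2
  rw [div_le_iff₀ hε] at hN₀
  have h8 := neg_abs_le K
  have h9 : 3 * |K| ≤ ((M₀ + k + 1 : ℕ) : ℝ) * ε := hN₀.trans (by gcongr)
  refine le_of_mul_le_mul_left ?_ h6
  rw [h3]
  have h10 : ((M₀ + k + 1 : ℕ) : ℝ) = M₀ + k + 1 := by push_cast; ring
  rw [h10] at h9 ⊢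
  have h11 : (M₀ + k + 1 : ℝ) * (I - ε) = (M₀ + k + 1 : ℝ) * Real.log 2 +
      (M₀ + k + 1 : ℝ) * (J - ε / 3) - (M₀ + k + 1 : ℝ) * ε / 3 := by rw [hJ]; ring
  rw [h11]
  nlinarith

end Crest.Agent.R141
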