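import Crest.Agent.R141.Upper
import Crest.Agent.R141.Lower

/-! # Row 141: both bounds for finite factorized models, in the form used by row 153 -/

set_option autoImplicit false

namespace Crest.Agent.R141

open Finset Crest.ProbabilityR.Diluted
open scoped BigOperators

theorem upper_fin' {p : ℕ} (hp : 2 ≤ p) {B F H : Type} [Fintype B] [Fintype F] [Fintype H]
    (M : Model p B F H) {α : ℝ} (hα : 0 < α) {r : ℕ} (e : Expo r) {Ω : Type} [Fintype Ω]
    (ζ : Trial r Ω) {ε : ℝ} (hε : 0 < ε) :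
    ∀ᶠ N in Filter.atTop, M.dis.pressure α N ≤ M.dis.P α e ζ + ε := by
  filter_upwards [Filter.eventually_ge_atTop 1] with N hN
  have := upper_fin (by omega) M hα.le ζ e hN
  linarith

theorem lower_fin' {p : ℕ} (hp : 2 ≤ p) {B F H : Type} [Fintype B] [Fintype F] [Fintype H]
    (M : Model p B F H) {α : ℝ} (hα : 0 < α) {ε : ℝ} (hε : 0 < ε) :
    ∃ (r : ℕ) (e : Expo r) (Ω : Type) (_ : Fintype Ω) (ζ : Trial r Ω),
      ∀ᶠ N in Filter.atTop, M.dis.P α e ζ ≤ M.dis.pressure α N + ε := by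
  set 𝓢 : Set ℝ := {x | ∃ (r : ℕ) (e : Expo r) (Ω : Type) (_ : Fintype Ω) (ζ : Trial r Ω),
    x = M.dis.P α e ζ} with h𝓢
  have hne : 𝓢.Nonempty := ⟨_, 0, Expo.unif 0, Unit, inferInstance,
    Trial.part 0 (fun _ => ⊤) (fun _ _ _ h => h) fun _ => true, rfl⟩
  have hbdd : BddBelow 𝓢 := ⟨M.dis.pressure α 1, by
    rintro x ⟨r, e, Ω, _, ζ, rfl⟩
    exact upper_fin (by omega) M hα.le ζ e le_rfl⟩
  obtain ⟨x, ⟨r, e, Ω, _, ζ, rfl⟩, hx⟩ := Real.lt_sInf_add_pos hne (half_pos hε)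
  refine ⟨r, e, Ω, inferInstance, ζ, ?_⟩
  have := lower_fin (by omega) M.dis M.dis_sym hα.le (I := sInf 𝓢)
    (fun r n _ R hR s => csInf_le hbdd ⟨r, _, Fin n, inferInstance, _, rfl⟩) (half_pos hε)
  filter_upwards [this] with N hN
  linarith

end Crest.Agent.R141
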