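import Crest.Agent.R141.PiHom

/-!
# Row 141: replicas on random trees and the series for `log` of a nested power mean

A code of length `n` describes `n + 1` replicas, the newest at index `0`: the new replica picks a
uniform parent `l`, a level `i` with probability `m (i+1) - m i`, branches off at the level
`max i (blev l)` and is drawn from `A (max i (blev l)) (α l) ·`.

Recipe for `kt`. Put `v t = log (1 - t u)`, `φ t ω b = exp (-∑ᵢ d i * lp (v t) (max i b) ω)`, so
`tau (v t) b ω = (1 - t u ω) * φ t ω b`. (1) `HasDerivAt (fun t => lp (v t) j z)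
(-(S.ex j (fun ω => u ω * φ t ω j) z)) t` for `j ≤ r` (downward induction with `tau_succ`,
`ex_tau_succ`; in general `∂ lp j = ex j (tau j * ∂v)`). (2) `G n t = E_n ∏ₐ u (α a) φ t (α a) (blev a)`
has derivative `(n+1) G (n+1) t` (product rule and `repE_succ`). (3) `|G n t| ≤ (ρ/(1-ρ t))^(n+1)`:
by (2)-type recursion, since `ex b (|u| φ t · b) ≤ ρ/(1-ρ t) * ex b (tau b) = ρ/(1-ρ t)` (induct on `n`
for `|u|` in place of `u` outside `φ`). (4) `R n s = -lp (v s) 0 z₀ + ∑_{k<n} (1-s)^(k+1) G k s/(k+1)`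
has derivative `(1-s)^n G n s`, of size `≤ ρ^(n+1)/(1-ρ)` on `[0,1]`; mean value inequality;
`φ 0 = 1`. The terms are bounded by `ρ^(n+1)`, so the series is summable (`0 ≤ ρ` as `Ω ∋ z₀`).
-/

set_option autoImplicit false

namespace Crest.Agent.R141

open Finset
open scoped BigOperators

/-- Codes of trees with `n + 1` replicas. -/
def Code (r : ℕ) : ℕ → Type
  | 0 => PUnit
  | n + 1 => Code r n × Fin (n + 1) × Fin (r + 1)

instance Code.fintype (r : ℕ) : ∀ n, Fintype (Code r n)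
  | 0 => inferInstanceAs (Fintype PUnit)
  | n + 1 => letI := Code.fintype r n
    inferInstanceAs (Fintype (Code r n × Fin (n + 1) × Fin (r + 1)))

/-- The level at which each replica branched off (`0` for the first one). -/
def blev {r : ℕ} : ∀ n, Code r n → Fin (n + 1) → ℕ
  | 0, _ => fun _ => 0
  | n + 1, κ => Fin.cons (max (κ.2.2 : ℕ) (blev n κ.1 κ.2.1)) (blev n κ.1)

/-- The law of the level. -/
noncomputable def Expo.law {r : ℕ} (e : Expo r) : FinLaw (Fin (r + 1)) where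
  w i := e.d i
  nonneg i := (e.d_pos (Nat.lt_succ_iff.1 i.2)).le
  sum_one := by rw [← e.sum_d_top, Finset.sum_range]

/-- The law of the code. -/
noncomputable def codeLaw {r : ℕ} (e : Expo r) : ∀ n, FinLaw (Code r n)
  | 0 => FinLaw.dirac PUnit.unit
  | n + 1 => (codeLaw e n).prod ((FinLaw.unif (Fin (n + 1))).prod e.law)

/-- The law of the replicas, given the code. -/
noncomputable def repLaw {Ω : Type} [Fintype Ω] {r : ℕ} (S : Kern Ω) (z₀ : Ω) :
    ∀ n, Code r n → FinLaw (Fin (n + 1) → Ω)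
  | 0, _ => (S.law 0 z₀).map fun ω _ => ω
  | n + 1, κ => ((repLaw S z₀ n κ.1).cp fun α =>
      S.law (max (κ.2.2 : ℕ) (blev n κ.1 κ.2.1)) (α κ.2.1)).map fun x => Fin.cons x.2 x.1

theorem blev_le {r : ℕ} : ∀ n (κ : Code r n) (a : Fin (n + 1)), blev n κ a ≤ r := by
  intro n
  induction n with
  | zero => exact fun _ _ => Nat.zero_le _
  | succ n ih =>
    intro κ a
    refine Fin.cases ?_ (fun a => ?_) a
    · exact max_le (Nat.lt_succ_iff.1 κ.2.2.2) (ih _ _)
    · exact ih κ.1 a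

theorem repE_zero {Ω : Type} [Fintype Ω] {r : ℕ} (S : Kern Ω) (z₀ : Ω) (κ : Code r 0)
    (F : (Fin 1 → Ω) → ℝ) : (repLaw S z₀ 0 κ).E F = S.ex 0 (fun ω => F fun _ => ω) z₀ :=
  FinLaw.map_E _ _ _

theorem repE_succ {Ω : Type} [Fintype Ω] {r : ℕ} (S : Kern Ω) (z₀ : Ω) (n : ℕ)
    (κ : Code r (n + 1)) (F : (Fin (n + 1 + 1) → Ω) → ℝ) :
    (repLaw S z₀ (n + 1) κ).E F = (repLaw S z₀ n κ.1).E fun α =>
      S.ex (max (κ.2.2 : ℕ) (blev n κ.1 κ.2.1)) (fun ω => F (Fin.cons ω α)) (α κ.2.1) :=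
  (FinLaw.map_E _ _ _).trans (FinLaw.cp_E _ _ _)

theorem codeE_zero {r : ℕ} (e : Expo r) (F : Code r 0 → ℝ) : (codeLaw e 0).E F = F PUnit.unit :=
  FinLaw.dirac_E _ _

theorem codeE_succ {r : ℕ} (e : Expo r) (n : ℕ) (F : Code r (n + 1) → ℝ) :
    (codeLaw e (n + 1)).E F = (codeLaw e n).E fun κ =>
      (1 / ((n : ℝ) + 1)) * ∑ l : Fin (n + 1), ∑ i : Fin (r + 1), e.d i * F (κ, l, i) := by
  refine (FinLaw.prod_E _ _ _).trans ?_
  congr 1
  funext κ
  rw [FinLaw.prod_E]
  simp [FinLaw.E, FinLaw.unif, Expo.law, Finset.mul_sum]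

theorem FinLaw.pi_E_cp {S T L : Type} [Fintype S] [Fintype T] [Fintype L] [DecidableEq L]
    (μ : L → FinLaw S) (ν : L → S → FinLaw T) (f : (L → S × T) → ℝ) :
    (FinLaw.pi fun l => (μ l).cp (ν l)).E f =
      (FinLaw.pi μ).E fun x => (FinLaw.pi fun l => ν l (x l)).E fun y => f fun l => (x l, y l) := by
  simp only [FinLaw.E, FinLaw.pi, FinLaw.cp, Finset.mul_sum]
  rw [← (Equiv.arrowProdEquivProdArrow L (fun _ => S) fun _ => T).symm.sum_comp,
    Fintype.sum_prod_type]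
  refine sum_congr rfl fun x _ => sum_congr rfl fun y _ => ?_
  rw [← mul_assoc, ← prod_mul_distrib]
  rfl

/-- Replicas of a product system: independent given the code. -/
theorem repLaw_prod {Ω Ω' : Type} [Fintype Ω] [Fintype Ω'] {r : ℕ} (S : Kern Ω) (S' : Kern Ω')
    (z : Ω × Ω') (n : ℕ) (κ : Code r n) (F : (Fin (n + 1) → Ω × Ω') → ℝ) :
    (repLaw (S.prod S') z n κ).E F =
      (repLaw S z.1 n κ).E fun α => (repLaw S' z.2 n κ).E fun β => F fun a => (α a, β a) := by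
  induction n with
  | zero => simp only [repE_zero, Kern.prod_ex]
  | succ n ih =>
    simp only [repE_succ, ih, Kern.prod_ex]
    congr 1
    funext α
    rw [Kern.ex_eq_E, FinLaw.E_comm]
    congr 1
    funext β
    rw [Kern.ex_eq_E]
    congr 1
    funext ω
    congr 1
    funext ω'
    congr 1
    funext a
    refine Fin.cases rfl (fun _ => rfl) a

theorem repLaw_pi {Ω L : Type} [Fintype Ω] [Fintype L] [DecidableEq L] {r : ℕ} (T : L → Kern Ω)
    (z : L → Ω) (n : ℕ) (κ : Code r n) (F : (Fin (n + 1) → L → Ω) → ℝ) :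
    (repLaw (Kern.pi T) z n κ).E F =
      (FinLaw.pi fun l => repLaw (T l) (z l) n κ).E fun β => F fun a l => β l a := by
  induction n with
  | zero =>
    rw [repE_zero, ← FinLaw.pi_E_map (fun l => (T l).law 0 (z l)) _ (fun _ ω _ => ω)
      fun l g => (repE_zero (T l) (z l) κ g).symm]
    rfl
  | succ n ih =>
    rw [repE_succ, ih, ← FinLaw.pi_E_map (fun l => (repLaw (T l) (z l) n κ.1).cp fun α =>
      (T l).law (max (κ.2.2 : ℕ) (blev n κ.1 κ.2.1)) (α κ.2.1))
      (fun l => repLaw (T l) (z l) (n + 1) κ)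
      (fun _ x => (Fin.cons x.2 x.1 : Fin (n + 1 + 1) → Ω))
      fun l g => (FinLaw.map_E _ _ g).symm, FinLaw.pi_E_cp]
    congr 1
    funext β
    rw [Kern.ex_eq_E]
    congr 1
    funext ω
    congr 1
    funext a
    refine Fin.cases rfl (fun _ => rfl) a

section KT
variable {Ω : Type} [Fintype Ω] {r : ℕ} (S : FKS Ω r) (e : Expo r) (z₀ : Ω)

theorem FinLaw.hasDerivAt_E {T : Type} [Fintype T] (μ : FinLaw T) {f : ℝ → T → ℝ} {f' : T → ℝ}
    {t : ℝ} (h : ∀ s, HasDerivAt (fun t => f t s) (f' s) t) :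
    HasDerivAt (fun t => μ.E (f t)) (μ.E f') t :=
  HasDerivAt.fun_sum fun s _ => (h s).const_mul (μ.w s)

/-- The derivative of a nested power mean is the tilted average of the derivative. -/
theorem FKS.hasDerivAt_lp {v : ℝ → Ω → ℝ} {v' : Ω → ℝ} {t : ℝ}
    (h : ∀ ω, HasDerivAt (fun t => v t ω) (v' ω) t) {j : ℕ} (hj : j ≤ r) (z : Ω) :
    HasDerivAt (fun t => S.lp e (v t) j z) (S.ex j (fun ω => S.tau e (v t) j ω * v' ω) z) t := by
  have key : ∀ j z, HasDerivAt (fun t => S.lp e (v t) j z)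
      (if j ≤ r then S.ex j (fun ω => S.tau e (v t) j ω * v' ω) z else v' z) t := by
    intro j
    induction j using down_ind (r := r) with
    | top j hj =>
      intro z
      simp only [S.lp_top e _ hj, if_neg (show ¬ j ≤ r by omega)]
      exact h z
    | step j hj ih =>
      intro z
      have hm := e.pos hj
      have h1 := (S.law j z).hasDerivAt_E fun ω => ((ih ω).const_mul (e.m (j + 1))).exp
      have h2 := (h1.log (S.ex_exp_pos j _ z).ne').const_mul (e.m (j + 1))⁻¹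
      simp only [S.lp_succ e _ hj, if_pos hj]
      refine h2.congr_deriv (Eq.symm ?_)
      have hu : S.Inv j fun ω => Real.exp (-(e.m (j + 1) * S.lp e (v t) j ω)) := fun a b h => by
        simp only
        rw [S.inv_lp e _ hj a b h]
      have h3 : S.ex j (fun ω => S.tau e (v t) j ω * v' ω) z =
          S.ex j (fun ω => Real.exp (e.m (j + 1) * (S.lp e (v t) (j + 1) ω - S.lp e (v t) j ω)) *
            if j + 1 ≤ r then S.ex (j + 1) (fun ω => S.tau e (v t) (j + 1) ω * v' ω) ω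
              else v' ω) z := by
        by_cases hjr : j + 1 ≤ r
        · simp only [if_pos hjr]
          exact S.ex_tau_succ e _ hjr v' z
        · simp only [if_neg hjr, S.tau_succ e _ hj, S.tau_top e _ (show r + 1 ≤ j + 1 by omega),
            mul_one]
      rw [h3, ← Kern.ex_eq_E, ← Kern.ex_eq_E, ← S.exp_mul_lp e _ hj, div_eq_inv_mul,
        ← Real.exp_neg, ← S.ex_inv_mul hu, ← S.ex_smul]
      congr 1
      funext ω
      rw [mul_sub, sub_eq_neg_add, Real.exp_add]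
      field_simp
  simpa only [if_pos hj] using key j z

/-- Tree average of a product of weights. -/
noncomputable def ktH (w : Ω → ℕ → ℝ) (n : ℕ) : ℝ :=
  (codeLaw e n).E fun κ => (repLaw S.toKern z₀ n κ).E fun α => ∏ a, w (α a) (blev n κ a)

theorem ktH_zero (w : Ω → ℕ → ℝ) : ktH S e z₀ w 0 = S.ex 0 (fun ω => w ω 0) z₀ := by
  rw [ktH, codeE_zero, repE_zero]
  simp [blev]

theorem ktH_succ (w : Ω → ℕ → ℝ) (n : ℕ) : ((n : ℝ) + 1) * ktH S e z₀ w (n + 1) =
    (codeLaw e n).E fun κ => (repLaw S.toKern z₀ n κ).E fun α =>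
      (∏ a, w (α a) (blev n κ a)) * ∑ l, ∑ i ∈ range (r + 1), e.d i *
        S.ex (max i (blev n κ l)) (fun ω => w ω (max i (blev n κ l))) (α l) := by
  rw [ktH, codeE_succ, ← FinLaw.E_smul]
  congr 1
  funext κ
  rw [← mul_assoc, mul_one_div_cancel (by positivity), one_mul]
  simp only [Finset.mul_sum, FinLaw.E_sum]
  refine sum_congr rfl fun l _ => ?_
  rw [Finset.sum_range]
  refine sum_congr rfl fun i _ => ?_
  rw [repE_succ, ← FinLaw.E_smul]
  congr 1
  funext α
  rw [mul_left_comm]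
  congr 1
  rw [← S.ex_smul]
  congr 1
  funext ω
  rw [Fin.prod_univ_succ, mul_comm]
  rfl

theorem abs_ktH_le {w : Ω → ℕ → ℝ} {c : ℝ}
    (h : ∀ b ≤ r, ∀ z, S.ex b (fun ω => |w ω b|) z ≤ c) (n : ℕ) :
    |ktH S e z₀ w n| ≤ c ^ (n + 1) := by
  have hc : 0 ≤ c := (S.ex_nonneg 0 (fun _ => abs_nonneg _) z₀).trans (h 0 (Nat.zero_le _) z₀)
  have h1 : |ktH S e z₀ w n| ≤ ktH S e z₀ (fun ω b => |w ω b|) n :=
    (FinLaw.abs_E_le_E_abs _ _).trans (FinLaw.E_mono _ fun κ =>
      (FinLaw.abs_E_le_E_abs _ _).trans (FinLaw.E_mono _ fun α => (Finset.abs_prod _ _).le))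
  refine h1.trans ?_
  clear h1
  induction n with
  | zero => simpa [ktH_zero] using h 0 (Nat.zero_le _) z₀
  | succ n ih =>
    refine le_of_mul_le_mul_left ?_ (by positivity : 0 < (n : ℝ) + 1)
    rw [ktH_succ]
    calc _ ≤ (codeLaw e n).E fun κ => (repLaw S.toKern z₀ n κ).E fun α =>
          (((n : ℝ) + 1) * c) * ∏ a, |w (α a) (blev n κ a)| := by
          refine FinLaw.E_mono _ fun κ => FinLaw.E_mono _ fun α => ?_
          rw [mul_comm]
          refine mul_le_mul_of_nonneg_right ?_ (prod_nonneg fun _ _ => abs_nonneg _)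
          calc _ ≤ ∑ _l : Fin (n + 1), ∑ i ∈ range (r + 1), e.d i * c := by
                refine sum_le_sum fun l _ => sum_le_sum fun i hi => ?_
                have hi' : i ≤ r := Nat.lt_succ_iff.1 (mem_range.1 hi)
                exact mul_le_mul_of_nonneg_left (h _ (max_le hi' (blev_le _ _ _)) _)
                  (e.d_pos hi').le
            _ = _ := by simp [← Finset.sum_mul, e.sum_d_top]
      _ = ((n : ℝ) + 1) * c * ktH S e z₀ (fun ω b => |w ω b|) n := by
          simp only [FinLaw.E_smul, ktH]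
      _ ≤ ((n : ℝ) + 1) * c * c ^ (n + 1) := mul_le_mul_of_nonneg_left ih (by positivity)
      _ = _ := by ring

/-- The weight `u φ` of the recipe. -/
noncomputable def ktW (u : Ω → ℝ) (t : ℝ) (ω : Ω) (b : ℕ) : ℝ :=
  u ω * Real.exp (-∑ i ∈ range (r + 1),
    e.d i * S.lp e (fun ω => Real.log (1 - t * u ω)) (max i b) ω)

theorem ktW_eq {u : Ω → ℝ} {t : ℝ} (h : ∀ ω, 0 < 1 - t * u ω) (ω : Ω) (b : ℕ) :
    ktW S e u t ω b =
      S.tau e (fun ω => Real.log (1 - t * u ω)) b ω * (u ω / (1 - t * u ω)) := by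
  rw [ktW, FKS.tau]
  simp only [mul_sub, Finset.sum_sub_distrib, ← Finset.sum_mul, e.sum_d_top, one_mul]
  rw [sub_eq_add_neg, Real.exp_add, Real.exp_log (h ω), mul_right_comm,
    mul_div_cancel₀ _ (h ω).ne']

theorem kt_deriv_lp {u : Ω → ℝ} {t : ℝ} (h : ∀ ω, 0 < 1 - t * u ω) {j : ℕ} (hj : j ≤ r) (z : Ω) :
    HasDerivAt (fun t => S.lp e (fun ω => Real.log (1 - t * u ω)) j z)
      (-S.ex j (fun ω => ktW S e u t ω j) z) t := by
  have h1 := S.hasDerivAt_lp e (v := fun t ω => Real.log (1 - t * u ω))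
    (v' := fun ω => -u ω / (1 - t * u ω)) (t := t) (fun ω => by
      simpa using (((hasDerivAt_id t).mul_const (u ω)).const_sub 1).log (h ω).ne') hj z
  refine h1.congr_deriv (Eq.symm ?_)
  rw [← neg_one_mul, ← S.ex_smul]
  congr 1
  funext ω
  rw [ktW_eq S e h]
  ring

theorem kt_deriv_H {u : Ω → ℝ} {t : ℝ} (h : ∀ ω, 0 < 1 - t * u ω) (n : ℕ) :
    HasDerivAt (fun t => ktH S e z₀ (ktW S e u t) n)
      (((n : ℝ) + 1) * ktH S e z₀ (ktW S e u t) (n + 1)) t := by
  rw [ktH_succ]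
  refine FinLaw.hasDerivAt_E _ fun κ => FinLaw.hasDerivAt_E _ fun α => ?_
  have e1 : ∀ t, ∏ a, ktW S e u t (α a) (blev n κ a) = (∏ a, u (α a)) *
      Real.exp (∑ a, -∑ i ∈ range (r + 1),
        e.d i * S.lp e (fun ω => Real.log (1 - t * u ω)) (max i (blev n κ a)) (α a)) := fun t => by
    rw [Real.exp_sum, ← prod_mul_distrib]
    rfl
  simp only [e1]
  have h1 := ((HasDerivAt.fun_sum (u := univ) fun (a : Fin (n + 1)) _ =>
    (HasDerivAt.fun_sum (u := range (r + 1)) fun i hi => (kt_deriv_lp S e h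
      (max_le (Nat.lt_succ_iff.1 (mem_range.1 hi)) (blev_le n κ a)) (α a)).const_mul
        (e.d i)).fun_neg).exp).const_mul (∏ a, u (α a))
  refine h1.congr_deriv ?_
  simp only [mul_neg, Finset.sum_neg_distrib, neg_neg, mul_assoc]

theorem kt_deriv_R {u : Ω → ℝ} {t : ℝ} (h : ∀ ω, 0 < 1 - t * u ω) (n : ℕ) :
    HasDerivAt (fun t => -S.lp e (fun ω => Real.log (1 - t * u ω)) 0 z₀ +
      ∑ k ∈ range n, (1 - t) ^ (k + 1) * (1 / ((k : ℝ) + 1) * ktH S e z₀ (ktW S e u t) k))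
      ((1 - t) ^ n * ktH S e z₀ (ktW S e u t) n) t := by
  induction n with
  | zero => simpa [ktH_zero] using (kt_deriv_lp S e h (Nat.zero_le r) z₀).fun_neg
  | succ n ih =>
    simp only [Finset.sum_range_succ, ← add_assoc]
    have h1 := ih.fun_add ((((hasDerivAt_id t).const_sub 1).fun_pow (n + 1)).fun_mul
      ((kt_deriv_H S e z₀ h n).const_mul (1 / ((n : ℝ) + 1))))
    refine h1.congr_deriv ?_
    simp only [id, Nat.add_sub_cancel]
    push_cast
    field_simp
    ring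

end KT

/-- The series for the logarithm of the nested power mean of `1 - u`. -/
theorem kt {Ω : Type} [Fintype Ω] {r : ℕ} (S : FKS Ω r) (e : Expo r) (z₀ : Ω) (u : Ω → ℝ) {ρ : ℝ}
    (hρ : ρ < 1) (hu : ∀ ω, |u ω| ≤ ρ) :
    HasSum (fun n : ℕ => (1 / ((n : ℝ) + 1)) *
        (codeLaw e n).E fun κ => (repLaw S.toKern z₀ n κ).E fun α => ∏ a, u (α a))
      (-S.lp e (fun ω => Real.log (1 - u ω)) 0 z₀) := by
  have h0 : 0 ≤ ρ := (abs_nonneg _).trans (hu z₀)
  have h1 : ∀ t ∈ Set.Icc (0 : ℝ) 1, 1 - ρ ≤ 1 - t * ρ := fun t ht => by nlinarith [ht.2]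
  have h2 : ∀ t ∈ Set.Icc (0 : ℝ) 1, ∀ ω, 1 - t * ρ ≤ 1 - t * u ω := fun t ht ω => by
    have := mul_le_mul_of_nonneg_left (abs_le.1 (hu ω)).2 ht.1
    linarith
  have h3 : ∀ t ∈ Set.Icc (0 : ℝ) 1, 0 < 1 - t * ρ := fun t ht => (sub_pos.2 hρ).trans_le (h1 t ht)
  have h4 : ∀ t ∈ Set.Icc (0 : ℝ) 1, ∀ ω, 0 < 1 - t * u ω := fun t ht ω =>
    (h3 t ht).trans_le (h2 t ht ω)
  have hG : ∀ t ∈ Set.Icc (0 : ℝ) 1, ∀ n,
      |ktH S e z₀ (ktW S e u t) n| ≤ (ρ / (1 - t * ρ)) ^ (n + 1) := fun t ht n => by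
    refine abs_ktH_le S e z₀ (fun b _ z => ?_) n
    calc _ ≤ S.ex b (fun ω => ρ / (1 - t * ρ) *
          S.tau e (fun ω => Real.log (1 - t * u ω)) b ω) z := by
          refine S.ex_mono b (fun ω => ?_) z
          rw [ktW_eq S e (h4 t ht), abs_mul, abs_of_pos (S.tau_pos e _ _ _), mul_comm, abs_div,
            abs_of_pos (h4 t ht ω)]
          exact mul_le_mul_of_nonneg_right (div_le_div₀ h0 (hu ω) (h3 t ht) (h2 t ht ω))
            (S.tau_pos e _ _ _).le
      _ = _ := by rw [S.ex_smul, S.ex_tau, mul_one]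
  have hW : ktW S e u 0 = fun ω _ => u ω := by
    funext ω b
    simp [ktW, S.lp_const]
  change HasSum (fun n : ℕ => (1 / ((n : ℝ) + 1)) * ktH S e z₀ (fun ω _ => u ω) n) _
  have hs : Summable fun n : ℕ => (1 / ((n : ℝ) + 1)) * ktH S e z₀ (fun ω _ => u ω) n := by
    refine ((summable_nat_add_iff 1).2 (summable_geometric_of_lt_one h0 hρ)).of_norm_bounded
      fun n => ?_
    have h5 := hG 0 ⟨le_rfl, zero_le_one⟩ n
    rw [hW, zero_mul, sub_zero, div_one] at h5
    rw [Real.norm_eq_abs, abs_mul, abs_of_pos (by positivity)]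
    refine (mul_le_of_le_one_left (abs_nonneg _) ?_).trans h5
    rw [div_le_one (by positivity)]
    linarith [(Nat.cast_nonneg n : (0 : ℝ) ≤ n)]
  rw [hs.hasSum_iff_tendsto_nat, tendsto_iff_norm_sub_tendsto_zero]
  have hlim : Filter.Tendsto (fun n : ℕ => ρ ^ n * (ρ / (1 - ρ))) Filter.atTop (nhds 0) := by
    simpa using (tendsto_pow_atTop_nhds_zero_of_lt_one h0 hρ).mul_const (ρ / (1 - ρ))
  refine squeeze_zero (fun _ => norm_nonneg _) (fun n => ?_) hlim
  have h5 := norm_image_sub_le_of_norm_deriv_le_segment_01'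
    (fun t ht => (kt_deriv_R S e z₀ (h4 t ht) n).hasDerivWithinAt) (C := ρ ^ n * (ρ / (1 - ρ)))
    fun t ht => by
      have ht' := Set.Ico_subset_Icc_self ht
      have h6 : 0 ≤ 1 - t := sub_nonneg.2 ht.2.le
      have h7 := h3 t ht'
      rw [Real.norm_eq_abs, abs_mul, abs_of_nonneg (pow_nonneg h6 n)]
      refine (mul_le_mul_of_nonneg_left (hG t ht' n) (pow_nonneg h6 n)).trans ?_
      rw [pow_succ, ← mul_assoc, ← mul_pow]
      refine mul_le_mul (pow_le_pow_left₀ (by positivity) ?_ n)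
        (div_le_div_of_nonneg_left h0 (sub_pos.2 hρ) (h1 t ht')) (by positivity) (by positivity)
      rw [← mul_div_assoc, div_le_iff₀ h7]
      have := mul_nonneg (mul_nonneg h0 ht.1) (sub_pos.2 hρ).le
      nlinarith
  rw [norm_sub_rev]
  simpa [hW, S.lp_const] using h5

end Crest.Agent.R141
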