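import Mathlib

/-!
# Row 141: exponents, finite laws, kernel families and nested power means (log form)

`Kern.lp S e v j z` is the logarithm of the nested power mean of `exp v` from level `j` on,
started at the point `z`: `lp (r+1) = v` and
`lp j z = (1/m_{j+1}) log ∑_ω A j z ω exp (m_{j+1} lp (j+1) ω)` for `j ≤ r`.
-/

set_option autoImplicit false

namespace Crest.Agent.R141

open Finset
open scoped BigOperators

/-- Exponents `0 = m 0 < m 1 < ⋯ < m r < m (r+1) = 1`. -/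
structure Expo (r : ℕ) where
  m : ℕ → ℝ
  zero : m 0 = 0
  top : m (r + 1) = 1
  lt : ∀ j, j ≤ r → m j < m (j + 1)

namespace Expo
variable {r : ℕ} (e : Expo r)

/-- The increment `m (j+1) - m j`. -/
def d (j : ℕ) : ℝ := e.m (j + 1) - e.m j

theorem d_pos {j : ℕ} (hj : j ≤ r) : 0 < e.d j := sub_pos.2 (e.lt j hj)

theorem mono {i j : ℕ} (hij : i ≤ j) (hj : j ≤ r + 1) : e.m i ≤ e.m j := by
  induction j, hij using Nat.le_induction with
  | base => exact le_rfl
  | succ k _ ih => exact (ih (by omega)).trans (e.lt k (by omega)).le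

theorem nonneg {j : ℕ} (hj : j ≤ r + 1) : 0 ≤ e.m j := by
  have := e.mono (Nat.zero_le j) hj
  rwa [e.zero] at this

theorem pos {j : ℕ} (hj : j ≤ r) : 0 < e.m (j + 1) :=
  (e.nonneg (by omega : j ≤ r + 1)).trans_lt (e.lt j hj)

theorem le_one {j : ℕ} (hj : j ≤ r + 1) : e.m j ≤ 1 := by
  have := e.mono hj le_rfl
  rwa [e.top] at this

theorem sum_d (k : ℕ) : ∑ i ∈ range k, e.d i = e.m k := by
  unfold d
  rw [Finset.sum_range_sub, e.zero, sub_zero]

theorem sum_d_top : ∑ i ∈ range (r + 1), e.d i = 1 := by rw [e.sum_d, e.top]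

/-- Equally spaced exponents `j/(r+1)`. -/
noncomputable def unif (r : ℕ) : Expo r where
  m j := (j : ℝ) / (r + 1)
  zero := by simp
  top := by push_cast; field_simp
  lt j _ := by
    have : (0 : ℝ) < r + 1 := by positivity
    push_cast
    gcongr
    linarith

theorem unif_d (r j : ℕ) : (unif r).d j = 1 / (r + 1) := by
  simp only [d, unif]; push_cast; ring

end Expo

/-- Downward induction over the levels `r+1, r, …, 0`. -/
theorem down_ind {r : ℕ} (P : ℕ → Prop) (top : ∀ j, r + 1 ≤ j → P j)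
    (step : ∀ j, j ≤ r → P (j + 1) → P j) : ∀ j, P j := by
  intro j
  by_cases h : r + 1 ≤ j
  · exact top j h
  · obtain ⟨k, hk⟩ : ∃ k, j + k = r + 1 := ⟨r + 1 - j, by omega⟩
    induction k generalizing j with
    | zero => exact top j (by omega)
    | succ k ih =>
      refine step j (by omega) ?_
      by_cases h' : r + 1 ≤ j + 1
      · exact top _ h'
      · exact ih (j + 1) h' (by omega)

/-- A probability vector on a finite type. -/
structure FinLaw (S : Type) [Fintype S] where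
  w : S → ℝ
  nonneg : ∀ s, 0 ≤ w s
  sum_one : ∑ s, w s = 1

namespace FinLaw
variable {S : Type} [Fintype S]

theorem ext_w {μ ν : FinLaw S} (h : μ.w = ν.w) : μ = ν := by
  cases μ; cases ν; cases h; rfl

/-- Expectation. -/
def E (μ : FinLaw S) (f : S → ℝ) : ℝ := ∑ s, μ.w s * f s

/-- The product law of a finite family (independent coordinates). -/
noncomputable def pi {L : Type} [Fintype L] [DecidableEq L] {β : L → Type} [∀ l, Fintype (β l)]
    (μ : ∀ l, FinLaw (β l)) : FinLaw (∀ l, β l) where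
  w x := ∏ l, (μ l).w (x l)
  nonneg x := prod_nonneg fun l _ => (μ l).nonneg _
  sum_one := by
    rw [← Fintype.piFinset_univ, ← Finset.prod_univ_sum]
    simp [sum_one]

/-- The product of two laws. -/
noncomputable def prod {T : Type} [Fintype T] (μ : FinLaw S) (ν : FinLaw T) : FinLaw (S × T) where
  w x := μ.w x.1 * ν.w x.2
  nonneg x := mul_nonneg (μ.nonneg _) (ν.nonneg _)
  sum_one := by
    rw [Fintype.sum_prod_type]
    simp [← Finset.mul_sum, sum_one]

/-- The uniform law. -/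
noncomputable def unif (S : Type) [Fintype S] [Nonempty S] : FinLaw S where
  w _ := (Fintype.card S : ℝ)⁻¹
  nonneg _ := by positivity
  sum_one := by
    have : (Fintype.card S : ℝ) ≠ 0 := by exact_mod_cast Fintype.card_ne_zero
    simp [this]

theorem unif_E [Nonempty S] (f : S → ℝ) : (unif S).E f = 𝔼 s, f s := by
  simp only [E, unif, ← Finset.mul_sum, Fintype.expect_eq_sum_div_card]
  rw [div_eq_inv_mul]

theorem E_const (μ : FinLaw S) (c : ℝ) : μ.E (fun _ => c) = c := by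
  simp [E, ← Finset.sum_mul, μ.sum_one]

theorem E_mono (μ : FinLaw S) {f g : S → ℝ} (h : ∀ s, f s ≤ g s) : μ.E f ≤ μ.E g :=
  sum_le_sum fun s _ => mul_le_mul_of_nonneg_left (h s) (μ.nonneg s)

theorem E_add (μ : FinLaw S) (f g : S → ℝ) : μ.E (fun s => f s + g s) = μ.E f + μ.E g := by
  simp [E, mul_add, sum_add_distrib]

theorem E_sub (μ : FinLaw S) (f g : S → ℝ) : μ.E (fun s => f s - g s) = μ.E f - μ.E g := by
  simp [E, mul_sub, sum_sub_distrib]

theorem E_smul (μ : FinLaw S) (c : ℝ) (f : S → ℝ) : μ.E (fun s => c * f s) = c * μ.E f := by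
  simp only [E, Finset.mul_sum]
  exact sum_congr rfl fun s _ => by ring

theorem abs_E_le (μ : FinLaw S) {f : S → ℝ} {a : ℝ} (h : ∀ s, |f s| ≤ a) : |μ.E f| ≤ a := by
  rw [abs_le]
  constructor
  · have := μ.E_mono (f := fun _ => -a) (g := f) fun s => (abs_le.1 (h s)).1
    rwa [E_const] at this
  · have := μ.E_mono (f := f) (g := fun _ => a) fun s => (abs_le.1 (h s)).2
    rwa [E_const] at this

theorem abs_E_le_E_abs (μ : FinLaw S) (f : S → ℝ) : |μ.E f| ≤ μ.E fun s => |f s| := by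
  refine (abs_sum_le_sum_abs _ _).trans (le_of_eq (sum_congr rfl fun s _ => ?_))
  rw [abs_mul, abs_of_nonneg (μ.nonneg s)]

theorem exists_le_E (μ : FinLaw S) (f : S → ℝ) : ∃ s, f s ≤ μ.E f := by
  by_contra h
  push Not at h
  obtain ⟨s, hs⟩ : ∃ s, 0 < μ.w s := by
    by_contra h'
    push Not at h'
    have : ∑ s, μ.w s ≤ 0 := sum_nonpos fun s _ => h' s
    rw [μ.sum_one] at this
    linarith
  have : ∑ s, μ.w s * μ.E f < ∑ s, μ.w s * f s :=
    sum_lt_sum (fun s _ => mul_le_mul_of_nonneg_left (h s).le (μ.nonneg s))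
      ⟨s, mem_univ _, mul_lt_mul_of_pos_left (h s) hs⟩
  rw [← Finset.sum_mul, μ.sum_one, one_mul] at this
  exact lt_irrefl _ this

theorem prod_E {T : Type} [Fintype T] (μ : FinLaw S) (ν : FinLaw T) (f : S × T → ℝ) :
    (μ.prod ν).E f = μ.E fun s => ν.E fun t => f (s, t) := by
  simp only [E, prod, Fintype.sum_prod_type, Finset.mul_sum, mul_assoc]

/-- First draw `s ∼ μ`, then `t ∼ ν s`. -/
noncomputable def cp {T : Type} [Fintype T] (μ : FinLaw S) (ν : S → FinLaw T) :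
    FinLaw (S × T) where
  w x := μ.w x.1 * (ν x.1).w x.2
  nonneg x := mul_nonneg (μ.nonneg _) ((ν _).nonneg _)
  sum_one := by
    rw [Fintype.sum_prod_type]
    simp [← Finset.mul_sum, sum_one]

theorem cp_E {T : Type} [Fintype T] (μ : FinLaw S) (ν : S → FinLaw T) (f : S × T → ℝ) :
    (μ.cp ν).E f = μ.E fun s => (ν s).E fun t => f (s, t) := by
  simp only [E, cp, Fintype.sum_prod_type, Finset.mul_sum, mul_assoc]

open Classical in
/-- Image law. -/
noncomputable def map {T : Type} [Fintype T] (μ : FinLaw S) (φ : S → T) : FinLaw T where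
  w t := ∑ s, if φ s = t then μ.w s else 0
  nonneg t := sum_nonneg fun s _ => by split_ifs; exacts [μ.nonneg s, le_rfl]
  sum_one := by
    rw [Finset.sum_comm]
    simp [sum_one]

theorem map_E {T : Type} [Fintype T] (μ : FinLaw S) (φ : S → T) (f : T → ℝ) :
    (μ.map φ).E f = μ.E fun s => f (φ s) := by
  classical
  simp only [E, map, Finset.sum_mul]
  rw [Finset.sum_comm]
  refine sum_congr rfl fun s _ => ?_
  simp [ite_mul]

open Classical in
/-- Point mass. -/
noncomputable def dirac (a : S) : FinLaw S where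
  w s := if s = a then 1 else 0
  nonneg s := by split_ifs <;> norm_num
  sum_one := by simp

theorem dirac_E (a : S) (f : S → ℝ) : (dirac a).E f = f a := by
  classical
  simp only [E, dirac, ite_mul, one_mul, zero_mul]
  rw [Finset.sum_eq_single a (fun b _ hb => if_neg hb) (fun h => absurd (mem_univ a) h), if_pos rfl]

/-- Mixture `t μ + (1 - t) ν`. -/
noncomputable def mix (t : ℝ) (h0 : 0 ≤ t) (h1 : t ≤ 1) (μ ν : FinLaw S) : FinLaw S where
  w s := t * μ.w s + (1 - t) * ν.w s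
  nonneg s := add_nonneg (mul_nonneg h0 (μ.nonneg s)) (mul_nonneg (sub_nonneg.2 h1) (ν.nonneg s))
  sum_one := by simp [sum_add_distrib, ← Finset.mul_sum, sum_one]

theorem mix_E (t : ℝ) (h0 : 0 ≤ t) (h1 : t ≤ 1) (μ ν : FinLaw S) (f : S → ℝ) :
    (mix t h0 h1 μ ν).E f = t * μ.E f + (1 - t) * ν.E f := by
  simp only [E, mix, add_mul, sum_add_distrib, Finset.mul_sum, mul_assoc]

theorem ext_E {μ ν : FinLaw S} (h : ∀ f, μ.E f = ν.E f) : μ = ν := by
  classical
  refine ext_w (funext fun a => ?_)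
  have := h fun s => if s = a then 1 else 0
  simpa [E] using this

theorem E_nonneg (μ : FinLaw S) {f : S → ℝ} (h : ∀ s, 0 ≤ f s) : 0 ≤ μ.E f :=
  sum_nonneg fun s _ => mul_nonneg (μ.nonneg s) (h s)

theorem E_sum {ι : Type*} (μ : FinLaw S) (t : Finset ι) (f : ι → S → ℝ) :
    μ.E (fun s => ∑ i ∈ t, f i s) = ∑ i ∈ t, μ.E (f i) := by
  simp only [E, Finset.mul_sum]
  exact Finset.sum_comm

theorem E_comm {T : Type} [Fintype T] (μ : FinLaw S) (ν : FinLaw T) (f : S → T → ℝ) :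
    μ.E (fun s => ν.E (f s)) = ν.E fun t => μ.E fun s => f s t := by
  simp only [E, Finset.mul_sum]
  rw [Finset.sum_comm]
  exact sum_congr rfl fun _ _ => sum_congr rfl fun _ _ => by ring

end FinLaw

/-- A family of stochastic kernels, one for each level. -/
structure Kern (Ω : Type) [Fintype Ω] where
  A : ℕ → Ω → Ω → ℝ
  nonneg : ∀ j z ω, 0 ≤ A j z ω
  sum_one : ∀ j z, ∑ ω, A j z ω = 1

namespace Kern
variable {Ω : Type} [Fintype Ω] {r : ℕ} (S : Kern Ω) (e : Expo r)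

/-- The law `A j z ·`. -/
def law (j : ℕ) (z : Ω) : FinLaw Ω := ⟨S.A j z, S.nonneg j z, S.sum_one j z⟩

/-- The level-`j` averaging operator. -/
def ex (j : ℕ) (f : Ω → ℝ) (z : Ω) : ℝ := ∑ ω, S.A j z ω * f ω

theorem ex_eq_E (j : ℕ) (f : Ω → ℝ) (z : Ω) : S.ex j f z = (S.law j z).E f := rfl

theorem ex_const (j : ℕ) (c : ℝ) (z : Ω) : S.ex j (fun _ => c) z = c := (S.law j z).E_const c

theorem ex_mono (j : ℕ) {f g : Ω → ℝ} (h : ∀ ω, f ω ≤ g ω) (z : Ω) : S.ex j f z ≤ S.ex j g z :=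
  (S.law j z).E_mono h

theorem ex_add (j : ℕ) (f g : Ω → ℝ) (z : Ω) :
    S.ex j (fun ω => f ω + g ω) z = S.ex j f z + S.ex j g z := (S.law j z).E_add f g

theorem ex_sub (j : ℕ) (f g : Ω → ℝ) (z : Ω) :
    S.ex j (fun ω => f ω - g ω) z = S.ex j f z - S.ex j g z := (S.law j z).E_sub f g

theorem ex_smul (j : ℕ) (c : ℝ) (f : Ω → ℝ) (z : Ω) :
    S.ex j (fun ω => c * f ω) z = c * S.ex j f z := (S.law j z).E_smul c f

theorem ex_sum {ι : Type*} (s : Finset ι) (j : ℕ) (f : ι → Ω → ℝ) (z : Ω) :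
    S.ex j (fun ω => ∑ i ∈ s, f i ω) z = ∑ i ∈ s, S.ex j (f i) z := by
  simp only [ex, Finset.mul_sum]
  exact Finset.sum_comm

theorem abs_ex_le (j : ℕ) {f : Ω → ℝ} {a : ℝ} (h : ∀ ω, |f ω| ≤ a) (z : Ω) : |S.ex j f z| ≤ a :=
  (S.law j z).abs_E_le h

theorem abs_ex_le_ex_abs (j : ℕ) (f : Ω → ℝ) (z : Ω) :
    |S.ex j f z| ≤ S.ex j (fun ω => |f ω|) z := (S.law j z).abs_E_le_E_abs f

theorem ex_nonneg (j : ℕ) {f : Ω → ℝ} (h : ∀ ω, 0 ≤ f ω) (z : Ω) : 0 ≤ S.ex j f z :=
  sum_nonneg fun ω _ => mul_nonneg (S.nonneg j z ω) (h ω)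

theorem ex_congr (j : ℕ) {f g : Ω → ℝ} {z : Ω} (h : ∀ ω, S.A j z ω ≠ 0 → f ω = g ω) :
    S.ex j f z = S.ex j g z := by
  refine sum_congr rfl fun ω _ => ?_
  by_cases h0 : S.A j z ω = 0
  · simp [h0]
  · rw [h ω h0]

theorem ex_exp_pos (j : ℕ) (f : Ω → ℝ) (z : Ω) : 0 < S.ex j (fun ω => Real.exp (f ω)) z := by
  obtain ⟨ω, hω⟩ := (S.law j z).exists_le_E fun ω => Real.exp (f ω)
  exact (Real.exp_pos _).trans_le hω

/-- Jensen's inequality for `exp`. -/
theorem exp_ex_le (j : ℕ) (f : Ω → ℝ) (z : Ω) :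
    Real.exp (S.ex j f z) ≤ S.ex j (fun ω => Real.exp (f ω)) z := by
  have := convexOn_exp.map_sum_le (t := univ) (w := S.A j z) (p := f)
    (fun ω _ => S.nonneg j z ω) (S.sum_one j z) (fun _ _ => Set.mem_univ _)
  simpa [ex, smul_eq_mul] using this

/-- Auxiliary recursion on the depth `d = r + 1 - j`. -/
noncomputable def lpAux (v : Ω → ℝ) : ℕ → Ω → ℝ
  | 0 => v
  | d + 1 => fun z => (e.m (r - d + 1))⁻¹ *
      Real.log (S.ex (r - d) (fun ω => Real.exp (e.m (r - d + 1) * lpAux v d ω)) z)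

/-- `lp v j z`: logarithm of the nested power mean of `exp v` from level `j` on. -/
noncomputable def lp (v : Ω → ℝ) (j : ℕ) : Ω → ℝ := S.lpAux e v (r + 1 - j)

theorem lp_top (v : Ω → ℝ) {j : ℕ} (hj : r + 1 ≤ j) : S.lp e v j = v := by
  unfold lp
  rw [Nat.sub_eq_zero_of_le hj]; rfl

theorem lp_succ (v : Ω → ℝ) {j : ℕ} (hj : j ≤ r) (z : Ω) :
    S.lp e v j z = (e.m (j + 1))⁻¹ *
      Real.log (S.ex j (fun ω => Real.exp (e.m (j + 1) * S.lp e v (j + 1) ω)) z) := by
  unfold lp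
  have h1 : r + 1 - j = (r - j) + 1 := by omega
  have h2 : r + 1 - (j + 1) = r - j := by omega
  have h3 : r - (r - j) = j := by omega
  rw [h1, h2, lpAux, h3]

theorem exp_mul_lp (v : Ω → ℝ) {j : ℕ} (hj : j ≤ r) (z : Ω) :
    Real.exp (e.m (j + 1) * S.lp e v j z) =
      S.ex j (fun ω => Real.exp (e.m (j + 1) * S.lp e v (j + 1) ω)) z := by
  rw [S.lp_succ e v hj, ← mul_assoc, mul_inv_cancel₀ (e.pos hj).ne', one_mul,
    Real.exp_log (S.ex_exp_pos _ _ _)]

theorem lp_mono {v v' : Ω → ℝ} (h : ∀ ω, v ω ≤ v' ω) (j : ℕ) (z : Ω) :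
    S.lp e v j z ≤ S.lp e v' j z := by
  induction j using down_ind (r := r) generalizing z with
  | top j hj => rw [S.lp_top e v hj, S.lp_top e v' hj]; exact h z
  | step j hj ih =>
    rw [S.lp_succ e v hj, S.lp_succ e v' hj]
    have hm := e.pos hj
    refine mul_le_mul_of_nonneg_left ?_ (inv_nonneg.2 hm.le)
    refine Real.log_le_log (S.ex_exp_pos _ _ _) (S.ex_mono _ (fun ω => ?_) z)
    exact Real.exp_le_exp.2 (mul_le_mul_of_nonneg_left (ih ω) hm.le)

theorem lp_add_const (v : Ω → ℝ) (c : ℝ) (j : ℕ) (z : Ω) :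
    S.lp e (fun ω => v ω + c) j z = S.lp e v j z + c := by
  induction j using down_ind (r := r) generalizing z with
  | top j hj => rw [S.lp_top e _ hj, S.lp_top e v hj]
  | step j hj ih =>
    rw [S.lp_succ e v hj, S.lp_succ e _ hj]
    have hm := e.pos hj
    have : (fun ω => Real.exp (e.m (j + 1) * S.lp e (fun ω => v ω + c) (j + 1) ω)) =
        fun ω => Real.exp (e.m (j + 1) * c) * Real.exp (e.m (j + 1) * S.lp e v (j + 1) ω) := by
      funext ω
      rw [ih, ← Real.exp_add]; congr 1; ring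
    rw [this, S.ex_smul, Real.log_mul (Real.exp_pos _).ne' (S.ex_exp_pos _ _ _).ne',
      Real.log_exp]
    field_simp
    ring

theorem lp_const (c : ℝ) (j : ℕ) (z : Ω) : S.lp e (fun _ => c) j z = c := by
  induction j using down_ind (r := r) generalizing z with
  | top j hj => rw [S.lp_top e _ hj]
  | step j hj ih =>
    rw [S.lp_succ e _ hj]
    have hm := e.pos hj
    simp only [ih, S.ex_const, Real.log_exp]
    field_simp

theorem abs_lp_sub_le {v v' : Ω → ℝ} {a : ℝ} (h : ∀ ω, |v ω - v' ω| ≤ a) (j : ℕ) (z : Ω) :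
    |S.lp e v j z - S.lp e v' j z| ≤ a := by
  rw [abs_le]
  constructor
  · have := S.lp_mono e (v := fun ω => v' ω + -a) (v' := v)
      (fun ω => by have := (abs_le.1 (h ω)).1; linarith) j z
    rw [S.lp_add_const] at this; linarith
  · have := S.lp_mono e (v := v) (v' := fun ω => v' ω + a)
      (fun ω => by have := (abs_le.1 (h ω)).2; linarith) j z
    rw [S.lp_add_const] at this; linarith

theorem abs_lp_le {v : Ω → ℝ} {a : ℝ} (h : ∀ ω, |v ω| ≤ a) (j : ℕ) (z : Ω) :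
    |S.lp e v j z| ≤ a := by
  have := S.abs_lp_sub_le e (v := v) (v' := fun _ => 0) (a := a) (by simpa using h) j z
  rwa [S.lp_const, sub_zero] at this

/-- One-step Jensen: the mean of `lp (j+1)` is at most `lp j`. -/
theorem ex_lp_succ_le (v : Ω → ℝ) {j : ℕ} (hj : j ≤ r) (z : Ω) :
    S.ex j (S.lp e v (j + 1)) z ≤ S.lp e v j z := by
  have hm := e.pos hj
  have h1 := S.exp_ex_le j (fun ω => e.m (j + 1) * S.lp e v (j + 1) ω) z
  rw [← S.exp_mul_lp e v hj, S.ex_smul, Real.exp_le_exp] at h1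
  exact le_of_mul_le_mul_left h1 hm

/-- One step is dominated by the arithmetic mean. -/
theorem exp_lp_le (v : Ω → ℝ) {j : ℕ} (hj : j ≤ r) (z : Ω) :
    Real.exp (S.lp e v j z) ≤ S.ex j (fun ω => Real.exp (S.lp e v (j + 1) ω)) z := by
  have hm := e.pos hj
  have hm1 := e.le_one (show j + 1 ≤ r + 1 by omega)
  set m := e.m (j + 1)
  have hconc : ConcaveOn ℝ (Set.Ici 0) fun x : ℝ => x ^ m := Real.concaveOn_rpow hm.le hm1
  have h := hconc.le_map_sum (t := univ) (w := S.A j z)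
    (p := fun ω => Real.exp (S.lp e v (j + 1) ω)) (fun ω _ => S.nonneg j z ω) (S.sum_one j z)
    (fun ω _ => (Real.exp_pos _).le)
  simp only [smul_eq_mul] at h
  have h2 : Real.exp (S.lp e v j z) ^ m ≤
      (S.ex j (fun ω => Real.exp (S.lp e v (j + 1) ω)) z) ^ m := by
    rw [← Real.exp_mul, mul_comm, S.exp_mul_lp e v hj]
    refine le_trans (le_of_eq ?_) h
    refine sum_congr rfl fun ω _ => ?_
    rw [← Real.exp_mul, mul_comm _ m]
  exact (Real.rpow_le_rpow_iff (Real.exp_pos _).le (S.ex_exp_pos _ _ _).le hm).1 h2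

/-- `φ : Ω → Ω'` intertwines the averaging operators of the levels `≤ r`. -/
def Hom {Ω' : Type} [Fintype Ω'] (r : ℕ) (S : Kern Ω) (S' : Kern Ω') (φ : Ω → Ω') : Prop :=
  ∀ j, j ≤ r → ∀ (f : Ω' → ℝ) (z : Ω), S.ex j (fun ω => f (φ ω)) z = S'.ex j f (φ z)

theorem Hom.lp {Ω' : Type} [Fintype Ω'] {S : Kern Ω} {S' : Kern Ω'} {φ : Ω → Ω'}
    (h : Hom r S S' φ) (e : Expo r) (v : Ω' → ℝ) (j : ℕ) (z : Ω) :
    S.lp e (fun ω => v (φ ω)) j z = S'.lp e v j (φ z) := by
  induction j using down_ind (r := r) generalizing z with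
  | top j hj => rw [S.lp_top e _ hj, S'.lp_top e _ hj]
  | step j hj ih =>
    rw [S.lp_succ e _ hj, S'.lp_succ e _ hj]
    simp only [ih]
    rw [h j hj (fun ω => Real.exp (e.m (j + 1) * S'.lp e v (j + 1) ω))]

theorem Hom.comp {Ω' Ω'' : Type} [Fintype Ω'] [Fintype Ω''] {S : Kern Ω} {S' : Kern Ω'}
    {S'' : Kern Ω''} {φ : Ω → Ω'} {ψ : Ω' → Ω''} (h : Hom r S S' φ) (h' : Hom r S' S'' ψ) :
    Hom r S S'' fun ω => ψ (φ ω) := fun j hj f z => by
  rw [h j hj (fun ω => f (ψ ω)), h' j hj]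

/-- Product of two kernel families. -/
noncomputable def prod {Ω' : Type} [Fintype Ω'] (S : Kern Ω) (S' : Kern Ω') : Kern (Ω × Ω') where
  A j z ω := S.A j z.1 ω.1 * S'.A j z.2 ω.2
  nonneg _ _ _ := mul_nonneg (S.nonneg _ _ _) (S'.nonneg _ _ _)
  sum_one j z := ((S.law j z.1).prod (S'.law j z.2)).sum_one

theorem prod_ex {Ω' : Type} [Fintype Ω'] (S : Kern Ω) (S' : Kern Ω') (j : ℕ) (f : Ω × Ω' → ℝ)
    (z : Ω × Ω') : (S.prod S').ex j f z =
      S.ex j (fun ω => S'.ex j (fun ω' => f (ω, ω')) z.2) z.1 :=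
  (S.law j z.1).prod_E (S'.law j z.2) f

theorem lp_prod {Ω' : Type} [Fintype Ω'] (S : Kern Ω) (S' : Kern Ω') (v : Ω → ℝ) (v' : Ω' → ℝ)
    (j : ℕ) (z : Ω × Ω') : (S.prod S').lp e (fun ω => v ω.1 + v' ω.2) j z =
      S.lp e v j z.1 + S'.lp e v' j z.2 := by
  induction j using down_ind (r := r) generalizing z with
  | top j hj => rw [lp_top _ e _ hj, S.lp_top e _ hj, S'.lp_top e _ hj]
  | step j hj ih =>
    rw [lp_succ _ e _ hj, S.lp_succ e _ hj, S'.lp_succ e _ hj, prod_ex]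
    simp only [ih, mul_add, Real.exp_add]
    simp only [ex_smul]
    have : ∀ (g : Ω → ℝ) (c : ℝ), S.ex j (fun ω => g ω * c) z.1 = S.ex j g z.1 * c := by
      intro g c
      rw [mul_comm, ← S.ex_smul]; congr 1; funext ω; ring
    rw [this, Real.log_mul (S.ex_exp_pos _ _ _).ne' (S'.ex_exp_pos _ _ _).ne', mul_add]

theorem hom_fst {Ω' : Type} [Fintype Ω'] (S : Kern Ω) (S' : Kern Ω') :
    Hom r (S.prod S') S Prod.fst := fun j _ f z => by
  rw [prod_ex]; simp only [ex_const]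

theorem hom_snd {Ω' : Type} [Fintype Ω'] (S : Kern Ω) (S' : Kern Ω') :
    Hom r (S.prod S') S' Prod.snd := fun j _ f z => by
  rw [prod_ex]; simp only [ex_const]

/-- Product of a finite family of kernel families on a common space. -/
noncomputable def pi {L : Type} [Fintype L] [DecidableEq L] (T : L → Kern Ω) : Kern (L → Ω) where
  A j z ω := ∏ l, (T l).A j (z l) (ω l)
  nonneg _ _ _ := prod_nonneg fun l _ => (T l).nonneg _ _ _
  sum_one j z := (FinLaw.pi fun l => (T l).law j (z l)).sum_one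

end Kern

end Crest.Agent.R141
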