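import Crest.Agent.R141.MPow

/-!
# Row 141: approximating magnetisation functions

Recipes. `approx_tanh`: `X = artanh ((1-η) T)`, e.g. `X u = (1/2) log ((1+t)/(1-t))`. `approx_grid`: a bounded continuous `g` with
`∫ |T - g| ≤ η/2` (`Integrable.exists_boundedContinuous_integral_sub_le`), clipped to `[-1,1]`, uniformly continuous on the
compact cube; `q g' = g (corner of the cell)`. `PT_cont`: `poi_tail`, `abs_valT_le`, `abs_siteW_le`, `valT_cont` for the
finitely many label types `Fin k × Fin (p-1)`, `k ≤ k₀`, and `Fin p`.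
-/

set_option autoImplicit false

namespace Crest.Agent.R141

open Finset MeasureTheory Crest.ProbabilityR.Diluted
open scoped BigOperators

instance mapx_cubeVol_prob (r : ℕ) : IsProbabilityMeasure (cubeVol r) := by
  unfold cubeVol; infer_instance

theorem mapx_integral_le {r : ℕ} {f : Cube r → ℝ} {η : ℝ} (h : ∀ u, |f u| ≤ η) :
    ∫ u, |f u| ∂(cubeVol r) ≤ η := by
  have := integral_mono_of_nonneg (μ := cubeVol r) (f := fun u => |f u|) (g := fun _ => η)
    (Filter.Eventually.of_forall fun u => abs_nonneg _) (integrable_const η)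
    (Filter.Eventually.of_forall h)
  simpa using this

theorem approx_tanh {r : ℕ} {T : Cube r → ℝ} (hT : Measurable T) (hT1 : ∀ u, |T u| ≤ 1) {η : ℝ}
    (hη : 0 < η) : ∃ X : Cube r → ℝ, Measurable X ∧
      ∫ u, |T u - Real.tanh (X u)| ∂(cubeVol r) ≤ η := by
  set δ := min η (1 / 2) with hδ
  have hδ0 : 0 < δ := lt_min hη (by norm_num)
  have hδ1 : δ ≤ 1 / 2 := min_le_right _ _
  have hδη : δ ≤ η := min_le_left _ _
  refine ⟨fun u => Real.artanh ((1 - δ) * T u), ?_, ?_⟩
  · unfold Real.artanh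
    fun_prop
  · refine mapx_integral_le fun u => ?_
    have h1 := abs_le.1 (hT1 u)
    rw [Real.tanh_artanh ⟨by nlinarith, by nlinarith⟩]
    have : T u - (1 - δ) * T u = δ * T u := by ring
    rw [this, abs_mul, abs_of_pos hδ0]
    nlinarith [hT1 u, abs_nonneg (T u)]

/-- The lower corner of a cell. -/
noncomputable def mapxCorner (n : ℕ) (i : Fin (n + 1)) : unitInterval :=
  ⟨(i : ℝ) / (n + 1), by positivity, by
    have h : (i : ℝ) ≤ n + 1 := by
      have := i.is_le
      have : ((i : ℕ) : ℝ) ≤ n := by exact_mod_cast this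
      linarith
    exact div_le_one_of_le₀ h (by positivity)⟩

theorem mapx_dist_corner (n : ℕ) (u : unitInterval) :
    dist u (mapxCorner n (cell n u)) ≤ 1 / (n + 1) := by
  have hn : (0 : ℝ) < n + 1 := by positivity
  have hu0 : (0 : ℝ) ≤ u := u.2.1
  have hu1 : (u : ℝ) ≤ 1 := u.2.2
  rw [Subtype.dist_eq, Real.dist_eq]
  show |(u : ℝ) - ((min ⌊(n + 1 : ℝ) * (u : ℝ)⌋₊ n : ℕ) : ℝ) / (n + 1)| ≤ 1 / (n + 1)
  set x : ℝ := (n + 1 : ℝ) * (u : ℝ) with hx
  have hx0 : 0 ≤ x := by positivity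
  have hx1 : x ≤ n + 1 := by rw [hx]; nlinarith
  have h1 : ((min ⌊x⌋₊ n : ℕ) : ℝ) ≤ x :=
    le_trans (by exact_mod_cast min_le_left _ _) (Nat.floor_le hx0)
  have h2 : x ≤ ((min ⌊x⌋₊ n : ℕ) : ℝ) + 1 := by
    rcases le_total ⌊x⌋₊ n with h | h
    · rw [min_eq_left h]; exact (Nat.lt_floor_add_one x).le
    · rw [min_eq_right h]; exact hx1
  have h3 : (u : ℝ) - ((min ⌊x⌋₊ n : ℕ) : ℝ) / (n + 1) =
      (x - ((min ⌊x⌋₊ n : ℕ) : ℝ)) / (n + 1) := by
    rw [hx]; field_simp
  rw [h3, abs_div, abs_of_pos hn, abs_of_nonneg (by linarith)]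
  gcongr
  linarith

theorem mapx_measurable_cell (n : ℕ) : Measurable (cell n) := by
  have h1 : Measurable fun u : unitInterval => ⌊(n + 1 : ℝ) * (u : ℝ)⌋₊ :=
    Nat.measurable_floor.comp (measurable_const.mul measurable_subtype_coe)
  have h2 : Measurable fun k : ℕ =>
      (⟨min k n, Nat.lt_succ_of_le (min_le_right _ _)⟩ : Fin (n + 1)) := measurable_from_nat
  exact h2.comp h1

theorem approx_grid {r : ℕ} {T : Cube r → ℝ} (hT : Measurable T) (hT1 : ∀ u, |T u| ≤ 1) {η : ℝ}
    (hη : 0 < η) : ∃ (n : ℕ) (q : (Fin (r + 1) → Fin (n + 1)) → ℝ), (∀ g, |q g| ≤ 1) ∧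
      Measurable (fun u : Cube r => q fun j => cell n (u j)) ∧
      ∫ u, |T u - q fun j => cell n (u j)| ∂(cubeVol r) ≤ η := by
  have hTi : Integrable T (cubeVol r) :=
    Integrable.of_bound hT.aestronglyMeasurable 1 (Filter.Eventually.of_forall hT1)
  obtain ⟨g, hg, hgi⟩ := hTi.exists_boundedContinuous_integral_sub_le (half_pos hη)
  have huc : UniformContinuous g := CompactSpace.uniformContinuous_of_continuous g.continuous
  obtain ⟨δ, hδ, hδ'⟩ := Metric.uniformContinuous_iff.1 huc (η / 2) (half_pos hη)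
  obtain ⟨n, hn⟩ := exists_nat_one_div_lt hδ
  have hmeas : ∀ q : (Fin (r + 1) → Fin (n + 1)) → ℝ,
      Measurable (fun u : Cube r => q fun j => cell n (u j)) := fun q =>
    (measurable_of_finite q).comp
      (measurable_pi_lambda _ fun j => (mapx_measurable_cell n).comp (measurable_pi_apply j))
  refine ⟨n, fun i => max (-1) (min 1 (g fun j => mapxCorner n (i j))), fun i => ?_,
    hmeas fun i => max (-1) (min 1 (g fun j => mapxCorner n (i j))), ?_⟩
  · rw [abs_le]
    exact ⟨le_max_left _ _, max_le (by norm_num) (min_le_left _ _)⟩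
  · have hpt : ∀ u : Cube r, |T u - max (-1) (min 1 (g fun j => mapxCorner n (cell n (u j))))| ≤
        ‖T u - g u‖ + η / 2 := by
      intro u
      have hd : dist u (fun j => mapxCorner n (cell n (u j))) < δ :=
        lt_of_le_of_lt ((dist_pi_le_iff (by positivity)).2 fun j => mapx_dist_corner n (u j)) hn
      have h1 := hδ' hd
      rw [Real.dist_eq] at h1
      rw [Real.norm_eq_abs]
      have h2 := abs_le.1 (hT1 u)
      set y := g fun j => mapxCorner n (cell n (u j))
      have h3 : |T u - max (-1) (min 1 y)| ≤ |T u - y| := by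
        rcases le_total 1 y with h | h
        · rw [min_eq_left h, max_eq_right (by norm_num), abs_of_nonpos (by linarith),
            abs_of_nonpos (by linarith)]
          linarith
        · rw [min_eq_right h]
          rcases le_total (-1) y with h' | h'
          · rw [max_eq_right h']
          · rw [max_eq_left h', abs_of_nonneg (by linarith), abs_of_nonneg (by linarith)]
            linarith
      have h4 : |T u - y| ≤ |T u - g u| + |g u - y| := abs_sub_le _ _ _
      linarith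
    have hI0 : Integrable (fun u => ‖T u - g u‖) (cubeVol r) := (hTi.sub hgi).norm
    have hI : Integrable (fun u => ‖T u - g u‖ + η / 2) (cubeVol r) :=
      hI0.add (integrable_const _)
    have := integral_mono_of_nonneg (μ := cubeVol r)
      (f := fun u => |T u - max (-1) (min 1 (g fun j => mapxCorner n (cell n (u j))))|)
      (g := fun u => ‖T u - g u‖ + η / 2)
      (Filter.Eventually.of_forall fun u => abs_nonneg _) hI (Filter.Eventually.of_forall hpt)
    rw [integral_add hI0 (integrable_const _)] at this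
    simp only [integral_const, probReal_univ, smul_eq_mul, one_mul] at this
    simp only
    linarith

theorem mapx_abs_E_sub_le {S : Type} [Fintype S] (μ : FinLaw S) {f g : S → ℝ} {a : ℝ}
    (h : ∀ s, |f s - g s| ≤ a) : |μ.E f - μ.E g| ≤ a := by
  rw [← μ.E_sub]
  exact μ.abs_E_le h

theorem PT_cont {p : ℕ} {D H : Type} [Fintype D] [Fintype H] (X : Dis p D H) {α : ℝ} (hα : 0 ≤ α)
    {r : ℕ} {m : Fin r → ℝ} (hm : AdmissibleExponents m) {ε : ℝ} (hε : 0 < ε) :
    ∃ η : ℝ, 0 < η ∧ ∀ (T T' : Cube r → ℝ), Measurable T → Measurable T' → (∀ u, |T u| ≤ 1) →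
      (∀ u, |T' u| ≤ 1) → ∫ u, |T u - T' u| ∂(cubeVol r) ≤ η →
        |X.PT α m T - X.PT α m T'| ≤ ε := by
  set C : ℝ := ‖X.θ‖ + ‖X.h‖ with hC
  have hCθ : ∀ d, ‖X.θ d‖ ≤ C := fun d =>
    (norm_le_pi_norm X.θ d).trans (le_add_of_nonneg_right (norm_nonneg _))
  have hCh : ∀ x, |X.h x| ≤ C := fun x =>
    (norm_le_pi_norm X.h x).trans (le_add_of_nonneg_left (norm_nonneg _))
  have hsite : ∀ (k : ℕ) (ds : Fin k → D) (x : H) (s : Fin k × Fin (p - 1) → Bool),
      |siteW (X.h x) (fun j => X.θ (ds j)) s| ≤ C * (k + 1) := by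
    intro k ds x s
    refine (abs_siteW_le _ _ s).trans ?_
    have : ∑ j : Fin k, ‖X.θ (ds j)‖ ≤ ∑ _j : Fin k, C := sum_le_sum fun j _ => hCθ _
    simp only [sum_const, card_univ, Fintype.card_fin, nsmul_eq_mul] at this
    have := hCh x
    linarith
  have hlam : 0 ≤ α * p := by positivity
  obtain ⟨k₀, hk₀⟩ := poi_tail hlam C (show 0 < ε / 4 by positivity)
  choose A hA0 hA using fun k : ℕ => valT_cont hm (Fin k × Fin (p - 1)) (C * (k + 1))
  obtain ⟨Ae, hAe0, hAe⟩ := valT_cont hm (Fin p) C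
  set B : ℝ := ∑ k ∈ range (k₀ + 1), poissonWeight (α * p) k * A k + |α * (p - 1 : ℝ)| * Ae
    with hB
  have hB0 : 0 ≤ B := add_nonneg (sum_nonneg fun k _ => mul_nonneg (poi_nonneg hlam k) (hA0 k))
    (mul_nonneg (abs_nonneg _) hAe0)
  refine ⟨ε / (2 * (B + 1)), by positivity, fun T T' hT hT' hT1 hT1' hI => ?_⟩
  set I := ∫ u, |T u - T' u| ∂(cubeVol r) with hIdef
  have hI0 : 0 ≤ I := integral_nonneg fun u => abs_nonneg _
  let a : (Cube r → ℝ) → ℕ → ℝ := fun T k =>
    (FinLaw.pi fun _ : Fin k => X.πd).E fun ds => X.πh.E fun x =>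
      valT m T (siteW (X.h x) fun j => X.θ (ds j))
  let b : (Cube r → ℝ) → ℝ := fun T => X.πd.E fun d => valT m T (X.θ d)
  have ha : ∀ T : Cube r → ℝ, Measurable T → (∀ u, |T u| ≤ 1) → ∀ k, |a T k| ≤ C * (k + 1) :=
    fun T hT hT1 k => FinLaw.abs_E_le _ fun ds => FinLaw.abs_E_le _ fun x =>
      abs_valT_le hm hT hT1 (hsite k ds x)
  have hab : ∀ k, |a T k - a T' k| ≤ A k * I := fun k =>
    mapx_abs_E_sub_le _ fun ds => mapx_abs_E_sub_le _ fun x =>
      hA k T T' hT hT' hT1 hT1' _ (hsite k ds x)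
  have hb : |b T - b T'| ≤ Ae * I := mapx_abs_E_sub_le _ fun d =>
    hAe T T' hT hT' hT1 hT1' _ fun s => (norm_le_pi_norm (X.θ d) s).trans (hCθ d)
  have h1 := hk₀ k₀ le_rfl (a T) (ha T hT hT1)
  have h2 := hk₀ k₀ le_rfl (a T') (ha T' hT' hT1')
  have h3 : |∑ k ∈ range (k₀ + 1), poissonWeight (α * p) k * a T k -
      ∑ k ∈ range (k₀ + 1), poissonWeight (α * p) k * a T' k| ≤
      (∑ k ∈ range (k₀ + 1), poissonWeight (α * p) k * A k) * I := by
    rw [← sum_sub_distrib, sum_mul]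
    refine (abs_sum_le_sum_abs _ _).trans (sum_le_sum fun k _ => ?_)
    rw [← mul_sub, abs_mul, abs_of_nonneg (poi_nonneg hlam k), mul_assoc]
    exact mul_le_mul_of_nonneg_left (hab k) (poi_nonneg hlam k)
  have h4 : |α * (p - 1 : ℝ) * b T - α * (p - 1 : ℝ) * b T'| ≤ |α * (p - 1 : ℝ)| * Ae * I := by
    rw [← mul_sub, abs_mul, mul_assoc]
    exact mul_le_mul_of_nonneg_left hb (abs_nonneg _)
  have h5 : B * I ≤ ε / 2 := by
    have : B * I ≤ (B + 1) * (ε / (2 * (B + 1))) :=
      mul_le_mul (by linarith) hI hI0 (by linarith)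
    refine this.trans (le_of_eq ?_)
    field_simp
  have hPT : ∀ T : Cube r → ℝ, X.PT α m T =
      Real.log 2 + (∑' k, poissonWeight (α * p) k * a T k) - α * (p - 1 : ℝ) * b T := fun T => rfl
  rw [hPT, hPT]
  rw [hB, add_mul] at h5
  rw [abs_le] at h1 h2 h3 h4 ⊢
  constructor <;> linarith [h1.1, h1.2, h2.1, h2.2, h3.1, h3.2, h4.1, h4.2]

end Crest.Agent.R141
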