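import Crest.Agent.R141.MPow

/-!
# Row 141: finite trials versus functions of uniform variables

Recipe for `conv_gen`. Let `path j u : Ω` be defined by `path 0 u = F₀ (u 0)`, `path (j+1) u = F j (path j u) (u (j+1))`
(`j < r`; it only depends on `u 0, …, u j`). `spinMean w (T ∘ u') = exp ((pi S).lp e (w ∘ s) r (path r ∘ u'))`
(`lp_succ` at `j = r`, `e.top`, product law of the spins). Downward induction on `j ≤ r`:
`foldr … W ((List.finRange r).drop j) u' = exp ((pi S).lp e (w ∘ s) j (path j ∘ u'))`; one `pmStep` is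
`∫ f (fun l => F j (z l) (v l)) dv = (pi B).ex j f z` (integral of a function of finitely-valued independent variables:
`integral_pi_finLaw`), and `(pi B).ex j f = (pi S).ex j f` for `f` invariant at level `j+1` (write
`f = (pi S).ex (j+1) f` and use `hB` coordinatewise). `exists_hasFinLaw`: inverse distribution function
(enumerate `S` by `Fintype.equivFin`, partial sums). `conv_b`: `Ω = (Fin (r+1) → Fin (n+1)) × Bool`,
`S = (FKS.pi fun j => FKS.lvl _ r j).mark (law with mean q)`, `F₀ v = (fun _ => cell n v, false)`,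
`F j z v = (update z.1 (j+1) (cell n v), false)`.
-/

set_option autoImplicit false

namespace Crest.Agent.R141

open Finset MeasureTheory Crest.ProbabilityR.Diluted
open scoped BigOperators

section Basic
variable {Ω S : Type} [MeasurableSpace Ω] [Fintype S] {P : Measure Ω} {δ : Ω → S} {μ : FinLaw S}

theorem HasFinLaw.integral [IsFiniteMeasure P] (h : HasFinLaw P δ μ) (f : S → ℝ) :
    ∫ ω, f (δ ω) ∂P = μ.E f := by
  classical
  have h1 : (fun ω => f (δ ω)) = fun ω => ∑ s, (δ ⁻¹' {s}).indicator (fun _ => f s) ω := by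
    funext ω
    simp [Set.indicator_apply]
  rw [h1, integral_finsetSum _ fun s _ => (integrable_const _).indicator (h s).1]
  refine sum_congr rfl fun s _ => ?_
  rw [integral_indicator_const _ (h s).1, (h s).2, smul_eq_mul]

theorem HasFinLaw.measurableSet_preimage (h : HasFinLaw P δ μ) (A : Set S) :
    MeasurableSet (δ ⁻¹' A) := by
  rw [← Set.biUnion_preimage_singleton]
  exact (Set.toFinite A).measurableSet_biUnion fun s _ => (h s).1

theorem HasFinLaw.map [IsFiniteMeasure P] (h : HasFinLaw P δ μ) {T : Type} [Fintype T]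
    (φ : S → T) : HasFinLaw P (fun ω => φ (δ ω)) (μ.map φ) := by
  classical
  intro t
  have hm : MeasurableSet ((fun ω => φ (δ ω)) ⁻¹' {t}) := h.measurableSet_preimage (φ ⁻¹' {t})
  refine ⟨hm, ?_⟩
  have h1 := h.integral fun s => if φ s = t then 1 else 0
  have h2 := μ.map_E φ fun a => if a = t then 1 else 0
  rw [← integral_indicator_one hm]
  refine Eq.trans ?_ (h1.trans (h2.symm.trans ?_))
  · congr 1
  · simp [FinLaw.E]

theorem HasFinLaw.comp_mp {Ω' : Type} [MeasurableSpace Ω'] {Q : Measure Ω'} {φ : Ω' → Ω}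
    (h : HasFinLaw P δ μ) (hφ : MeasurePreserving φ Q P) : HasFinLaw Q (fun ω => δ (φ ω)) μ :=
  fun s => ⟨hφ.measurable (h s).1, by
    rw [← (h s).2]
    exact hφ.measureReal_preimage (h s).1.nullMeasurableSet⟩

theorem HasFinLaw.pi {L : Type} [Fintype L] [DecidableEq L] [IsProbabilityMeasure P]
    {δ : L → Ω → S} {μ : L → FinLaw S} (h : ∀ l, HasFinLaw P (δ l) (μ l)) :
    HasFinLaw (Measure.pi fun _ : L => P) (fun v l => δ l (v l)) (FinLaw.pi μ) := by
  intro s
  have h1 : (fun (v : L → Ω) l => δ l (v l)) ⁻¹' {s} = Set.pi Set.univ fun l => δ l ⁻¹' {s l} := by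
    ext v
    simp [funext_iff]
  rw [h1]
  refine ⟨MeasurableSet.univ_pi fun l => (h l _).1, ?_⟩
  rw [Measure.real, Measure.pi_pi, ENNReal.toReal_prod]
  exact prod_congr rfl fun l _ => (h l _).2

end Basic

theorem exists_hasFinLaw {S : Type} [Fintype S] (μ : FinLaw S) :
    ∃ F : unitInterval → S, HasFinLaw volume F μ := by
  classical
  let _ : MeasurableSpace S := ⊤
  have : Nonempty S := ⟨(μ.exists_le_E fun _ => 0).choose⟩
  let p : PMF S := PMF.ofFintype (fun s => ENNReal.ofReal (μ.w s)) (by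
    rw [← ENNReal.ofReal_sum_of_nonneg fun s _ => μ.nonneg s, μ.sum_one, ENNReal.ofReal_one])
  obtain ⟨F, hF, hmap⟩ := Measure.exists_measurable_map_eq p.toMeasure
  refine ⟨F, fun s => ⟨hF (MeasurableSet.singleton s), ?_⟩⟩
  rw [Measure.real, ← Measure.map_apply hF (MeasurableSet.singleton s), hmap,
    PMF.toMeasure_apply_singleton _ _ (MeasurableSet.singleton s)]
  exact ENNReal.toReal_ofReal (μ.nonneg s)

theorem hasFinLaw_cell (n : ℕ) : HasFinLaw volume (cell n) (FinLaw.unif (Fin (n + 1))) := by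
  intro k
  have hn : (0 : ℝ) < n + 1 := by positivity
  have hk : ((k : ℕ) : ℝ) + 1 ≤ n + 1 := by exact_mod_cast k.2
  have hk0 : (0 : ℝ) ≤ (k : ℕ) := Nat.cast_nonneg _
  have hpre : cell n ⁻¹' {k} =
      (fun u : unitInterval => min ⌊(n + 1 : ℝ) * (u : ℝ)⌋₊ n) ⁻¹' {(k : ℕ)} := by
    ext u
    simp [cell, Fin.ext_iff]
  rw [hpre]
  refine ⟨(((measurable_subtype_coe.const_mul _).nat_floor).min measurable_const)
    (MeasurableSet.singleton _), ?_⟩
  let a : unitInterval := ⟨(k : ℕ) / (n + 1), by positivity, (div_le_one hn).2 (by linarith)⟩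
  let b : unitInterval := ⟨((k : ℕ) + 1) / (n + 1), by positivity, (div_le_one hn).2 hk⟩
  have hab : (b : ℝ) - a = (n + 1 : ℝ)⁻¹ := by
    simp only [a, b]
    field_simp
    ring
  have h1 : Set.Ico a b ⊆
      (fun u : unitInterval => min ⌊(n + 1 : ℝ) * (u : ℝ)⌋₊ n) ⁻¹' {(k : ℕ)} := by
    rintro u ⟨hu, hu'⟩
    have hu1 : ((k : ℕ) : ℝ) ≤ (n + 1) * u := by
      have : (a : ℝ) ≤ u := hu
      rwa [div_le_iff₀ hn, mul_comm] at this
    have hu2 : ((n : ℝ) + 1) * u < (k : ℕ) + 1 := by
      have : (u : ℝ) < b := hu'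
      rwa [lt_div_iff₀ hn, mul_comm] at this
    have : ⌊(n + 1 : ℝ) * (u : ℝ)⌋₊ = k := (Nat.floor_eq_iff (hk0.trans hu1)).2 ⟨hu1, hu2⟩
    simp only [Set.mem_preimage, Set.mem_singleton_iff, this]
    exact min_eq_left (Nat.lt_succ_iff.1 k.2)
  have h2 : (fun u : unitInterval => min ⌊(n + 1 : ℝ) * (u : ℝ)⌋₊ n) ⁻¹' {(k : ℕ)} ⊆
      Set.Icc a b := by
    intro u hu
    simp only [Set.mem_preimage, Set.mem_singleton_iff] at hu
    have hx : 0 ≤ (n + 1 : ℝ) * (u : ℝ) := mul_nonneg hn.le u.2.1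
    constructor
    · show (a : ℝ) ≤ u
      rw [div_le_iff₀ hn, mul_comm]
      exact (Nat.le_floor_iff hx).1 (hu ▸ min_le_left _ _)
    · show (u : ℝ) ≤ b
      rw [le_div_iff₀ hn, mul_comm]
      rcases min_eq_iff.1 hu with h | h
      · rw [← h.1]
        exact (Nat.lt_floor_add_one _).le
      · rw [← h.1]
        exact mul_le_of_le_one_right hn.le u.2.2
  have h3 := le_antisymm ((measure_mono h2).trans_eq (unitInterval.volume_Icc a b))
    ((unitInterval.volume_Ico a b).symm.trans_le (measure_mono h1))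
  rw [Measure.real, h3, hab, ENNReal.toReal_ofReal (by positivity)]
  simp [FinLaw.unif]

theorem integral_pi_finLaw {Ω S L : Type} [MeasurableSpace Ω] [Fintype S] [Fintype L]
    [DecidableEq L] (P : Measure Ω) [IsProbabilityMeasure P] (δ : L → Ω → S) (μ : L → FinLaw S)
    (h : ∀ l, HasFinLaw P (δ l) (μ l)) (f : (L → S) → ℝ) :
    ∫ v : L → Ω, f (fun l => δ l (v l)) ∂(Measure.pi fun _ : L => P) = (FinLaw.pi μ).E f :=
  (HasFinLaw.pi h).integral f

/-- The law of a spin with mean `t`. -/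
noncomputable def mcSpinLaw (t : ℝ) (ht : |t| ≤ 1) : FinLaw Bool where
  w b := (1 + t * spinVal b) / 2
  nonneg b := by
    have := abs_le.1 ht
    cases b <;> simp only [spinVal] <;> norm_num <;> linarith
  sum_one := by
    simp only [Fintype.sum_bool, spinVal]
    norm_num
    ring

theorem mc_abs_spinVal (b : Bool) : |spinVal b| ≤ 1 := by
  cases b <;> simp [spinVal]

theorem mcSpinLaw_E_spin (t : ℝ) (ht : |t| ≤ 1) : (mcSpinLaw t ht).E spinVal = t := by
  simp only [FinLaw.E, mcSpinLaw, Fintype.sum_bool, spinVal]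
  norm_num
  ring

theorem mc_E_bool {S : Type} [Fintype S] (μ : FinLaw S) (s : S → Bool)
    (ht : |μ.E fun ω => spinVal (s ω)| ≤ 1) (g : Bool → ℝ) :
    μ.E (fun ω => g (s ω)) = (mcSpinLaw _ ht).E g := by
  have h1 : ∀ b, g b = (g true + g false) / 2 + (g true - g false) / 2 * spinVal b := by
    intro b
    cases b <;> simp only [spinVal] <;> norm_num <;> ring
  rw [show (fun ω => g (s ω)) = _ from funext fun ω => h1 (s ω), FinLaw.E_add, FinLaw.E_const,
    FinLaw.E_smul]
  generalize μ.E (fun ω => spinVal (s ω)) = t at ht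
  simp only [FinLaw.E, mcSpinLaw, Fintype.sum_bool, spinVal]
  norm_num
  ring

theorem mc_pi_ex {Ω L : Type} [Fintype Ω] [Fintype L] [DecidableEq L] (B S : Kern Ω) (j : ℕ)
    (hB : ∀ z ω, ∑ ω', B.A j z ω' * S.A (j + 1) ω' ω = S.A j z ω) (f : (L → Ω) → ℝ) (z : L → Ω) :
    (Kern.pi fun _ : L => B).ex j ((Kern.pi fun _ : L => S).ex (j + 1) f) z =
      (Kern.pi fun _ : L => S).ex j f z := by
  simp only [Kern.ex, Finset.mul_sum]
  rw [Finset.sum_comm]
  refine sum_congr rfl fun ω _ => ?_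
  simp only [← mul_assoc]
  rw [← Finset.sum_mul]
  congr 1
  show ∑ ω' : L → Ω, (∏ l, B.A j (z l) (ω' l)) * (∏ l, S.A (j + 1) (ω' l) (ω l)) =
    ∏ l, S.A j (z l) (ω l)
  simp only [← prod_mul_distrib]
  rw [← Fintype.piFinset_univ,
    ← Finset.prod_univ_sum (fun _ => univ) fun l a => B.A j (z l) a * S.A (j + 1) a (ω l)]
  exact prod_congr rfl fun l _ => hB _ _

theorem conv_gen {r : ℕ} {Ω : Type} [Fintype Ω] (ζ : Trial r Ω) (B : Kern Ω)
    (hB : ∀ j < r, ∀ z ω, ∑ ω', B.A j z ω' * ζ.S.A (j + 1) ω' ω = ζ.S.A j z ω)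
    (F₀ : unitInterval → Ω) (h₀ : HasFinLaw volume F₀ ζ.ν) (F : ℕ → Ω → unitInterval → Ω)
    (hF : ∀ j < r, ∀ z, HasFinLaw volume (F j z) (B.law j z)) (path : ℕ → Cube r → Ω)
    (hp0 : ∀ u, path 0 u = F₀ (u 0))
    (hps : ∀ (j : ℕ) (hj : j < r) u, path (j + 1) u = F j (path j u) (u ⟨j + 1, by omega⟩))
    (T : Cube r → ℝ) (hT : ∀ u, T u = ζ.S.ex r (fun ω => spinVal (ζ.s ω)) (path r u))
    (e : Expo r) {L : Type} [Fintype L] [DecidableEq L] (w : (L → Bool) → ℝ) :
    valT e.fin T w = ζ.val e w := by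
  have hdep : ∀ j ≤ r, ∀ u u' : Cube r, (∀ i : Fin (r + 1), i.val ≤ j → u i = u' i) →
      path j u = path j u' := by
    intro j
    induction j with
    | zero => intro _ u u' h; rw [hp0, hp0, h 0 le_rfl]
    | succ j ih =>
      intro hj u u' h
      rw [hps j hj, hps j hj, ih (by omega) u u' fun i hi => h i (by omega), h _ le_rfl]
  set K : FKS (L → Ω) r := FKS.pi fun _ : L => ζ.S with hK
  set v : (L → Ω) → ℝ := fun ω => w fun l => ζ.s (ω l) with hv
  have key : ∀ k j, j + k = r → ∀ u : L → Cube r,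
      ((List.finRange r).drop j).foldr (fun d acc => pmStep (e.fin d) d.succ acc)
        (fun u' : L → Cube r => spinMean w fun l => T (u' l)) u =
        Real.exp (K.lp e v j fun l => path j (u l)) := by
    intro k
    induction k with
    | zero =>
      intro j hj u
      obtain rfl : j = r := by omega
      rw [List.drop_eq_nil_of_le (by simp), List.foldr_nil, K.lp_succ e v le_rfl,
        K.lp_top e v le_rfl]
      simp only [e.top, inv_one, one_mul]
      rw [Real.exp_log (K.ex_exp_pos _ _ _)]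
      have ht : ∀ l, |(ζ.S.law j (path j (u l))).E fun ω => spinVal (ζ.s ω)| ≤ 1 := fun l =>
        FinLaw.abs_E_le _ fun ω => mc_abs_spinVal _
      refine Eq.trans ?_ (FinLaw.pi_E_map (fun l => ζ.S.law j (path j (u l)))
        (fun l => mcSpinLaw _ (ht l)) (fun _ => ζ.s) (fun l g => mc_E_bool _ _ (ht l) g)
        fun s => Real.exp (w s)).symm
      refine sum_congr rfl fun s _ => ?_
      simp only [hT]
      rw [mul_comm]
      rfl
    | succ k ih =>
      intro j hj u
      have hjr : j < r := by omega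
      have hm := e.pos hjr.le
      have hget : (List.finRange r)[j]'(by simpa using hjr) = ⟨j, hjr⟩ := List.getElem_finRange _
      rw [List.drop_eq_getElem_cons (by simpa using hjr), List.foldr_cons, hget, pmStep,
        show e.fin ⟨j, hjr⟩ = e.m (j + 1) from rfl]
      simp only [ih (j + 1) (by omega)]
      have h1 : ∀ (x : unitInterval) (u' : Cube r),
          path (j + 1) (fun i => if i = Fin.succ ⟨j, hjr⟩ then x else u' i) =
            F j (path j u') x := by
        intro x u'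
        rw [hps j hjr, if_pos (Fin.succ_mk _ _ hjr).symm,
          hdep j hjr.le _ u' fun i hi => if_neg fun h => by rw [h] at hi; simp at hi]
      simp only [h1, ← Real.exp_mul]
      rw [integral_pi_finLaw volume (fun l => F j (path j (u l))) (fun l => B.law j (path j (u l)))
        (fun l => hF j hjr _) fun z => Real.exp (K.lp e v (j + 1) z * e.m (j + 1))]
      have h2 : (FinLaw.pi fun l => B.law j (path j (u l))).E
          (fun z => Real.exp (K.lp e v (j + 1) z * e.m (j + 1))) =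
          K.ex j (fun z => Real.exp (e.m (j + 1) * K.lp e v (j + 1) z)) fun l => path j (u l) := by
        refine Eq.trans ?_ (mc_pi_ex B ζ.S.toKern j (hB j hjr) _ _)
        refine sum_congr rfl fun z _ => ?_
        congr 1
        beta_reduce
        rw [mul_comm]
        exact (K.ex_of_inv (j := j + 1) (u := fun z => Real.exp (e.m (j + 1) * K.lp e v (j + 1) z))
          (fun a b hab => by simp only [K.inv_lp e v (j := j + 1) hjr a b hab]) z).symm
      rw [h2, Real.rpow_def_of_pos (K.ex_exp_pos _ _ _), K.lp_succ e v hjr.le, one_div, mul_comm]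
  have h0 := key r 0 (zero_add r)
  simp only [List.drop_zero, hp0] at h0
  unfold valT powerMeans
  simp only [h0, Real.log_exp]
  exact integral_pi_finLaw (Measure.pi fun _ : Fin (r + 1) => (volume : Measure unitInterval))
    (fun _ u => F₀ (u 0)) (fun _ => ζ.ν)
    (fun _ => h₀.comp_mp (measurePreserving_eval _ 0)) (K.lp e v 0)

/-- The path of a finite trial driven by uniform variables. -/
def mcPath {r : ℕ} {Ω : Type} (F₀ : unitInterval → Ω) (F : ℕ → Ω → unitInterval → Ω) :
    ℕ → Cube r → Ω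
  | 0, u => F₀ (u 0)
  | j + 1, u => if h : j < r then F j (mcPath F₀ F j u) (u ⟨j + 1, by omega⟩) else mcPath F₀ F j u

theorem conv_a {r : ℕ} {Ω : Type} [Fintype Ω] (ζ : Trial r Ω) :
    ∃ T : Cube r → ℝ, Measurable T ∧ (∀ u, |T u| ≤ 1) ∧
      ∀ (e : Expo r) (L : Type) [Fintype L] [DecidableEq L] (w : (L → Bool) → ℝ),
        valT e.fin T w = ζ.val e w := by
  obtain ⟨F₀, h₀⟩ := exists_hasFinLaw ζ.ν
  choose F hF using fun j z => exists_hasFinLaw (ζ.S.law j z)
  let _ : MeasurableSpace Ω := ⊤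
  have hm : ∀ j, Measurable (mcPath (r := r) F₀ F j) := by
    intro j
    induction j with
    | zero =>
      exact Measurable.comp (g := F₀) (fun A _ => h₀.measurableSet_preimage A)
        (measurable_pi_apply 0)
    | succ j ih =>
      by_cases h : j < r
      · have h1 : Measurable fun x : unitInterval × Ω => F j x.2 x.1 :=
          measurable_from_prod_countable_left fun z A _ => (hF j z).measurableSet_preimage A
        simp only [mcPath, dif_pos h]
        exact h1.comp ((measurable_pi_apply (⟨j + 1, by omega⟩ : Fin (r + 1))).prodMk ih)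
      · simp only [mcPath, dif_neg h]
        exact ih
  refine ⟨fun u => ζ.S.ex r (fun ω => spinVal (ζ.s ω)) (mcPath F₀ F r u),
    Measurable.comp (g := ζ.S.ex r fun ω => spinVal (ζ.s ω)) measurable_from_top (hm r),
    fun u => ζ.S.abs_ex_le r (fun ω => mc_abs_spinVal _) _, fun e L _ _ w => ?_⟩
  exact conv_gen ζ ζ.S.toKern ζ.S.tower F₀ h₀ F (fun j _ z => hF j z) (mcPath F₀ F)
    (fun _ => rfl) (fun j hj u => by simp only [mcPath, dif_pos hj]) _ (fun _ => rfl) e w

theorem conv_b {r n : ℕ} (q : (Fin (r + 1) → Fin (n + 1)) → ℝ) (hq : ∀ g, |q g| ≤ 1) :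
    ∃ ζ : Trial r ((Fin (r + 1) → Fin (n + 1)) × Bool),
      ∀ (e : Expo r) (L : Type) [Fintype L] [DecidableEq L] (w : (L → Bool) → ℝ),
        valT e.fin (fun u => q fun j => cell n (u j)) w = ζ.val e w := by
  let φ₀ : Fin (n + 1) → (Fin (r + 1) → Fin (n + 1)) × Bool := fun a => (fun _ => a, false)
  let φ : ℕ → (Fin (r + 1) → Fin (n + 1)) × Bool → Fin (n + 1) →
      (Fin (r + 1) → Fin (n + 1)) × Bool := fun j z a =>
    (fun i => if i.val = j + 1 then a else z.1 i, false)
  let B : Kern ((Fin (r + 1) → Fin (n + 1)) × Bool) :=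
    ⟨fun j z => ((FinLaw.unif (Fin (n + 1))).map (φ j z)).w, fun j z => FinLaw.nonneg _,
      fun j z => FinLaw.sum_one _⟩
  let ζ : Trial r ((Fin (r + 1) → Fin (n + 1)) × Bool) :=
    ⟨(FKS.pi fun i : Fin (r + 1) => FKS.lvl (Fin (n + 1)) r i).mark fun g => mcSpinLaw (q g) (hq g),
      (FinLaw.unif (Fin (n + 1))).map φ₀, Prod.snd⟩
  have hA : ∀ j z ω, ζ.S.A j z ω = (∏ i : Fin (r + 1), (FKS.lvl (Fin (n + 1)) r i).A j (z.1 i)
      (ω.1 i)) * (mcSpinLaw (q ω.1) (hq ω.1)).w ω.2 := fun _ _ _ => rfl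
  refine ⟨ζ, fun e L _ _ w => conv_gen ζ B ?_ (fun x => φ₀ (cell n x))
    ((hasFinLaw_cell n).map φ₀) (fun j z x => φ j z (cell n x))
    (fun j _ z => (hasFinLaw_cell n).map (φ j z))
    (fun j u => (fun i => if i.val ≤ j then cell n (u i) else cell n (u 0), false)) ?_ ?_ _ ?_ e w⟩
  · intro j hj z ω
    refine ((FinLaw.unif (Fin (n + 1))).map_E (φ j z) fun ω' => ζ.S.A (j + 1) ω' ω).trans ?_
    simp only [hA, FinLaw.pl_E_mul_const]
    congr 1
    let i₀ : Fin (r + 1) := ⟨j + 1, by omega⟩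
    simp only [Fin.prod_univ_succAbove _ i₀]
    have h1 : ∀ (a : Fin (n + 1)) (i : Fin r),
        (FKS.lvl (Fin (n + 1)) r (i₀.succAbove i)).A (j + 1) ((φ j z a).1 (i₀.succAbove i))
          (ω.1 (i₀.succAbove i)) = (FKS.lvl (Fin (n + 1)) r (i₀.succAbove i)).A j
            (z.1 (i₀.succAbove i)) (ω.1 (i₀.succAbove i)) := by
      intro a i
      have hne : (i₀.succAbove i).val ≠ j + 1 := fun h => Fin.succAbove_ne i₀ i (Fin.ext h)
      simp only [φ, if_neg hne]
      by_cases h : (i₀.succAbove i).val ≤ j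
      · rw [FKS.lvl_A_of_le _ _ h, FKS.lvl_A_of_le _ _ (h.trans (Nat.le_succ j))]
      · rw [FKS.lvl_A_of_lt _ _ (by omega), FKS.lvl_A_of_lt _ _ (by omega)]
    simp only [h1, FinLaw.pl_E_mul_const]
    congr 1
    rw [FKS.lvl_A_of_lt _ _ (Nat.lt_succ_self j)]
    simp only [FKS.lvl_A_of_le _ _ (le_refl (j + 1)), φ, i₀, if_true]
    simp [FinLaw.E, FinLaw.unif]
  · intro u
    refine Prod.ext (funext fun i => ?_) rfl
    show (if i.val ≤ 0 then cell n (u i) else cell n (u 0)) = cell n (u 0)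
    split_ifs with h
    · rw [show i = 0 from Fin.ext (by simpa using h)]
    · rfl
  · intro j hj u
    refine Prod.ext (funext fun i => ?_) rfl
    show (if i.val ≤ j + 1 then cell n (u i) else cell n (u 0)) = if i.val = j + 1 then
      cell n (u ⟨j + 1, by omega⟩) else if i.val ≤ j then cell n (u i) else cell n (u 0)
    by_cases h : i.val = j + 1
    · rw [if_pos h, if_pos h.le, show i = ⟨j + 1, by omega⟩ from Fin.ext h]
    · rw [if_neg h]
      exact if_congr (by omega) rfl rfl
  · intro u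
    have h1 : ∀ i : Fin (r + 1), i.val ≤ r := fun i => Nat.lt_succ_iff.1 i.2
    simp only [Kern.ex, hA, FKS.lvl_A_of_le _ _ (h1 _), if_pos (h1 _), Fintype.sum_prod_type,
      mul_assoc]
    rw [Finset.sum_eq_single (fun j => cell n (u j))]
    · simp only [if_true, prod_const_one, one_mul]
      exact (mcSpinLaw_E_spin _ (hq _)).symm
    · intro g _ hg
      obtain ⟨i, hi⟩ := Function.ne_iff.1 hg
      refine sum_eq_zero fun x _ => mul_eq_zero_of_left ?_ _
      exact Finset.prod_eq_zero (mem_univ i) (if_neg hi)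
    · simp

end Crest.Agent.R141
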