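import Crest.Agent.R141.MConv

/-!
# Row 141: Lipschitz dependence on the disorder (coupling with finite disorder)
-/

set_option autoImplicit false
set_option linter.unusedSectionVars false

namespace Crest.Agent.R141

open Finset MeasureTheory Crest.ProbabilityR.Diluted
open scoped BigOperators

theorem HasFinLaw.mcp_measurable {Ω S F : Type} [MeasurableSpace Ω] [Fintype S]
    [MeasurableSpace F] {P : Measure Ω} {δ : Ω → S} {π : FinLaw S} (hδ : HasFinLaw P δ π)
    (g : S → F) : Measurable fun ω => g (δ ω) := by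
  let _ : MeasurableSpace S := ⊤
  have h1 : Measurable δ := measurable_to_countable' fun s => (hδ s).1
  exact measurable_from_top.comp h1

theorem HasFinLaw.mcp_integrable {Ω S : Type} [MeasurableSpace Ω] [Fintype S]
    {P : Measure Ω} [IsProbabilityMeasure P] {δ : Ω → S} {π : FinLaw S} (hδ : HasFinLaw P δ π)
    (g : S → ℝ) : Integrable (fun ω => g (δ ω)) P :=
  Integrable.of_bound (hδ.mcp_measurable g).aestronglyMeasurable ‖g‖
    (Filter.Eventually.of_forall fun ω => norm_le_pi_norm g (δ ω))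

theorem HasFinLaw.mcp_integral {Ω S : Type} [MeasurableSpace Ω] [Fintype S]
    {P : Measure Ω} [IsProbabilityMeasure P] {δ : Ω → S} {π : FinLaw S} (hδ : HasFinLaw P δ π)
    (g : S → ℝ) : ∫ ω, g (δ ω) ∂P = π.E g := by
  classical
  have e : (fun ω => g (δ ω)) = fun ω => ∑ s, (δ ⁻¹' {s}).indicator (fun _ => g s) ω := by
    funext ω
    simp [Set.indicator_apply, eq_comm]
  rw [e, integral_finsetSum _ fun s _ => (integrable_const _).indicator (hδ s).1]
  refine sum_congr rfl fun s _ => ?_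
  rw [integral_indicator_const _ (hδ s).1, (hδ s).2, smul_eq_mul]

section Abs
variable {Ω E : Type} [MeasurableSpace Ω] [NormedAddCommGroup E] [NormedSpace ℝ E]
  [MeasurableSpace E] [BorelSpace E] [SecondCountableTopology E]

theorem mcp_continuous {k : ℕ} {Φ : (Fin k → E) → ℝ}
    (h : ∀ x y, |Φ x - Φ y| ≤ ∑ j, ‖x j - y j‖) : Continuous Φ := by
  refine (LipschitzWith.of_dist_le' (K := k) fun x y => ?_).continuous
  rw [Real.dist_eq, dist_eq_norm]
  refine (h x y).trans ?_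
  calc ∑ j, ‖x j - y j‖ ≤ ∑ _j : Fin k, ‖x - y‖ := sum_le_sum fun j _ => norm_le_pi_norm (x - y) j
    _ = k * ‖x - y‖ := by simp

theorem mcp_integrable_pi (P : Measure Ω) [IsProbabilityMeasure P] {θ : Ω → E}
    (hθ : Measurable θ) (hθi : Integrable (fun ω => ‖θ ω‖) P) {k : ℕ} {Φ : (Fin k → E) → ℝ}
    (h : ∀ x y, |Φ x - Φ y| ≤ ∑ j, ‖x j - y j‖) :
    Integrable (fun ω : Fin k → Ω => Φ fun j => θ (ω j)) (Measure.pi fun _ : Fin k => P) := by
  have hm : Measurable fun ω : Fin k → Ω => Φ fun j => θ (ω j) :=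
    (mcp_continuous h).measurable.comp
      (measurable_pi_lambda _ fun j => hθ.comp (measurable_pi_apply j))
  have hb : Integrable (fun ω : Fin k → Ω => |Φ 0| + ∑ j, ‖θ (ω j)‖)
      (Measure.pi fun _ : Fin k => P) :=
    (integrable_const _).add (integrable_finsetSum _ fun j _ =>
      integrable_comp_eval (μ := fun _ : Fin k => P) (i := j) (f := fun ω => ‖θ ω‖) hθi)
  refine hb.mono' hm.aestronglyMeasurable (Filter.Eventually.of_forall fun ω => ?_)
  have h1 := h (fun j => θ (ω j)) 0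
  simp only [Pi.zero_apply, sub_zero] at h1
  have h2 := abs_sub_abs_le_abs_sub (Φ fun j => θ (ω j)) (Φ 0)
  rw [Real.norm_eq_abs]
  linarith

theorem mcp_integrable_err {S : Type} [Fintype S] (P : Measure Ω) [IsProbabilityMeasure P]
    (one : E) {θ : Ω → E} (hθ : Measurable θ) (hθi : Integrable (fun ω => ‖θ ω‖) P) {δ : Ω → S}
    {π : FinLaw S} (hδ : HasFinLaw P δ π) (Θ : S → E) {c : Ω → ℝ} (hc : Integrable c P) :
    Integrable (fun ω => ‖θ ω - Θ (δ ω) - c ω • one‖) P := by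
  have h1 : Integrable θ P := (integrable_norm_iff hθ.aestronglyMeasurable).1 hθi
  have h2 : Integrable (fun ω => Θ (δ ω)) P :=
    (integrable_norm_iff (hδ.mcp_measurable Θ).aestronglyMeasurable).1
      (hδ.mcp_integrable fun s => ‖Θ s‖)
  exact ((h1.sub h2).sub (hc.smul_const one)).norm

end Abs

theorem couple_pi {Ω E S : Type} [MeasurableSpace Ω] (P : Measure Ω) [IsProbabilityMeasure P]
    [NormedAddCommGroup E] [NormedSpace ℝ E] [MeasurableSpace E] [BorelSpace E]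
    [SecondCountableTopology E] [Fintype S] (one : E) (t : ℝ) (θ : Ω → E) (hθ : Measurable θ)
    (hθi : Integrable (fun ω => ‖θ ω‖) P) (δ : Ω → S) (π : FinLaw S) (hδ : HasFinLaw P δ π)
    (Θ : S → E) (c : Ω → ℝ) (hc : Integrable c P) {η : ℝ}
    (hη : ∫ ω, ‖θ ω - Θ (δ ω) - c ω • one‖ ∂P ≤ η) (k : ℕ) (Φ : (Fin k → E) → ℝ)
    (hΦ : ∀ (x y : Fin k → E) (a : Fin k → ℝ),
      |Φ x - Φ y - t * ∑ j, a j| ≤ ∑ j, ‖x j - y j - a j • one‖) :
    |(∫ x, Φ x ∂(Measure.pi fun _ : Fin k => P.map θ)) -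
        (FinLaw.pi fun _ : Fin k => π).E (fun ds => Φ fun j => Θ (ds j)) -
        t * (k * ∫ ω, c ω ∂P)| ≤
      k * η := by
  have hL : ∀ x y, |Φ x - Φ y| ≤ ∑ j, ‖x j - y j‖ := fun x y => by
    simpa using hΦ x y 0
  have := Measure.isProbabilityMeasure_map (μ := P) hθ.aemeasurable
  have hm : Measurable fun (x : Fin k → Ω) (i : Fin k) => θ (x i) :=
    measurable_pi_lambda _ fun j => hθ.comp (measurable_pi_apply j)
  have e1 : ∫ x, Φ x ∂(Measure.pi fun _ : Fin k => P.map θ) =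
      ∫ ω : Fin k → Ω, Φ (fun j => θ (ω j)) ∂(Measure.pi fun _ : Fin k => P) := by
    rw [← Measure.pi_map_pi (μ := fun _ : Fin k => P) (f := fun _ => θ) fun _ => hθ.aemeasurable,
      integral_map hm.aemeasurable (mcp_continuous hL).measurable.aestronglyMeasurable]
  have e2 := integral_pi_finLaw P (fun _ : Fin k => δ) (fun _ => π) (fun _ => hδ)
    (fun ds => Φ fun j => Θ (ds j))
  have sumI : ∀ g : Ω → ℝ, Integrable g P →
      Integrable (fun ω : Fin k → Ω => ∑ j, g (ω j)) (Measure.pi fun _ : Fin k => P) ∧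
      ∫ ω : Fin k → Ω, ∑ j, g (ω j) ∂(Measure.pi fun _ : Fin k => P) = k * ∫ ω, g ω ∂P := by
    intro g hg
    have h1 : ∀ j, Integrable (fun ω : Fin k → Ω => g (ω j)) (Measure.pi fun _ : Fin k => P) :=
      fun j => integrable_comp_eval (μ := fun _ : Fin k => P) (i := j) (f := g) hg
    refine ⟨integrable_finsetSum _ fun j _ => h1 j, ?_⟩
    rw [integral_finsetSum _ fun j _ => h1 j]
    simp only [integral_comp_eval (μ := fun _ : Fin k => P) (f := g) hg.aestronglyMeasurable]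
    simp
  have i1 := mcp_integrable_pi P hθ hθi hL
  have i2 := mcp_integrable_pi P (hδ.mcp_measurable Θ) (hδ.mcp_integrable fun s => ‖Θ s‖) hL
  obtain ⟨i3, e3⟩ := sumI c hc
  obtain ⟨i4, e4⟩ := sumI _ (mcp_integrable_err P one hθ hθi hδ Θ hc)
  rw [e1, ← e2, ← e3, ← integral_const_mul, ← integral_sub i1 i2,
    ← integral_sub (i1.sub' i2) (i3.const_mul t)]
  calc _ ≤ ∫ ω : Fin k → Ω, ∑ j, ‖θ (ω j) - Θ (δ (ω j)) - c (ω j) • one‖
        ∂(Measure.pi fun _ : Fin k => P) := by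
        rw [← Real.norm_eq_abs]
        exact norm_integral_le_of_norm_le i4 (Filter.Eventually.of_forall fun ω => hΦ _ _ _)
    _ ≤ k * η := by rw [e4]; gcongr

theorem mcp_couple_one {Ω E S : Type} [MeasurableSpace Ω] (P : Measure Ω) [IsProbabilityMeasure P]
    [NormedAddCommGroup E] [NormedSpace ℝ E] [MeasurableSpace E] [BorelSpace E]
    [SecondCountableTopology E] [Fintype S] (one : E) (t : ℝ) (θ : Ω → E) (hθ : Measurable θ)
    (hθi : Integrable (fun ω => ‖θ ω‖) P) (δ : Ω → S) (π : FinLaw S) (hδ : HasFinLaw P δ π)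
    (Θ : S → E) (c : Ω → ℝ) (hc : Integrable c P) {η : ℝ}
    (hη : ∫ ω, ‖θ ω - Θ (δ ω) - c ω • one‖ ∂P ≤ η) (Φ : E → ℝ)
    (hΦ : ∀ (x y : E) (a : ℝ), |Φ x - Φ y - t * a| ≤ ‖x - y - a • one‖) :
    |(∫ x, Φ x ∂(P.map θ)) - π.E (fun d => Φ (Θ d)) - t * ∫ ω, c ω ∂P| ≤ η := by
  have hL : ∀ x y, |Φ x - Φ y| ≤ ‖x - y‖ := fun x y => by simpa using hΦ x y 0
  have hcont : Continuous Φ := (LipschitzWith.of_dist_le' (K := 1) fun x y => by
    rw [Real.dist_eq, dist_eq_norm, one_mul]; exact hL x y).continuous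
  have i1 : Integrable (fun ω => Φ (θ ω)) P := by
    refine ((integrable_const |Φ 0|).add hθi).mono'
      (hcont.measurable.comp hθ).aestronglyMeasurable (Filter.Eventually.of_forall fun ω => ?_)
    have h1 := hL (θ ω) 0
    have h2 := abs_sub_abs_le_abs_sub (Φ (θ ω)) (Φ 0)
    rw [sub_zero] at h1
    rw [Real.norm_eq_abs]
    simp only [Pi.add_apply]
    linarith
  have i2 := hδ.mcp_integrable fun d => Φ (Θ d)
  rw [integral_map hθ.aemeasurable hcont.measurable.aestronglyMeasurable,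
    ← hδ.mcp_integral (fun d => Φ (Θ d)), ← integral_const_mul, ← integral_sub i1 i2,
    ← integral_sub (i1.sub' i2) (hc.const_mul t)]
  refine le_trans ?_ hη
  rw [← Real.norm_eq_abs]
  exact norm_integral_le_of_norm_le (mcp_integrable_err P one hθ hθi hδ Θ hc)
    (Filter.Eventually.of_forall fun ω => hΦ _ _ _)

/-- The hypotheses: `(μ, ν)` is coupled with the finite disorder `X` up to the shift `c`. -/
structure Coupled {p : ℕ} {D H : Type} [Fintype D] [Fintype H] (μ : Measure (Inter p))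
    (ν : Measure ℝ) (X : Dis p D H) (c η : ℝ) : Prop where
  inter : ∃ (Ω : Type) (_ : MeasurableSpace Ω) (P : Measure Ω) (_ : IsProbabilityMeasure P)
    (θ : Ω → Inter p) (δ : Ω → D) (c' : Ω → ℝ), Measurable θ ∧ P.map θ = μ ∧
      Integrable (fun ω => ‖θ ω‖) P ∧ HasFinLaw P δ X.πd ∧ Integrable c' P ∧ ∫ ω, c' ω ∂P = c ∧
      ∫ ω, ‖θ ω - X.θ (δ ω) - fun _ => c' ω‖ ∂P ≤ η
  field : ∃ g : ℝ → H, HasFinLaw ν g X.πh ∧ ∫ x, |x - X.h (g x)| ∂ν ≤ η

theorem mcp_smul_one {p : ℕ} (a : ℝ) : a • (fun _ => 1 : Inter p) = fun _ => a := by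
  funext s; simp

section Coup
variable {p : ℕ} {D H : Type} [Fintype D] [Fintype H] {μ : Measure (Inter p)}
  {ν : Measure ℝ} [IsProbabilityMeasure ν] {X : Dis p D H} {c η : ℝ}

theorem Coupled.mcp_nonneg (h : Coupled μ ν X c η) : 0 ≤ η := by
  obtain ⟨g, -, hg⟩ := h.field
  exact (integral_nonneg fun x => abs_nonneg _).trans hg

theorem Coupled.mcp_inter_pi (h : Coupled μ ν X c η) (k : ℕ) (Φ : (Fin k → Inter p) → ℝ)
    (hΦ : ∀ (x y : Fin k → Inter p) (a : Fin k → ℝ),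
      |Φ x - Φ y - ∑ j, a j| ≤ ∑ j, ‖x j - y j - fun _ => a j‖) :
    |(∫ x, Φ x ∂(Measure.pi fun _ : Fin k => μ)) -
      (FinLaw.pi fun _ : Fin k => X.πd).E (fun ds => Φ fun j => X.θ (ds j)) - k * c| ≤ k * η := by
  obtain ⟨Ω, _, P, _, θ, δ, c', h1, h2, h3, h4, h5, h6, h7⟩ := h.inter
  have := couple_pi P (fun _ => 1) 1 θ h1 h3 δ X.πd h4 X.θ c' h5 (η := η)
    (by simpa only [mcp_smul_one] using h7) k Φ
    (fun x y a => by simpa only [mcp_smul_one, one_mul] using hΦ x y a)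
  rwa [h2, h6, one_mul] at this

theorem Coupled.mcp_inter_one (h : Coupled μ ν X c η) (Φ : Inter p → ℝ)
    (hΦ : ∀ (x y : Inter p) (a : ℝ), |Φ x - Φ y - a| ≤ ‖x - y - fun _ => a‖) :
    |(∫ x, Φ x ∂μ) - X.πd.E (fun d => Φ (X.θ d)) - c| ≤ η := by
  obtain ⟨Ω, _, P, _, θ, δ, c', h1, h2, h3, h4, h5, h6, h7⟩ := h.inter
  have := mcp_couple_one P (fun _ => 1) 1 θ h1 h3 δ X.πd h4 X.θ c' h5 (η := η)
    (by simpa only [mcp_smul_one] using h7) Φ
    (fun x y a => by simpa only [mcp_smul_one, one_mul] using hΦ x y a)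
  rwa [h2, h6, one_mul] at this

theorem Coupled.mcp_field_pi (h : Coupled μ ν X c η) (hν : Integrable (fun x : ℝ => x) ν) (n : ℕ)
    (Φ : (Fin n → ℝ) → ℝ) (hΦ : ∀ x y, |Φ x - Φ y| ≤ ∑ j, ‖x j - y j‖) :
    |(∫ x, Φ x ∂(Measure.pi fun _ : Fin n => ν)) -
      (FinLaw.pi fun _ : Fin n => X.πh).E (fun hs => Φ fun j => X.h (hs j))| ≤ n * η := by
  obtain ⟨g, h1, h2⟩ := h.field
  have := couple_pi ν (0 : ℝ) 0 id measurable_id hν.norm g X.πh h1 X.h (fun _ => 0)
    (integrable_const _) (η := η) (by simpa using h2) n Φ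
    (fun x y a => by simpa using hΦ x y)
  simpa using this

theorem Coupled.mcp_field_one (h : Coupled μ ν X c η) (hν : Integrable (fun x : ℝ => x) ν)
    (Φ : ℝ → ℝ) (hΦ : ∀ x y, |Φ x - Φ y| ≤ |x - y|) :
    |(∫ x, Φ x ∂ν) - X.πh.E (fun x => Φ (X.h x))| ≤ η := by
  obtain ⟨g, h1, h2⟩ := h.field
  have := mcp_couple_one ν (0 : ℝ) 0 id measurable_id hν.norm g X.πh h1 X.h (fun _ => 0)
    (integrable_const _) (η := η) (by simpa using h2) Φ
    (fun x y a => by simpa using hΦ x y)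
  simpa using this

/-- Two-stage comparison: `I θs` is the integral over the fields, `J θs` its finite version. -/
theorem Coupled.mcp_two (h : Coupled μ ν X c η) (k : ℕ) {Z : Type} [MeasurableSpace Z]
    (Q : Measure Z) [IsProbabilityMeasure Q] (Ψ : (Fin k → Inter p) → Z → ℝ)
    (hi : ∀ x, Integrable (Ψ x) Q)
    (hΨ : ∀ (x y : Fin k → Inter p) (a : Fin k → ℝ) z,
      |Ψ x z - Ψ y z - ∑ j, a j| ≤ ∑ j, ‖x j - y j - fun _ => a j‖)
    (J : (Fin k → Inter p) → ℝ) {b : ℝ} (hJ : ∀ x, |(∫ z, Ψ x z ∂Q) - J x| ≤ b) :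
    |(∫ x, ∫ z, Ψ x z ∂Q ∂(Measure.pi fun _ : Fin k => μ)) -
      (FinLaw.pi fun _ : Fin k => X.πd).E (fun ds => J fun j => X.θ (ds j)) - k * c| ≤
      η * k + b := by
  have h1 := h.mcp_inter_pi k (fun x => ∫ z, Ψ x z ∂Q) (fun x y a => by
    have e : (∫ z, Ψ x z ∂Q) - (∫ z, Ψ y z ∂Q) - ∑ j, a j =
        ∫ z, (Ψ x z - Ψ y z - ∑ j, a j) ∂Q := by
      rw [integral_sub ((hi x).sub' (hi y)) (integrable_const _), integral_sub (hi x) (hi y)]
      simp
    rw [e, ← Real.norm_eq_abs]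
    have := norm_integral_le_of_norm_le_const (μ := Q)
      (f := fun z => Ψ x z - Ψ y z - ∑ j, a j) (Filter.Eventually.of_forall fun z => hΨ x y a z)
    simpa using this)
  have h2 : |(FinLaw.pi fun _ : Fin k => X.πd).E (fun ds => ∫ z, Ψ (fun j => X.θ (ds j)) z ∂Q) -
      (FinLaw.pi fun _ : Fin k => X.πd).E (fun ds => J fun j => X.θ (ds j))| ≤ b := by
    rw [← FinLaw.E_sub]
    exact FinLaw.abs_E_le _ fun ds => hJ _
  rw [abs_le] at h1 h2 ⊢
  constructor <;> linarith [h1.1, h1.2, h2.1, h2.2]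

end Coup

theorem mcp_poi {lam : ℝ} (h : 0 ≤ lam) {a b : ℕ → ℝ} {c η D Cb : ℝ}
    (hb : ∀ n, |b n| ≤ Cb * (n + 1)) (hab : ∀ n, |a n - b n - n * c| ≤ η * n + D) :
    |(∑' n, poissonWeight lam n * a n) - (∑' n, poissonWeight lam n * b n) - lam * c| ≤
      η * lam + D := by
  have s1 : Summable fun n => poissonWeight lam n * (a n - b n - n * c) :=
    summable_poi_mul h (C := |η| + |D|) fun n => (hab n).trans (by
      have h1 := le_abs_self η
      have h2 := le_abs_self D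
      have h3 : (0 : ℝ) ≤ n := Nat.cast_nonneg n
      nlinarith [abs_nonneg η, abs_nonneg D])
  have s2 := summable_poi_mul h hb
  have s3 := (hasSum_poi_mul lam).mul_right c
  have e : (fun n => poissonWeight lam n * a n) = fun n : ℕ =>
      poissonWeight lam n * (a n - b n - n * c) + poissonWeight lam n * b n +
        poissonWeight lam n * n * c := by
    funext n; ring
  rw [e, (s1.add s2).tsum_add s3.summable, s1.tsum_add s2, s3.tsum_eq]
  have := abs_tsum_poi_le h hab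
  convert this using 2
  ring

theorem mcp_log_sum_exp {ι : Type} [Fintype ι] [Nonempty ι] {f g : ι → ℝ} {a c : ℝ}
    (h : ∀ i, |f i - g i - c| ≤ a) :
    |Real.log (∑ i, Real.exp (f i)) - Real.log (∑ i, Real.exp (g i)) - c| ≤ a := by
  have key : ∀ (f g : ι → ℝ) (b : ℝ), (∀ i, f i ≤ g i + b) →
      Real.log (∑ i, Real.exp (f i)) ≤ Real.log (∑ i, Real.exp (g i)) + b := by
    intro f g b hfg
    have hp : ∀ f : ι → ℝ, 0 < ∑ i, Real.exp (f i) :=
      fun f => sum_pos (fun i _ => Real.exp_pos _) univ_nonempty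
    rw [← Real.log_exp b, ← Real.log_mul (hp g).ne' (Real.exp_pos b).ne', sum_mul]
    refine Real.log_le_log (hp f) (sum_le_sum fun i _ => ?_)
    rw [← Real.exp_add]
    exact Real.exp_le_exp.2 (hfg i)
  have h1 := key f g (c + a) fun i => by linarith [(abs_le.1 (h i)).2]
  have h2 := key g f (a - c) fun i => by linarith [(abs_le.1 (h i)).1]
  rw [abs_le]
  constructor <;> linarith

theorem mcp_logPartition {N p M : ℕ} (θs θs' : Fin M → Inter p) (idx : Fin M → Fin p → Fin N)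
    (hs hs' : Fin N → ℝ) (a : Fin M → ℝ) :
    |logPartition N θs idx hs - logPartition N θs' idx hs' - ∑ j, a j| ≤
      ∑ j, ‖θs j - θs' j - fun _ => a j‖ + ∑ i, ‖hs i - hs' i‖ := by
  refine mcp_log_sum_exp fun σ => ?_
  have e : (∑ k : Fin M, θs k (fun ℓ => σ (idx k ℓ))) + ∑ i : Fin N, hs i * spinVal (σ i) -
      ((∑ k : Fin M, θs' k (fun ℓ => σ (idx k ℓ))) + ∑ i : Fin N, hs' i * spinVal (σ i)) -
      ∑ j, a j = ∑ k : Fin M, (θs k - θs' k - fun _ => a k : Inter p) (fun ℓ => σ (idx k ℓ)) +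
        ∑ i : Fin N, (hs i - hs' i) * spinVal (σ i) := by
    simp only [Pi.sub_apply, sum_sub_distrib, sub_mul]
    ring
  rw [e]
  refine (abs_add_le _ _).trans (add_le_add ?_ ?_)
  · exact (abs_sum_le_sum_abs _ _).trans (sum_le_sum fun k _ => norm_le_pi_norm
      (θs k - θs' k - fun _ => a k : Inter p) _)
  · refine (abs_sum_le_sum_abs _ _).trans (sum_le_sum fun i _ => ?_)
    rw [abs_mul, Real.norm_eq_abs]
    cases σ i <;> simp [spinVal]

/-- The average of `log Z` over the index tuples. -/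
noncomputable def mcpAvg (N : ℕ) {p M : ℕ} (θs : Fin M → Inter p) (hs : Fin N → ℝ) : ℝ :=
  (Fintype.card (Fin M → Fin p → Fin N) : ℝ)⁻¹ *
    ∑ idx : Fin M → Fin p → Fin N, logPartition N θs idx hs

theorem mcpAvg_sub {N p M : ℕ} (hN : 1 ≤ N) (θs θs' : Fin M → Inter p)
    (hs hs' : Fin N → ℝ) (a : Fin M → ℝ) :
    |mcpAvg N θs hs - mcpAvg N θs' hs' - ∑ j, a j| ≤
      ∑ j, ‖θs j - θs' j - fun _ => a j‖ + ∑ i, ‖hs i - hs' i‖ := by
  have : Nonempty (Fin N) := ⟨⟨0, hN⟩⟩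
  have e : ∀ f : (Fin M → Fin p → Fin N) → ℝ,
      (Fintype.card (Fin M → Fin p → Fin N) : ℝ)⁻¹ * ∑ idx, f idx =
        (FinLaw.unif (Fin M → Fin p → Fin N)).E f := fun f => by
    rw [FinLaw.unif_E, expect_eq_sum_div_card, card_univ, div_eq_inv_mul]
  unfold mcpAvg
  rw [e, e, ← FinLaw.E_sub, ← (FinLaw.unif (Fin M → Fin p → Fin N)).E_const (∑ j, a j),
    ← FinLaw.E_sub]
  exact FinLaw.abs_E_le _ fun idx => mcp_logPartition _ _ _ _ _ _

theorem mcpAvg_zero {N p M : ℕ} :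
    |mcpAvg N (0 : Fin M → Inter p) 0| ≤ |Real.log (2 ^ N)| := by
  unfold mcpAvg logPartition
  simp only [Pi.zero_apply, sum_const_zero, zero_mul, add_zero, Real.exp_zero, sum_const,
    card_univ, nsmul_eq_mul, mul_one]
  rw [← mul_assoc, abs_mul]
  have h1 : |(Fintype.card (Fin M → Fin p → Fin N) : ℝ)⁻¹ *
      (Fintype.card (Fin M → Fin p → Fin N) : ℝ)| ≤ 1 := by
    rw [abs_of_nonneg (by positivity)]
    exact inv_mul_le_one_of_le₀ le_rfl (by positivity)
  have h2 : (Fintype.card (Fin N → Bool) : ℝ) = 2 ^ N := by simp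
  rw [h2]
  exact mul_le_of_le_one_left (abs_nonneg _) h1

theorem Coupled.pressure {p : ℕ} {D H : Type} [Fintype D] [Fintype H] {μ : Measure (Inter p)}
    {ν : Measure ℝ} [IsProbabilityMeasure ν] (hν : Integrable (fun x : ℝ => x) ν) {X : Dis p D H}
    {c η : ℝ} (h : Coupled μ ν X c η) {α : ℝ} (hα : 0 ≤ α) {N : ℕ} (hN : 1 ≤ N) :
    |pressure p α μ ν N - X.pressure α N - α * c| ≤ (α + 1) * η := by
  have hNp : (0 : ℝ) < N := by exact_mod_cast hN
  have hL : ∀ (M : ℕ) (x : Fin M → Inter p) (z z' : Fin N → ℝ),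
      |mcpAvg N x z - mcpAvg N x z'| ≤ ∑ j, ‖z j - z' j‖ := fun M x z z' => by
    have := mcpAvg_sub hN x x z z' 0
    simpa [← Pi.zero_def] using this
  have hab : ∀ M : ℕ, |(∫ x, ∫ z, mcpAvg N x z ∂(Measure.pi fun _ : Fin N => ν)
      ∂(Measure.pi fun _ : Fin M => μ)) -
      (FinLaw.pi fun _ : Fin M => X.πd).E (fun ds => (FinLaw.pi fun _ : Fin N => X.πh).E
        fun hs => mcpAvg N (fun j => X.θ (ds j)) fun i => X.h (hs i)) - M * c| ≤
      η * M + N * η := fun M =>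
    h.mcp_two M (Measure.pi fun _ : Fin N => ν) (fun x z => mcpAvg N x z)
      (fun x => mcp_integrable_pi ν measurable_id hν.norm (hL M x))
      (fun x y a z => by simpa using mcpAvg_sub hN x y z z a)
      (fun x => (FinLaw.pi fun _ : Fin N => X.πh).E fun hs => mcpAvg N x fun i => X.h (hs i))
      fun x => h.mcp_field_pi hν N _ (hL M x)
  have hb : ∀ M : ℕ, |(FinLaw.pi fun _ : Fin M => X.πd).E (fun ds =>
      (FinLaw.pi fun _ : Fin N => X.πh).E
        fun hs => mcpAvg N (fun j => X.θ (ds j)) fun i => X.h (hs i))| ≤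
      (‖X.θ‖ + (N * ‖X.h‖ + |Real.log (2 ^ N)|)) * (M + 1) := fun M =>
    FinLaw.abs_E_le _ fun ds => FinLaw.abs_E_le _ fun hs => by
      have h1 := mcpAvg_sub hN (fun j => X.θ (ds j)) 0 (fun i => X.h (hs i)) 0 0
      simp only [Pi.zero_apply, sum_const_zero, sub_zero, ← Pi.zero_def] at h1
      have h2 := mcpAvg_zero (N := N) (p := p) (M := M)
      have h3 : ∑ j, ‖X.θ (ds j)‖ ≤ ∑ _j : Fin M, ‖X.θ‖ :=
        sum_le_sum fun j _ => norm_le_pi_norm _ _
      have h4 : ∑ i, ‖X.h (hs i)‖ ≤ ∑ _i : Fin N, ‖X.h‖ :=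
        sum_le_sum fun j _ => norm_le_pi_norm _ _
      simp only [sum_const, card_univ, Fintype.card_fin, nsmul_eq_mul] at h3 h4
      have h5 := abs_sub_abs_le_abs_sub (mcpAvg N (fun j => X.θ (ds j)) fun i => X.h (hs i))
        (mcpAvg N (0 : Fin M → Inter p) 0)
      have h6 : (0 : ℝ) ≤ M * (N * ‖X.h‖ + |Real.log (2 ^ N)|) := by positivity
      nlinarith [norm_nonneg X.θ]
  have key := mcp_poi (lam := α * N) (by positivity) hb hab
  have e : ∀ A B : ℝ, 1 / (N : ℝ) * A - 1 / (N : ℝ) * B - α * c =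
      1 / (N : ℝ) * (A - B - α * N * c) := fun A B => by field_simp
  unfold Crest.ProbabilityR.Diluted.pressure Dis.pressure
  rw [e, abs_mul, abs_of_pos (by positivity : (0 : ℝ) < 1 / N)]
  refine (mul_le_mul_of_nonneg_left key (by positivity)).trans (le_of_eq ?_)
  field_simp

theorem Coupled.trial {p : ℕ} (hp : 1 ≤ p) {D H : Type} [Fintype D] [Fintype H]
    {μ : Measure (Inter p)} {ν : Measure ℝ} [IsProbabilityMeasure ν]
    (hν : Integrable (fun x : ℝ => x) ν) {X : Dis p D H} {c η : ℝ} (h : Coupled μ ν X c η) {α : ℝ}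
    (hα : 0 ≤ α) {r : ℕ} {m : Fin r → ℝ} (hm : AdmissibleExponents m) {Y : Cube r → ℝ}
    (hY : Measurable Y) :
    |trialFunctional p α μ ν r m Y - X.PT α m (fun u => Real.tanh (Y u)) - α * c| ≤
      (2 * α * p + 1) * η := by
  set T : Cube r → ℝ := fun u => Real.tanh (Y u) with hTdef
  have hT : Measurable T := by
    simp only [hTdef, Real.tanh_eq_sinh_div_cosh]
    fun_prop
  have hT1 : ∀ u, |T u| ≤ 1 := fun u => (Real.abs_tanh_lt_one _).le
  have hsite : ∀ (k : ℕ) (x y : Fin k → Inter p) (a : Fin k → ℝ) (z z' : ℝ),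
      |valT m T (siteW z x) - valT m T (siteW z' y) - ∑ j, a j| ≤
        |z - z'| + ∑ j, ‖x j - y j - fun _ => a j‖ := fun k x y a z z' =>
    abs_valT_sub_le hm hT hT1 (abs_siteW_sub_le z z' x y a)
  have hL : ∀ (k : ℕ) (x : Fin k → Inter p) (z z' : ℝ),
      |valT m T (siteW z x) - valT m T (siteW z' x)| ≤ |z - z'| := fun k x z z' => by
    have := hsite k x x 0 z z'
    simpa [← Pi.zero_def] using this
  have hab : ∀ k : ℕ, |(∫ x, ∫ z, valT m T (siteW z x) ∂ν ∂(Measure.pi fun _ : Fin k => μ)) -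
      (FinLaw.pi fun _ : Fin k => X.πd).E (fun ds => X.πh.E
        fun z => valT m T (siteW (X.h z) fun j => X.θ (ds j))) - k * c| ≤ η * k + η := fun k =>
    h.mcp_two k ν (fun x z => valT m T (siteW z x))
      (fun x => by
        have hcont : Continuous fun z => valT m T (siteW z x) :=
          (LipschitzWith.of_dist_le' (K := 1) fun z z' => by
            rw [Real.dist_eq, Real.dist_eq, one_mul]; exact hL k x z z').continuous
        exact ((integrable_const (∑ j, ‖x j‖)).add hν.abs).mono' hcont.aestronglyMeasurable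
          (Filter.Eventually.of_forall fun z => by
            rw [Real.norm_eq_abs, Pi.add_apply, add_comm]
            exact abs_valT_le hm hT hT1 (abs_siteW_le z x)))
      (fun x y a z => by simpa using hsite k x y a z z)
      (fun x => X.πh.E fun z => valT m T (siteW (X.h z) x))
      fun x => h.mcp_field_one hν _ (hL k x)
  have hb : ∀ k : ℕ, |(FinLaw.pi fun _ : Fin k => X.πd).E (fun ds => X.πh.E
        fun z => valT m T (siteW (X.h z) fun j => X.θ (ds j)))| ≤ (‖X.θ‖ + ‖X.h‖) * (k + 1) :=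
    fun k => FinLaw.abs_E_le _ fun ds => FinLaw.abs_E_le _ fun z => by
      refine abs_valT_le hm hT hT1 fun s => (abs_siteW_le _ _ s).trans ?_
      have h3 : ∑ j, ‖X.θ (ds j)‖ ≤ ∑ _j : Fin k, ‖X.θ‖ :=
        sum_le_sum fun j _ => norm_le_pi_norm _ _
      simp only [sum_const, card_univ, Fintype.card_fin, nsmul_eq_mul] at h3
      have h4 : |X.h z| ≤ ‖X.h‖ := norm_le_pi_norm X.h z
      have h6 : (0 : ℝ) ≤ k * ‖X.h‖ := by positivity
      nlinarith [norm_nonneg X.θ]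
  have key := mcp_poi (lam := α * p) (by positivity) hb hab
  have hedge := h.mcp_inter_one (fun θ => valT m T θ) fun x y a =>
    abs_valT_sub_le hm hT hT1 fun s => norm_le_pi_norm (x - y - fun _ => a : Inter p) s
  have e1 : trialFunctional p α μ ν r m Y = Real.log 2 + (∑' k : ℕ, poissonWeight (α * p) k *
      ∫ x, ∫ z, valT m T (siteW z x) ∂ν ∂(Measure.pi fun _ : Fin k => μ)) -
      α * (p - 1 : ℝ) * ∫ θ, valT m T θ ∂μ := by
    unfold trialFunctional valT
    simp only [siteTerm_eq, edgeTerm_eq]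
    rfl
  have e2 : X.PT α m T = Real.log 2 + (∑' k : ℕ, poissonWeight (α * p) k *
      (FinLaw.pi fun _ : Fin k => X.πd).E (fun ds => X.πh.E
        fun z => valT m T (siteW (X.h z) fun j => X.θ (ds j)))) -
      α * (p - 1 : ℝ) * X.πd.E fun d => valT m T (X.θ d) := rfl
  have hp' : (0 : ℝ) ≤ α * (p - 1) :=
    mul_nonneg hα (sub_nonneg.2 (by exact_mod_cast hp))
  have h3 := mul_le_mul_of_nonneg_left hedge hp'
  rw [← abs_of_nonneg hp', ← abs_mul, abs_of_nonneg hp'] at h3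
  have h4 := mul_nonneg hα h.mcp_nonneg
  rw [e1, e2]
  rw [abs_le] at key h3 ⊢
  constructor <;> nlinarith [key.1, key.2, h3.1, h3.2]

end Crest.Agent.R141
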