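import Crest.Agent.R141.Poisson

/-!
# Row 141: definitions linking the measure-theoretic functionals with the finite ones
-/

set_option autoImplicit false

namespace Crest.Agent.R141

open Finset MeasureTheory Crest.ProbabilityR.Diluted
open scoped BigOperators

/-- The unit cube of the uniform variables of one label. -/
abbrev Cube (r : ℕ) : Type := Fin (r + 1) → unitInterval

/-- Lebesgue measure on the cube. -/
noncomputable def cubeVol (r : ℕ) : Measure (Cube r) :=
  Measure.pi fun _ : Fin (r + 1) => (volume : Measure unitInterval)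

/-- The exponents `m 1, …, m r`. -/
def Expo.fin {r : ℕ} (e : Expo r) : Fin r → ℝ := fun d => e.m (d + 1)

/-- Mean of `exp w` for independent spins with magnetisations `t l`. -/
noncomputable def spinMean {L : Type} [Fintype L] [DecidableEq L] (w : (L → Bool) → ℝ)
    (t : L → ℝ) : ℝ :=
  ∑ s : L → Bool, Real.exp (w s) * ∏ l, (1 + t l * spinVal (s l)) / 2

/-- Expected log nested power mean of `exp w` for the magnetisation function `T`. -/
noncomputable def valT {r : ℕ} (m : Fin r → ℝ) (T : Cube r → ℝ) {L : Type} [Fintype L]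
    [DecidableEq L] (w : (L → Bool) → ℝ) : ℝ :=
  ∫ u, Real.log (powerMeans m (fun u' : L → Cube r => spinMean w fun l => T (u' l)) u)
    ∂(uniformArrays L r)

/-- The cavity functional for finite disorder and a magnetisation function. -/
noncomputable def Dis.PT {p : ℕ} {D H : Type} [Fintype D] [Fintype H] (X : Dis p D H) (α : ℝ)
    {r : ℕ} (m : Fin r → ℝ) (T : Cube r → ℝ) : ℝ :=
  X.cav α (fun _ w => valT m T w) fun w => valT m T w

/-- The cell of a point of `[0,1]` in the grid of mesh `1/(n+1)`. -/
noncomputable def cell (n : ℕ) (u : unitInterval) : Fin (n + 1) :=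
  ⟨min ⌊(n + 1 : ℝ) * (u : ℝ)⌋₊ n, Nat.lt_succ_of_le (min_le_right _ _)⟩

/-- `δ` is a random variable with values in a finite type and law `μ`. -/
def HasFinLaw {Ω S : Type} [MeasurableSpace Ω] [Fintype S] (P : Measure Ω) (δ : Ω → S)
    (μ : FinLaw S) : Prop :=
  ∀ s, MeasurableSet (δ ⁻¹' {s}) ∧ P.real (δ ⁻¹' {s}) = μ.w s

end Crest.Agent.R141
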