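import Crest.Agent.R141.MDefs

/-!
# Row 141: tools for discretising the disorder (grids, laws of finite variables, normalisation)
-/

set_option autoImplicit false

namespace Crest.Agent.R141

open Finset MeasureTheory ProbabilityTheory Crest.ProbabilityR.Diluted Filter Topology
open scoped BigOperators

/-- The law of a finitely-valued variable. -/
noncomputable def mfLaw {Ω S : Type} [MeasurableSpace Ω] [Fintype S] (P : Measure Ω)
    [IsProbabilityMeasure P] (δ : Ω → S) (h : ∀ s, MeasurableSet (δ ⁻¹' {s})) : FinLaw S where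
  w s := P.real (δ ⁻¹' {s})
  nonneg _ := measureReal_nonneg
  sum_one := by
    rw [sum_measureReal_preimage_singleton _ fun s _ => h s]
    simp

theorem mf_integral {Ω S : Type} [MeasurableSpace Ω] [Fintype S] {P : Measure Ω}
    [IsProbabilityMeasure P] {δ : Ω → S} {μ : FinLaw S} (h : HasFinLaw P δ μ) (F : S → ℝ) :
    ∫ ω, F (δ ω) ∂P = μ.E F := by
  classical
  have : (fun ω => F (δ ω)) = fun ω => ∑ s, (δ ⁻¹' {s}).indicator (fun _ => F s) ω := by
    funext ω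
    rw [Finset.sum_eq_single (δ ω)]
    · simp
    · intro s _ hs
      exact Set.indicator_of_notMem (by simpa using hs.symm) _
    · simp
  rw [this, integral_finsetSum _ fun s _ => (integrable_const _).indicator (h s).1]
  refine sum_congr rfl fun s _ => ?_
  rw [integral_indicator_const _ (h s).1, (h s).2, smul_eq_mul]

/-- Grid values in `[-1, 1]`. -/
noncomputable def gval (n : ℕ) (k : Fin (2 * n + 1)) : ℝ := (k : ℝ) / n - 1

/-- Rounding up to the grid. -/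
noncomputable def gup (n : ℕ) (x : ℝ) : Fin (2 * n + 1) :=
  ⟨min ⌈(n : ℝ) * (x + 1)⌉₊ (2 * n), Nat.lt_succ_of_le (min_le_right _ _)⟩

theorem abs_gval_le {n : ℕ} (hn : 1 ≤ n) (k : Fin (2 * n + 1)) : |gval n k| ≤ 1 := by
  have hn0 : (0 : ℝ) < n := by exact_mod_cast hn
  have h1 : (k : ℝ) ≤ 2 * n := by exact_mod_cast Nat.lt_succ_iff.1 k.2
  have h2 : (k : ℝ) / n ≤ 2 := by rw [div_le_iff₀ hn0]; exact h1
  have h3 : 0 ≤ (k : ℝ) / n := by positivity
  rw [gval, abs_le]; constructor <;> linarith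

theorem gval_gup {n : ℕ} (hn : 1 ≤ n) {x : ℝ} (hx : |x| ≤ 1) :
    x ≤ gval n (gup n x) ∧ gval n (gup n x) ≤ x + 1 / n := by
  have hn0 : (0 : ℝ) < n := by exact_mod_cast hn
  obtain ⟨h1, h2⟩ := abs_le.1 hx
  have h3 : ⌈(n : ℝ) * (x + 1)⌉₊ ≤ 2 * n := Nat.ceil_le.2 (by push_cast; nlinarith)
  have h4 : 0 ≤ (n : ℝ) * (x + 1) := mul_nonneg hn0.le (by linarith)
  have h5 := Nat.le_ceil ((n : ℝ) * (x + 1))
  have h6 := (Nat.ceil_lt_add_one h4).le
  simp only [gval, gup, min_eq_left h3]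
  constructor
  · rw [le_sub_iff_add_le, le_div_iff₀ hn0]; linarith
  · rw [sub_le_iff_le_add, div_le_iff₀ hn0]
    have : (x + 1 / n + 1) * n = n * (x + 1) + 1 := by field_simp; ring
    linarith

theorem abs_gval_gup_sub {n : ℕ} (hn : 1 ≤ n) {x : ℝ} (hx : |x| ≤ 1) :
    |gval n (gup n x) - x| ≤ 1 / n := by
  obtain ⟨h1, h2⟩ := gval_gup hn hx
  have : (0 : ℝ) ≤ 1 / n := by positivity
  rw [abs_le]; constructor <;> linarith

theorem measurableSet_gup (n : ℕ) (k : Fin (2 * n + 1)) : MeasurableSet (gup n ⁻¹' {k}) := by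
  have h : Measurable fun x : ℝ => min ⌈(n : ℝ) * (x + 1)⌉₊ (2 * n) :=
    (Nat.measurable_ceil.comp (by fun_prop)).min measurable_const
  have : gup n ⁻¹' {k} = (fun x : ℝ => min ⌈(n : ℝ) * (x + 1)⌉₊ (2 * n)) ⁻¹' {(k : ℕ)} := by
    ext x; simp [gup, Fin.ext_iff]
  rw [this]
  exact h (measurableSet_singleton _)

theorem mf_abs_prod_sub_le {ι : Type*} (s : Finset ι) {a b : ι → ℝ} (ha : ∀ i, |a i| ≤ 1)
    (hb : ∀ i, |b i| ≤ 1) : |∏ i ∈ s, a i - ∏ i ∈ s, b i| ≤ ∑ i ∈ s, |a i - b i| := by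
  classical
  induction s using Finset.induction_on with
  | empty => simp
  | insert i s hi ih =>
    rw [prod_insert hi, prod_insert hi, sum_insert hi]
    have h1 : |∏ i ∈ s, b i| ≤ 1 := by
      rw [Finset.abs_prod]; exact prod_le_one (fun _ _ => abs_nonneg _) fun i _ => hb i
    have : a i * ∏ i ∈ s, a i - b i * ∏ i ∈ s, b i =
        a i * (∏ i ∈ s, a i - ∏ i ∈ s, b i) + (a i - b i) * ∏ i ∈ s, b i := by ring
    rw [this]
    refine (abs_add_le _ _).trans ?_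
    rw [abs_mul, abs_mul]
    have h2 := mul_le_mul (ha i) ih (abs_nonneg _) zero_le_one
    have h3 := mul_le_of_le_one_right (abs_nonneg (a i - b i)) h1
    linarith

theorem mf_log_mono {x y ρ : ℝ} (hx : |x| < 1) (hy : |y| < 1) (h0 : 0 ≤ ρ) (h1 : ρ ≤ 1) :
    |Real.log (1 + ρ * x) - Real.log (1 + ρ * y)| ≤ |Real.log (1 + x) - Real.log (1 + y)| := by
  wlog hxy : y ≤ x generalizing x y
  · rw [abs_sub_comm, abs_sub_comm (Real.log (1 + x))]
    exact this hy hx (le_of_not_ge hxy)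
  obtain ⟨hx1, hx2⟩ := abs_lt.1 hx
  obtain ⟨hy1, hy2⟩ := abs_lt.1 hy
  have a1 : 0 < 1 + ρ * x := by nlinarith
  have a2 : 0 < 1 + ρ * y := by nlinarith
  have a3 : 0 < 1 + x := by linarith
  have a4 : 0 < 1 + y := by linarith
  rw [abs_of_nonneg (sub_nonneg.2 (Real.log_le_log a2 (by nlinarith))),
    abs_of_nonneg (sub_nonneg.2 (Real.log_le_log a4 (by linarith))), sub_le_sub_iff,
    ← Real.log_mul a1.ne' a4.ne', ← Real.log_mul a3.ne' a2.ne']
  exact Real.log_le_log (mul_pos a1 a4) (by nlinarith)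

theorem mf_log_lip {x y ρ : ℝ} (hx : |x| ≤ 1) (hy : |y| ≤ 1) (h0 : 0 ≤ ρ) (h1 : ρ < 1) :
    |Real.log (1 + ρ * x) - Real.log (1 + ρ * y)| ≤ |x - y| / (1 - ρ) := by
  wlog hxy : y ≤ x generalizing x y
  · rw [abs_sub_comm, abs_sub_comm x]
    exact this hy hx (le_of_not_ge hxy)
  obtain ⟨hx1, hx2⟩ := abs_le.1 hx
  obtain ⟨hy1, hy2⟩ := abs_le.1 hy
  have a1 : 0 < 1 + ρ * x := by nlinarith
  have a2 : 1 - ρ ≤ 1 + ρ * y := by nlinarith
  have a3 : 0 < 1 + ρ * y := by linarith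
  rw [abs_of_nonneg (sub_nonneg.2 (Real.log_le_log a3 (by nlinarith))),
    abs_of_nonneg (sub_nonneg.2 hxy), ← Real.log_div a1.ne' a3.ne']
  refine (Real.log_le_sub_one_of_pos (div_pos a1 a3)).trans ?_
  have : (1 + ρ * x) / (1 + ρ * y) - 1 = ρ * (x - y) / (1 + ρ * y) := by field_simp; ring
  rw [this]
  exact div_le_div₀ (by linarith) (by nlinarith) (by linarith) a2

/-- Discretisation of the field. -/
theorem mf_field (ν : Measure ℝ) [IsProbabilityMeasure ν] (hν : Integrable (fun x : ℝ => x) ν)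
    {η : ℝ} (hη : 0 < η) : ∃ (m : ℕ) (g : ℝ → Fin (2 * m + 1)) (h : Fin (2 * m + 1) → ℝ),
      (∀ k, MeasurableSet (g ⁻¹' {k})) ∧ ∫ x, |x - h (g x)| ∂ν ≤ η := by
  have hlim : Tendsto (fun L : ℕ => ∫ x, (if |x| ≤ (L : ℝ) + 1 then 0 else 2 * |x|) ∂ν) atTop
      (𝓝 (∫ _x, (0 : ℝ) ∂ν)) := by
    refine tendsto_integral_of_dominated_convergence (fun x => 2 * |x|) (fun L => ?_)
      (hν.abs.const_mul 2) (fun L => ae_of_all _ fun x => ?_) (ae_of_all _ fun x => ?_)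
    · exact (Measurable.ite (measurableSet_le (by fun_prop) measurable_const) measurable_const
        (by fun_prop)).aestronglyMeasurable
    · split_ifs
      · simp
      · rw [Real.norm_eq_abs, abs_of_nonneg (by positivity)]
    · refine tendsto_const_nhds.congr' ?_
      obtain ⟨L₀, hL₀⟩ := exists_nat_ge |x|
      filter_upwards [eventually_ge_atTop L₀] with L hL
      have : (L₀ : ℝ) ≤ L := by exact_mod_cast hL
      rw [if_pos (by linarith)]
  rw [integral_zero] at hlim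
  obtain ⟨L, hL⟩ := (hlim.eventually (gt_mem_nhds (half_pos hη))).exists
  set R : ℝ := (L : ℝ) + 1 with hR
  have hR0 : 0 < R := by positivity
  obtain ⟨m, hm⟩ := exists_nat_ge (R / (η / 2) + 1)
  have hq : 0 < R / (η / 2) := by positivity
  have hm0 : (1 : ℝ) ≤ m := by linarith
  have hm1 : 1 ≤ m := by exact_mod_cast hm0
  refine ⟨m, fun x => gup m (x / R), fun k => R * gval m k, fun k =>
    (measurableSet_gup m k).preimage (by fun_prop), ?_⟩
  have hint : Integrable (fun x : ℝ => if |x| ≤ R then 0 else 2 * |x|) ν := by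
    refine (hν.abs.const_mul 2).mono' (Measurable.ite (measurableSet_le (by fun_prop)
      measurable_const) measurable_const (by fun_prop)).aestronglyMeasurable
      (ae_of_all _ fun x => ?_)
    split_ifs
    · simp
    · rw [Real.norm_eq_abs, abs_of_nonneg (by positivity)]
  have hRm : R * (1 / m) ≤ η / 2 := by
    have h1 : R / (η / 2) ≤ m := by linarith
    rw [div_le_iff₀ (half_pos hη)] at h1
    rw [mul_one_div, div_le_iff₀ (by linarith)]; linarith
  calc ∫ x, |x - R * gval m (gup m (x / R))| ∂ν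
      ≤ ∫ x, ((if |x| ≤ R then 0 else 2 * |x|) + η / 2) ∂ν := by
        refine integral_mono_of_nonneg (ae_of_all _ fun x => abs_nonneg _)
          (hint.add (integrable_const _)) (ae_of_all _ fun x => ?_)
        simp only
        split_ifs with hx
        · have h1 : |x / R| ≤ 1 := by rw [abs_div, abs_of_pos hR0, div_le_one hR0]; exact hx
          have h2 := abs_gval_gup_sub hm1 h1
          have h3 : x - R * gval m (gup m (x / R)) = -(R * (gval m (gup m (x / R)) - x / R)) := by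
            field_simp; ring
          rw [h3, abs_neg, abs_mul, abs_of_pos hR0]
          have := mul_le_mul_of_nonneg_left h2 hR0.le
          linarith
        · have h1 := abs_sub x (R * gval m (gup m (x / R)))
          rw [abs_mul, abs_of_pos hR0] at h1
          have h2 := mul_le_of_le_one_right hR0.le (abs_gval_le hm1 (gup m (x / R)))
          have := not_le.1 hx
          linarith
    _ = (∫ x, (if |x| ≤ R then 0 else 2 * |x|) ∂ν) + η / 2 := by
        rw [integral_add hint (integrable_const _)]; simp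
    _ ≤ η := by linarith

/-- Probability of a box under the independence hypotheses. -/
theorem mf_box {Ω : Type} [MeasurableSpace Ω] {P : Measure Ω} {p : ℕ} (hp : 0 < p) {b : Ω → ℝ}
    {f : Fin p → Ω → Bool → ℝ} (hi : iIndepFun f P)
    (hd : ∀ l, IdentDistrib (f l) (f ⟨0, hp⟩) P P) (hbf : IndepFun b (fun ω l => f l ω) P)
    {A : Set ℝ} (hA : MeasurableSet A) {B : Fin p → Set (Bool → ℝ)} (hB : ∀ l, MeasurableSet (B l)) :
    P (b ⁻¹' A ∩ ⋂ l, f l ⁻¹' B l) = P (b ⁻¹' A) * ∏ l, P (f ⟨0, hp⟩ ⁻¹' B l) := by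
  have h1 := hbf.measure_inter_preimage_eq_mul A (Set.pi Set.univ B) hA (MeasurableSet.univ_pi hB)
  have h2 : (fun ω l => f l ω) ⁻¹' Set.pi Set.univ B = ⋂ l, f l ⁻¹' B l := by
    ext ω; simp
  rw [h2] at h1
  have h3 := hi.measure_inter_preimage_eq_mul univ (sets := B) fun l _ => hB l
  simp only [mem_univ, Set.iInter_true] at h3
  rw [h1, h3]
  congr 1
  exact prod_congr rfl fun l _ => (hd l).measure_mem_eq (hB l)

/-- An essential supremum, for a nonnegative variable with bounded "charged levels". -/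
theorem mf_ess {Ω : Type} [MeasurableSpace Ω] {P : Measure Ω} {X : Ω → ℝ} {K : ℝ}
    (h0 : P {ω | 0 < X ω} ≠ 0) (hK : ∀ t, 0 ≤ t → P {ω | t < X ω} ≠ 0 → t ≤ K) :
    ∃ c : ℝ, 0 < c ∧ (∀ᵐ ω ∂P, X ω ≤ c) ∧ ∀ t, 0 ≤ t → t < c → P {ω | t < X ω} ≠ 0 := by
  set S : Set ℝ := {t | 0 ≤ t ∧ P {ω | t < X ω} ≠ 0} with hS
  have hne : S.Nonempty := ⟨0, le_rfl, h0⟩
  have hb : BddAbove S := ⟨K, fun t ht => hK t ht.1 ht.2⟩
  have hc0 : 0 ≤ sSup S := le_csSup hb ⟨le_rfl, h0⟩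
  have hae : ∀ᵐ ω ∂P, X ω ≤ sSup S := by
    have : ∀ k : ℕ, ∀ᵐ ω ∂P, X ω ≤ sSup S + 1 / (k + 1 : ℝ) := by
      intro k
      rw [ae_iff]
      simp only [not_le]
      by_contra h
      have hk : (0 : ℝ) < 1 / (k + 1 : ℝ) := by positivity
      have := le_csSup hb (show sSup S + 1 / (k + 1 : ℝ) ∈ S from ⟨by linarith, h⟩)
      linarith
    filter_upwards [ae_all_iff.2 this] with ω hω
    refine le_of_forall_pos_le_add fun ε hε => ?_
    obtain ⟨k, hk⟩ := exists_nat_one_div_lt hε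
    linarith [hω k]
  refine ⟨sSup S, lt_of_le_of_ne hc0 fun h => h0 ?_, hae, fun t _ ht => ?_⟩
  · rw [← h, ae_iff] at hae
    simpa only [not_le] using hae
  · obtain ⟨s, hs, hts⟩ := exists_lt_of_lt_csSup hne ht
    exact fun h => hs.2 (measure_mono_null (fun ω (hω : s < X ω) => hts.trans hω) h)

theorem mf_pos_level {Ω : Type} [MeasurableSpace Ω] {P : Measure Ω} {X : Ω → ℝ}
    (h0 : P {ω | 0 < X ω} ≠ 0) : ∃ t : ℝ, 0 < t ∧ P {ω | t < X ω} ≠ 0 := by
  by_contra h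
  push Not at h
  refine h0 (measure_mono_null (t := ⋃ k : ℕ, {ω | 1 / (k + 1 : ℝ) < X ω}) (fun ω hω => ?_)
    (measure_iUnion_null fun k => h _ (by positivity)))
  obtain ⟨k, hk⟩ := exists_nat_one_div_lt (show 0 < X ω from hω)
  exact Set.mem_iUnion.2 ⟨k, hk⟩

/-- Normalisation: the factors may be taken bounded by one. -/
theorem mf_norm {Ω : Type} [MeasurableSpace Ω] {P : Measure Ω} [IsProbabilityMeasure P] {p : ℕ}
    (hp : 0 < p) {b : Ω → ℝ} {f : Fin p → Ω → Bool → ℝ} (hb : Measurable b)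
    (hf : ∀ l, Measurable (f l)) (hi : iIndepFun f P)
    (hd : ∀ l, IdentDistrib (f l) (f ⟨0, hp⟩) P P) (hbf : IndepFun b (fun ω l => f l ω) P)
    (hlt : ∀ᵐ ω ∂P, ∀ s : Fin p → Bool, |b ω * ∏ l, f l ω (s l)| < 1)
    (hmom : ∀ n : ℕ, 1 ≤ n → 0 ≤ ∫ ω, (-b ω) ^ n ∂P) :
    ∃ (b' : Ω → ℝ) (f' : Fin p → Ω → Bool → ℝ), Measurable b' ∧ (∀ l, Measurable (f' l)) ∧
      iIndepFun f' P ∧ (∀ l, IdentDistrib (f' l) (f' ⟨0, hp⟩) P P) ∧
      IndepFun b' (fun ω l => f' l ω) P ∧ (∀ᵐ ω ∂P, |b' ω| ≤ 1) ∧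
      (∀ᵐ ω ∂P, ∀ l s, |f' l ω s| ≤ 1) ∧ (∀ n : ℕ, 1 ≤ n → 0 ≤ ∫ ω, (-b' ω) ^ n ∂P) ∧
      ∀ᵐ ω ∂P, ∀ s : Fin p → Bool, b' ω * ∏ l, f' l ω (s l) = b ω * ∏ l, f l ω (s l) := by
  set Fm : (Bool → ℝ) → ℝ := fun g => max |g true| |g false| with hFm
  have hFmm : Measurable Fm := by fun_prop
  have hFle : ∀ g s, |g s| ≤ Fm g := fun g s => by
    cases s
    · exact le_max_right _ _
    · exact le_max_left _ _
  -- general rescaling
  have scale : ∀ x y : ℝ, 0 ≤ x → (∀ᵐ ω ∂P, |x * b ω| ≤ 1) →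
      (∀ᵐ ω ∂P, ∀ l s, |y * f l ω s| ≤ 1) →
      (∀ᵐ ω ∂P, ∀ s : Fin p → Bool,
        x * b ω * ∏ l, y * f l ω (s l) = b ω * ∏ l, f l ω (s l)) →
      ∃ (b' : Ω → ℝ) (f' : Fin p → Ω → Bool → ℝ), Measurable b' ∧ (∀ l, Measurable (f' l)) ∧
      iIndepFun f' P ∧ (∀ l, IdentDistrib (f' l) (f' ⟨0, hp⟩) P P) ∧
      IndepFun b' (fun ω l => f' l ω) P ∧ (∀ᵐ ω ∂P, |b' ω| ≤ 1) ∧
      (∀ᵐ ω ∂P, ∀ l s, |f' l ω s| ≤ 1) ∧ (∀ n : ℕ, 1 ≤ n → 0 ≤ ∫ ω, (-b' ω) ^ n ∂P) ∧
      ∀ᵐ ω ∂P, ∀ s : Fin p → Bool, b' ω * ∏ l, f' l ω (s l) = b ω * ∏ l, f l ω (s l) := by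
    intro x y hx h1 h2 h3
    have hm : Measurable fun (g : Bool → ℝ) (s : Bool) => y * g s := by fun_prop
    refine ⟨fun ω => x * b ω, fun l ω s => y * f l ω s, by fun_prop, fun l => hm.comp (hf l),
      hi.comp (fun _ g s => y * g s) fun _ => hm, fun l => (hd l).comp hm,
      hbf.comp (φ := fun a => x * a) (ψ := fun (g : Fin p → Bool → ℝ) l s => y * g l s)
        (by fun_prop) (by fun_prop), h1, h2, fun n hn => ?_, h3⟩
    have : (fun ω => (-(x * b ω)) ^ n) = fun ω => x ^ n * (-b ω) ^ n := by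
      funext ω; rw [← mul_pow]; ring
    rw [this, integral_const_mul]
    exact mul_nonneg (pow_nonneg hx n) (hmom n hn)
  by_cases hb0 : P {ω | 0 < |b ω|} = 0
  · refine scale 0 0 le_rfl (by simp) (by simp) ?_
    have : ∀ᵐ ω ∂P, ¬ 0 < |b ω| := by rw [ae_iff]; simpa using hb0
    filter_upwards [this] with ω hω s
    have : b ω = 0 := by simpa using hω
    simp [this]
  by_cases hf0 : P {ω | 0 < Fm (f ⟨0, hp⟩ ω)} = 0
  · refine scale 0 0 le_rfl (by simp) (by simp) ?_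
    have : ∀ᵐ ω ∂P, ¬ 0 < Fm (f ⟨0, hp⟩ ω) := by rw [ae_iff]; simpa only [not_not] using hf0
    filter_upwards [this] with ω hω s
    have h1 : f ⟨0, hp⟩ ω (s ⟨0, hp⟩) = 0 :=
      abs_nonpos_iff.1 ((hFle _ _).trans (not_lt.1 hω))
    rw [zero_mul, zero_mul, Finset.prod_eq_zero (mem_univ ⟨0, hp⟩) h1, mul_zero]
  have key : ∀ t t' : ℝ, 0 ≤ t → 0 ≤ t' → P {ω | t < Fm (f ⟨0, hp⟩ ω)} ≠ 0 →
      P {ω | t' < |b ω|} ≠ 0 → t' * t ^ p ≤ 1 := by
    intro t t' ht ht' h1 h2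
    have hbox := mf_box hp hi hd hbf (A := {x | t' < |x|}) (B := fun _ => {g | t < Fm g})
      (measurableSet_lt measurable_const (by fun_prop))
      (fun _ => measurableSet_lt measurable_const hFmm)
    have hne : P (b ⁻¹' {x | t' < |x|} ∩ ⋂ l, f l ⁻¹' {g | t < Fm g}) ≠ 0 := by
      rw [hbox]
      exact mul_ne_zero h2 (prod_ne_zero_iff.2 fun l _ => h1)
    by_contra hcon
    refine hne (measure_mono_null (fun ω hω => ?_) (ae_iff.1 hlt))
    obtain ⟨hω1, hω2⟩ := hω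
    have hω3 : ∀ l, ∃ s, t < |f l ω s| := fun l => by
      have : t < Fm (f l ω) := Set.mem_iInter.1 hω2 l
      rcases lt_max_iff.1 this with h | h
      exacts [⟨_, h⟩, ⟨_, h⟩]
    choose s hs using hω3
    intro hall
    have h3 := hall s
    rw [abs_mul, Finset.abs_prod] at h3
    have h4 : t ^ p ≤ ∏ l, |f l ω (s l)| := by
      calc t ^ p = ∏ _l : Fin p, t := by simp
        _ ≤ _ := prod_le_prod (fun _ _ => ht) fun l _ => (hs l).le
    have h5 : t' * t ^ p ≤ |b ω| * ∏ l, |f l ω (s l)| :=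
      mul_le_mul (le_of_lt hω1) h4 (pow_nonneg ht _) (abs_nonneg _)
    exact hcon (by linarith)
  obtain ⟨t₀, ht₀, ht₀'⟩ := mf_pos_level hf0
  obtain ⟨t₁, ht₁, ht₁'⟩ := mf_pos_level hb0
  obtain ⟨β, hβ, hβae, hβl⟩ := mf_ess (K := 1 / t₀ ^ p) hb0 fun t ht h => by
    rw [le_div_iff₀ (by positivity)]; exact key t₀ t ht₀.le ht ht₀' h
  obtain ⟨F, hF, hFae, hFl⟩ := mf_ess (K := max 1 (1 / t₁)) hf0 fun t ht h => by
    by_cases h1 : t ≤ 1
    · exact le_max_of_le_left h1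
    · refine le_max_of_le_right ?_
      have h2 := key t t₁ ht ht₁.le h ht₁'
      have h3 : t ≤ t ^ p := le_self_pow₀ (not_le.1 h1).le hp.ne'
      rw [le_div_iff₀ ht₁]; nlinarith
  have hβF : β * F ^ p ≤ 1 := by
    have hc : Tendsto (fun l : ℝ => (l * β) * (l * F) ^ p) (𝓝[<] 1) (𝓝 ((1 * β) * (1 * F) ^ p)) :=
      (Continuous.tendsto (by fun_prop) 1).mono_left nhdsWithin_le_nhds
    rw [one_mul, one_mul] at hc
    refine le_of_tendsto hc ?_
    filter_upwards [Ioo_mem_nhdsLT (show (0 : ℝ) < 1 by norm_num)] with l hl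
    exact key _ _ (by have := hl.1; positivity) (by have := hl.1; positivity)
      (hFl _ (by have := hl.1; positivity) (by nlinarith [hl.2]))
      (hβl _ (by have := hl.1; positivity) (by nlinarith [hl.2]))
  refine scale (F ^ p) F⁻¹ (by positivity) ?_ ?_ (ae_of_all _ fun ω s => ?_)
  · filter_upwards [hβae] with ω hω
    rw [abs_mul, abs_of_pos (by positivity)]
    nlinarith [pow_pos hF p]
  · have : ∀ l, ∀ᵐ ω ∂P, Fm (f l ω) ≤ F := fun l =>
      (hd l).symm.ae_snd (p := fun g => Fm g ≤ F) (measurableSet_le hFmm measurable_const) hFae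
    filter_upwards [ae_all_iff.2 this] with ω hω l s
    rw [abs_mul, abs_of_pos (inv_pos.2 hF), inv_mul_le_iff₀ hF, mul_one]
    exact (hFle _ _).trans (hω l)
  · rw [prod_mul_distrib, prod_const, card_univ, Fintype.card_fin, inv_pow]
    field_simp

end Crest.Agent.R141
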