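import Crest.Agent.R141.MCouple
import Crest.Agent.R141.MFactorAux

/-!
# Row 141: a factorized law is approximated by finite factorized models

Recipe. Fields: `g x` = rounding of the clipped `x` to a finite grid; dominated convergence; `πh s = ν.real (g ⁻¹' {s})`.
Interactions: `θ ω s = log (a (1 + u s))`, `u s = b ∏ f l (s l)`, `|u s| < 1` a.s. (1) For `ρ ∈ (0,1)` let `θρ s = log (1 + ρ u s)`;
`|log ((1+ρx)/(1+ρy))| ≤ |log ((1+x)/(1+y))|` for `|x|,|y| < 1`; with `c' = θ s₀ - θρ s₀` (any fixed `s₀`),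
`‖θ - θρ - c'‖ ≤ 4 ‖θ‖` and `→ 0` a.s. as `ρ → 1`: dominated convergence. (2) Boundedness: `Fm = max_s |f 0 s|`. If
`P (Fm > 0) = 0` or `P (|b| > 0) = 0` then `u = 0` a.s. (`p ≥ 1`): take the trivial model. Otherwise, whenever `P (Fm > t) > 0` and
`P (|b| > t') > 0` (`t, t' ≥ 0`), independence and identical distribution give `P (|b| > t', all max|f l| > t) > 0`, so `t' t^p < 1`.
Put `F* = sSup {t ≥ 0 | P (Fm > t) > 0}`, `β*` likewise: finite, a.s. bounds, `β* F*^p ≤ 1`. (3) Round `f` towards zero on the grid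
`ℤ/n` (values `≤ F*` in absolute value) and round `-ρ b` UP (so `E (-b')^k ≥ ρ^k E (-b)^k ≥ 0` for odd `k`, trivial for even `k`);
`|b'| ≤ ρ β* + 1/n`; index types: finite sets of integers cut out by these bounds (clip on the null set). Then
`|b' ∏ f'| ≤ (1+ρ)/2` for large `n` and `|log (1 + b' ∏ f') - θρ| ≤ c/n` a.s. The law of `δ = (δ_b, δ_f ∘ f l)` is the product law by
independence (`IndepFun.measure_inter_preimage_eq_mul`, `iIndepFun.meas_iInter`, `IdentDistrib.measure_mem_eq`).
-/

set_option autoImplicit false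

namespace Crest.Agent.R141

open Finset MeasureTheory ProbabilityTheory Crest.ProbabilityR.Diluted Filter Topology
open scoped BigOperators

theorem mf_supNorm_eq {p : ℕ} (θ : Inter p) : supNorm θ = ‖θ‖ := by
  refine le_antisymm (ciSup_le fun s => norm_le_pi_norm θ s) ?_
  refine (pi_norm_le_iff_of_nonneg (Real.iSup_nonneg fun s => abs_nonneg _)).2 fun s => ?_
  exact le_ciSup (f := fun s => |θ s|) (Set.finite_range _).bddAbove s

/-- Damping the factor `b` by `ρ < 1`. -/
theorem mf_damp {Ω : Type} [MeasurableSpace Ω] {P : Measure Ω} [IsProbabilityMeasure P] {p : ℕ}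
    {a : Ω → ℝ} {u : Ω → (Fin p → Bool) → ℝ} (ha : Measurable a) (hu : Measurable u)
    (hlt : ∀ᵐ ω ∂P, 0 < a ω ∧ ∀ s, |u ω s| < 1)
    (hint : Integrable (fun ω => ‖fun s => Real.log (a ω * (1 + u ω s))‖) P) {η : ℝ} (hη : 0 < η) :
    ∃ (ρ : ℝ) (c : Ω → ℝ), 0 ≤ ρ ∧ ρ < 1 ∧ Integrable c P ∧
      Integrable (fun ω => ‖fun s => Real.log (a ω * (1 + u ω s)) - Real.log (1 + ρ * u ω s) - c ω‖) P ∧
      ∫ ω, ‖fun s => Real.log (a ω * (1 + u ω s)) - Real.log (1 + ρ * u ω s) - c ω‖ ∂P ≤ η := by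
  set s₀ : Fin p → Bool := fun _ => true
  set ρ : ℕ → ℝ := fun k => 1 - 1 / (k + 1 : ℝ) with hρ
  have hρ0 : ∀ k, 0 ≤ ρ k := fun k => sub_nonneg.2 (by
    rw [div_le_one (by positivity)]; linarith [Nat.cast_nonneg (α := ℝ) k])
  have hρ1 : ∀ k, ρ k < 1 := fun k => sub_lt_self _ (by positivity)
  have hρl : Tendsto ρ atTop (𝓝 1) := by
    have := tendsto_one_div_add_atTop_nhds_zero_nat.const_sub (1 : ℝ)
    rwa [sub_zero] at this
  set c : ℕ → Ω → ℝ := fun k ω => Real.log (a ω * (1 + u ω s₀)) - Real.log (1 + ρ k * u ω s₀)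
  set G : ℕ → Ω → ℝ := fun k ω =>
    ‖fun s => Real.log (a ω * (1 + u ω s)) - Real.log (1 + ρ k * u ω s) - c k ω‖ with hG
  have hus : ∀ s, Measurable fun ω => u ω s := fun s => (measurable_pi_apply s).comp hu
  have hGm : ∀ k, Measurable (G k) := fun k => by
    refine Measurable.norm (measurable_pi_lambda _ fun s => ?_)
    have := hus s
    have := hus s₀
    simp only [c]
    fun_prop
  have hrw : ∀ ω, (0 < a ω ∧ ∀ s, |u ω s| < 1) → ∀ k s,
      Real.log (a ω * (1 + u ω s)) - Real.log (1 + ρ k * u ω s) - c k ω =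
      (Real.log (1 + u ω s) - Real.log (1 + u ω s₀)) -
        (Real.log (1 + ρ k * u ω s) - Real.log (1 + ρ k * u ω s₀)) ∧
      Real.log (1 + u ω s) - Real.log (1 + u ω s₀) =
        Real.log (a ω * (1 + u ω s)) - Real.log (a ω * (1 + u ω s₀)) := by
    intro ω hω k s
    have h1 : ∀ s, 1 + u ω s ≠ 0 := fun s => by have := (abs_lt.1 (hω.2 s)).1; linarith
    simp only [c, Real.log_mul hω.1.ne' (h1 _)]
    constructor <;> ring
  have hbound : ∀ k, ∀ᵐ ω ∂P, ‖G k ω‖ ≤ 4 * ‖fun s => Real.log (a ω * (1 + u ω s))‖ := by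
    intro k
    filter_upwards [hlt] with ω hω
    rw [hG, norm_norm]
    refine (pi_norm_le_iff_of_nonneg (by positivity)).2 fun s => ?_
    rw [Real.norm_eq_abs, (hrw ω hω k s).1]
    have h1 := mf_log_mono (hω.2 s) (hω.2 s₀) (hρ0 k) (hρ1 k).le
    have h2 := abs_sub (Real.log (1 + u ω s) - Real.log (1 + u ω s₀))
      (Real.log (1 + ρ k * u ω s) - Real.log (1 + ρ k * u ω s₀))
    have h3 := abs_sub (Real.log (a ω * (1 + u ω s))) (Real.log (a ω * (1 + u ω s₀)))
    rw [← (hrw ω hω k s).2] at h3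
    have h4 := norm_le_pi_norm (fun s => Real.log (a ω * (1 + u ω s))) s
    have h5 := norm_le_pi_norm (fun s => Real.log (a ω * (1 + u ω s))) s₀
    rw [Real.norm_eq_abs] at h4 h5
    linarith
  have hlim : Tendsto (fun k => ∫ ω, G k ω ∂P) atTop (𝓝 (∫ _ω, (0 : ℝ) ∂P)) := by
    refine tendsto_integral_of_dominated_convergence _ (fun k => (hGm k).aestronglyMeasurable)
      (hint.const_mul 4) hbound ?_
    filter_upwards [hlt] with ω hω
    rw [hG, ← tendsto_zero_iff_norm_tendsto_zero, tendsto_pi_nhds]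
    intro s
    simp only [fun k => (hrw ω hω k s).1]
    have h1 : ∀ s, Tendsto (fun k => Real.log (1 + ρ k * u ω s)) atTop
        (𝓝 (Real.log (1 + u ω s))) := fun s => by
      have h2 : 1 + 1 * u ω s ≠ 0 := by have := (abs_lt.1 (hω.2 s)).1; linarith
      simpa using ((hρl.mul_const (u ω s)).const_add 1).log h2
    simpa using ((h1 s).sub (h1 s₀)).const_sub (Real.log (1 + u ω s) - Real.log (1 + u ω s₀))
  rw [integral_zero] at hlim
  obtain ⟨k, hk⟩ := (hlim.eventually (gt_mem_nhds hη)).exists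
  refine ⟨ρ k, c k, hρ0 k, hρ1 k, ?_,
    (hint.const_mul 4).mono' (hGm k).aestronglyMeasurable (hbound k), hk.le⟩
  have := hus s₀
  refine Integrable.sub (hint.mono' (by fun_prop : Measurable _).aestronglyMeasurable
    (ae_of_all _ fun ω => norm_le_pi_norm (fun s => Real.log (a ω * (1 + u ω s))) s₀)) ?_
  refine (integrable_const (1 / (1 - ρ k))).mono' (by fun_prop : Measurable _).aestronglyMeasurable ?_
  filter_upwards [hlt] with ω hω
  have h1 := mf_log_lip (hω.2 s₀).le (y := 0) (by simp) (hρ0 k) (hρ1 k)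
  simp only [mul_zero, add_zero, Real.log_one, sub_zero] at h1
  exact h1.trans (div_le_div_of_nonneg_right (hω.2 s₀).le (sub_pos.2 (hρ1 k)).le)

theorem exists_coupled {p : ℕ} (hp : Even p) (hp1 : 1 ≤ p) (μ : Measure (Inter p))
    [IsProbabilityMeasure μ] (ν : Measure ℝ) [IsProbabilityMeasure ν]
    (hμ : Integrable (fun θ => supNorm θ) μ) (hν : Integrable (fun x : ℝ => x) ν)
    (hfac : HasFactorization p μ) {η : ℝ} (hη : 0 < η) :
    ∃ (B F H : Type) (_ : Fintype B) (_ : Fintype F) (_ : Fintype H) (M : Model p B F H) (c : ℝ),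
      Coupled μ ν M.dis c η := by
  obtain ⟨Ω, _, P, _, a, b₀, f₀, ha, hb₀, hf₀, hi₀, hd₀, hbf₀, hlt, hmom₀, hmap⟩ := hfac
  have hp0 : 0 < p := hp1
  obtain ⟨b, f, hb, hf, hi, hd, hbf, hb1, hf1, hmom, heq⟩ := mf_norm hp0 hb₀ hf₀ hi₀ hd₀ hbf₀
    (hlt.mono fun ω hω => hω.2) fun n hn => (hmom₀ n hn).2
  set u : Ω → (Fin p → Bool) → ℝ := fun ω s => b₀ ω * ∏ l, f₀ l ω (s l) with hu
  have hum : Measurable u := measurable_pi_lambda _ fun s =>
    hb₀.mul (Finset.measurable_prod _ fun l _ => (measurable_pi_apply (s l)).comp (hf₀ l))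
  set θ : Ω → Inter p := fun ω s => Real.log (a ω * (1 + u ω s)) with hθ
  have hθm : Measurable θ := measurable_pi_lambda _ fun s => by
    have : Measurable fun ω => u ω s := (measurable_pi_apply s).comp hum
    simp only [hθ]; fun_prop
  have hint : Integrable (fun ω => ‖θ ω‖) P := by
    simp only [mf_supNorm_eq] at hμ
    rw [← hmap] at hμ
    exact (integrable_map_measure continuous_norm.aestronglyMeasurable hθm.aemeasurable).1 hμ
  obtain ⟨ρ, c, hρ0, hρ1, hc, hGi, hG⟩ := mf_damp ha hum hlt hint (half_pos hη)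
  obtain ⟨m, g, h, hg, hgη⟩ := mf_field ν hν hη
  have h1ρ : 0 < 1 - ρ := sub_pos.2 hρ1
  obtain ⟨n, hn⟩ := exists_nat_ge ((p + 1) / (1 - ρ) / (η / 2) + 1)
  have hq : 0 ≤ (p + 1) / (1 - ρ) / (η / 2) := by positivity
  have hn0 : (1 : ℝ) ≤ n := by linarith
  have hn1 : 1 ≤ n := by exact_mod_cast hn0
  set A : Fin (2 * n + 1) → Set ℝ := fun x => (fun t => -t) ⁻¹' (gup n ⁻¹' {x}) with hA
  have hAm : ∀ x, MeasurableSet (A x) := fun x => (measurableSet_gup n x).preimage measurable_neg
  set Bs : (Bool → Fin (2 * n + 1)) → Set (Bool → ℝ) := fun y =>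
    (fun (g : Bool → ℝ) s => gup n (g s)) ⁻¹' {y} with hBs
  have hBm : ∀ y, MeasurableSet (Bs y) := fun y => by
    have : Bs y = ⋂ s, (fun g : Bool → ℝ => g s) ⁻¹' (gup n ⁻¹' {y s}) := by
      ext g; simp [hBs, funext_iff]
    rw [this]
    exact MeasurableSet.iInter fun s => (measurableSet_gup n _).preimage (measurable_pi_apply s)
  have hδb : ∀ x, MeasurableSet ((fun ω => gup n (-b ω)) ⁻¹' {x}) := fun x => hb (hAm x)
  have hδf : ∀ y, MeasurableSet ((fun ω s => gup n (f ⟨0, hp0⟩ ω s)) ⁻¹' {y}) := fun y =>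
    hf _ (hBm y)
  let M : Model p (Fin (2 * n + 1)) (Bool → Fin (2 * n + 1)) (Fin (2 * m + 1)) :=
    { πb := mfLaw P _ hδb
      πf := mfLaw P _ hδf
      πh := mfLaw ν g hg
      b := fun x => -(ρ * gval n x)
      f := fun y s => gval n (y s)
      h := h
      ρ := ρ
      ρ_lt := hρ1
      bound := fun x y s => by
        rw [abs_mul, abs_neg, abs_mul, abs_of_nonneg hρ0, Finset.abs_prod, mul_assoc]
        refine mul_le_of_le_one_right hρ0 (mul_le_one₀ (abs_gval_le hn1 _) (by positivity) ?_)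
        exact prod_le_one (fun _ _ => abs_nonneg _) fun l _ => abs_gval_le hn1 _
      mom := fun k hk => by
        simp only [neg_neg, mul_pow]
        rw [FinLaw.E_smul]
        refine mul_nonneg (pow_nonneg hρ0 k) ?_
        rcases Nat.even_or_odd k with hk2 | hk2
        · exact FinLaw.E_nonneg _ fun x => hk2.pow_nonneg _
        · rw [← mf_integral (P := P) (δ := fun ω => gup n (-b ω)) fun x => ⟨hδb x, rfl⟩]
          refine (hmom k hk).trans (integral_mono_ae ?_ ?_ ?_)
          · refine (integrable_const (1 : ℝ)).mono'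
              (by fun_prop : Measurable _).aestronglyMeasurable ?_
            filter_upwards [hb1] with ω hω
            rw [Real.norm_eq_abs, abs_pow, abs_neg]
            exact pow_le_one₀ (abs_nonneg _) hω
          · refine (integrable_const (1 : ℝ)).mono' ?_ (ae_of_all _ fun ω => ?_)
            · let _ : MeasurableSpace (Fin (2 * n + 1)) := ⊤
              have h1 : Measurable fun ω => gup n (-b ω) := measurable_to_countable' hδb
              exact ((measurable_from_top (f := fun x => gval n x ^ k)).comp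
                h1).aestronglyMeasurable
            · rw [Real.norm_eq_abs, abs_pow]
              exact pow_le_one₀ (abs_nonneg _) (abs_gval_le hn1 _)
          · filter_upwards [hb1] with ω hω
            exact hk2.strictMono_pow.monotone (gval_gup hn1 (by rwa [abs_neg])).1
      sign := Or.inl hp }
  refine ⟨_, _, _, inferInstance, inferInstance, inferInstance, M, ∫ ω, c ω ∂P,
    ⟨Ω, inferInstance, P, inferInstance, θ, fun ω => (gup n (-b ω), fun l s => gup n (f l ω s)), c,
      hθm, hmap, hint, fun d => ?_, hc, rfl, ?_⟩, ⟨g, fun x => ⟨hg x, rfl⟩, hgη⟩⟩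
  · have : (fun ω => ((gup n (-b ω), fun l s => gup n (f l ω s)) :
        Fin (2 * n + 1) × (Fin p → Bool → Fin (2 * n + 1)))) ⁻¹' {d} =
        b ⁻¹' A d.1 ∩ ⋂ l, f l ⁻¹' Bs (d.2 l) := by
      ext ω; simp [hA, hBs, Prod.ext_iff, funext_iff]
    rw [this]
    refine ⟨(hb (hAm _)).inter (MeasurableSet.iInter fun l => hf l (hBm _)), ?_⟩
    rw [measureReal_def, mf_box hp0 hi hd hbf (hAm _) fun l => hBm _, ENNReal.toReal_mul,
      ENNReal.toReal_prod]
    rfl
  · have hn2 : (p + 1) * (1 / (n : ℝ)) / (1 - ρ) ≤ η / 2 := by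
      have h1 : (p + 1) / (1 - ρ) / (η / 2) ≤ n := by linarith
      rw [div_le_iff₀ (half_pos hη), div_le_iff₀ h1ρ] at h1
      rw [div_le_iff₀ h1ρ, mul_one_div, div_le_iff₀ (by linarith)]
      linarith
    refine le_trans (integral_mono_of_nonneg (ae_of_all _ fun ω => norm_nonneg _)
      (hGi.add (integrable_const (η / 2))) ?_) ?_
    · filter_upwards [hb1, hf1, heq, hlt] with ω hω1 hω2 hω3 hω4
      refine (pi_norm_le_iff_of_nonneg (add_nonneg (norm_nonneg _) (half_pos hη).le)).2 fun s => ?_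
      have h1 := norm_le_pi_norm
        (fun s => Real.log (a ω * (1 + u ω s)) - Real.log (1 + ρ * u ω s) - c ω) s
      set u' : ℝ := -gval n (gup n (-b ω)) * ∏ l, gval n (gup n (f l ω (s l))) with hu'
      have hpr : |∏ l, gval n (gup n (f l ω (s l)))| ≤ 1 := by
        rw [Finset.abs_prod]
        exact prod_le_one (fun _ _ => abs_nonneg _) fun l _ => abs_gval_le hn1 _
      have hu'1 : |u'| ≤ 1 := by
        rw [hu', abs_mul, abs_neg]
        exact mul_le_one₀ (abs_gval_le hn1 _) (abs_nonneg _) hpr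
      have hdiff : |u ω s - u'| ≤ (p + 1) * (1 / (n : ℝ)) := by
        have e1 : u ω s = b ω * ∏ l, f l ω (s l) := (hω3 s).symm
        have e2 := mf_abs_prod_sub_le univ (a := fun l => f l ω (s l))
          (b := fun l => gval n (gup n (f l ω (s l)))) (fun l => hω2 l _)
          fun l => abs_gval_le hn1 _
        have e3 : ∑ l, |f l ω (s l) - gval n (gup n (f l ω (s l)))| ≤ p * (1 / (n : ℝ)) := by
          calc _ ≤ ∑ _l : Fin p, 1 / (n : ℝ) := sum_le_sum fun l _ => by
                rw [abs_sub_comm]; exact abs_gval_gup_sub hn1 (hω2 l _)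
            _ = _ := by simp
        have e4 := abs_gval_gup_sub hn1 (x := -b ω) (by rwa [abs_neg])
        have e5 : u ω s - u' = b ω * (∏ l, f l ω (s l) - ∏ l, gval n (gup n (f l ω (s l)))) +
            (gval n (gup n (-b ω)) - -b ω) * ∏ l, gval n (gup n (f l ω (s l))) := by
          rw [e1, hu']; ring
        rw [e5]
        refine (abs_add_le _ _).trans ?_
        rw [abs_mul, abs_mul]
        have e6 := mul_le_mul hω1 (e2.trans e3) (abs_nonneg _) zero_le_one
        have e7 := mul_le_mul e4 hpr (abs_nonneg _) (by positivity)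
        linarith
      have h2 := (mf_log_lip (hω4.2 s).le hu'1 hρ0 hρ1).trans
        ((div_le_div_of_nonneg_right hdiff h1ρ.le).trans hn2)
      have h3 : (θ ω - M.dis.θ (gup n (-b ω), fun l s => gup n (f l ω s)) - fun _ => c ω : Inter p) s =
          (Real.log (a ω * (1 + u ω s)) - Real.log (1 + ρ * u ω s) - c ω) +
            (Real.log (1 + ρ * u ω s) - Real.log (1 + ρ * u')) := by
        have : M.dis.θ (gup n (-b ω), fun l s => gup n (f l ω s)) s = Real.log (1 + ρ * u') := by
          show Real.log (1 + -(ρ * gval n (gup n (-b ω))) * ∏ l, gval n (gup n (f l ω (s l)))) = _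
          rw [hu']; congr 2; ring
        simp only [Pi.sub_apply, this, hθ]; ring
      rw [h3, Real.norm_eq_abs]
      rw [Real.norm_eq_abs] at h1
      exact (abs_add_le _ _).trans (add_le_add h1 h2)
    · rw [integral_add' hGi (integrable_const _)]
      simp only [integral_const, probReal_univ, smul_eq_mul, one_mul]
      linarith

end Crest.Agent.R141
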