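import Crest.Agent.R141.MDefs

/-!
# Row 141: basic properties of `powerMeans` and `valT`

Recipes. Work with the class `Good C W := Measurable W ∧ ∀ u, exp (-C) ≤ W u ∧ W u ≤ exp C`; `pmStep m lvl`
(`0 < m`) preserves it (`StronglyMeasurable.integral_prod_right'` for the measurability), is monotone and
positively homogeneous; induct on the list in `powerMeans` (`List.foldr`, any list of levels). `L¹`-continuity of one
step: `∫ |pmStep W - pmStep W'| ≤ c(m, C) ∫ |W - W'|`, because `(u, v) ↦ (u with level lvl replaced by v)` maps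
`uniformArrays ⊗ pi volume` to `uniformArrays` (measure preserving; e.g. `Measure.pi_eq`-type extensionality on boxes, or
`measurePreserving_piFinSuccAbove`/`Function.update` lemmas `MeasureTheory.measurePreserving_update…`; alternatively avoid it:
prove by induction that `|PM W u - PM W' u| ≤ c * (nested integral of |W - W'|)` and that the nested integral integrates to
`∫ |W - W'|`). `|spinMean w t - spinMean w t'| ≤ exp C * ∑ l, |t l - t' l|`; `tilt x s = (1 + tanh x * spinVal s)/2`.
-/

set_option autoImplicit false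
set_option linter.unusedSectionVars false

namespace Crest.Agent.R141

open Finset MeasureTheory Crest.ProbabilityR.Diluted
open scoped BigOperators

theorem Expo.fin_admissible {r : ℕ} (e : Expo r) : AdmissibleExponents e.fin := by
  have hlt : ∀ i j : ℕ, i < j → j ≤ r + 1 → e.m i < e.m j := fun i j hij hj =>
    (e.lt i (by omega)).trans_le (e.mono hij hj)
  refine ⟨fun a b hab => hlt _ _ (by simpa using hab) (by omega), fun d => ⟨?_, ?_⟩⟩
  · rw [← e.zero]; exact hlt _ _ (by omega) (by omega)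
  · rw [← e.top]; exact hlt _ _ (by omega) le_rfl

theorem exists_expo {r : ℕ} {m : Fin r → ℝ} (hm : AdmissibleExponents m) :
    ∃ e : Expo r, e.fin = m := by
  refine ⟨⟨fun j => if j = 0 then 0 else if h : j - 1 < r then m ⟨j - 1, h⟩ else 1, by simp,
    by simp, fun j hj => ?_⟩, ?_⟩
  · simp only [Nat.add_eq_zero_iff, one_ne_zero, and_false, if_false, Nat.add_sub_cancel]
    by_cases h0 : j = 0
    · rw [if_pos h0]
      split_ifs
      · exact (hm.2 _).1
      · exact one_pos
    · rw [if_neg h0, dif_pos (by omega)]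
      split_ifs
      · exact hm.1 (by simp only [Fin.mk_lt_mk]; omega)
      · exact (hm.2 _).2
  · funext d
    simp [Expo.fin]

theorem MPow_tilt (x : ℝ) (s : Bool) : tilt x s = (1 + Real.tanh x * spinVal s) / 2 := by
  have hc := (Real.cosh_pos x).ne'
  unfold tilt spinVal
  rw [Real.tanh_eq_sinh_div_cosh]
  cases s
  · simp only [Bool.false_eq_true, if_false, mul_neg, mul_one]
    rw [← Real.cosh_sub_sinh]
    field_simp
    ring
  · simp only [if_true, mul_one]
    rw [← Real.cosh_add_sinh]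
    field_simp

theorem MPow_tilt_pos (x : ℝ) (s : Bool) : 0 < tilt x s :=
  div_pos (Real.exp_pos _) (mul_pos two_pos (Real.cosh_pos x))

theorem edgeTerm_eq {p : ℕ} (θ : Inter p) (x : Fin p → ℝ) :
    edgeTerm θ x = spinMean θ fun l => Real.tanh (x l) := by
  simp only [edgeTerm, spinMean, MPow_tilt]

theorem siteTerm_eq {p k : ℕ} (h : ℝ) (θs : Fin k → Inter p) (x : Fin k → Fin (p - 1) → ℝ) :
    siteTerm h θs x = spinMean (siteW h θs) fun a => Real.tanh (x a.1 a.2) := by
  have h1 : ∀ s, Real.exp (siteW h θs s) = (1 / 2) * ∑ ε : Bool,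
      Real.exp (h * spinVal ε + ∑ j : Fin k, θs j (lastLeg (fun l => s (j, l)) ε)) := fun s =>
    Real.exp_log (mul_pos (by norm_num)
      (Finset.sum_pos (fun _ _ => Real.exp_pos _) Finset.univ_nonempty))
  have h2 : ∀ j ε, Real.exp (siteMessage (θs j) (x j) ε) = ∑ s' : Fin (p - 1) → Bool,
      Real.exp (θs j (lastLeg s' ε)) * ∏ l, tilt (x j l) (s' l) := fun j ε =>
    Real.exp_log (Finset.sum_pos (fun _ _ => mul_pos (Real.exp_pos _)
      (Finset.prod_pos fun _ _ => MPow_tilt_pos _ _)) Finset.univ_nonempty)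
  simp only [siteTerm, spinMean, h1, ← MPow_tilt, mul_assoc, ← Finset.mul_sum]
  congr 1
  simp only [Finset.sum_mul]
  rw [Finset.sum_comm]
  refine Finset.sum_congr rfl fun ε _ => ?_
  simp only [Real.exp_add, Real.exp_sum, h2, mul_assoc, ← Finset.mul_sum]
  congr 1
  rw [Fintype.prod_sum]
  refine (Fintype.sum_equiv (Equiv.curry _ _ _) _ _ fun s => ?_).symm
  rw [Finset.prod_mul_distrib, Fintype.prod_prod_type]
  rfl

theorem MPow_lse_le {A A' : Bool → ℝ} {d : ℝ} (h : ∀ ε, A ε ≤ A' ε + d) :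
    Real.log ((1 / 2) * ∑ ε, Real.exp (A ε)) ≤ Real.log ((1 / 2) * ∑ ε, Real.exp (A' ε)) + d := by
  have hp : ∀ B : Bool → ℝ, 0 < (1 / 2 : ℝ) * ∑ ε, Real.exp (B ε) := fun B =>
    mul_pos (by norm_num) (Finset.sum_pos (fun _ _ => Real.exp_pos _) Finset.univ_nonempty)
  rw [← Real.log_exp d, ← Real.log_mul (hp _).ne' (Real.exp_pos _).ne']
  refine Real.log_le_log (hp _) ?_
  rw [mul_assoc, Finset.sum_mul]
  refine mul_le_mul_of_nonneg_left (Finset.sum_le_sum fun ε _ => ?_) (by norm_num)
  rw [← Real.exp_add]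
  exact Real.exp_le_exp.2 (h ε)

theorem MPow_abs_spinVal (s : Bool) : |spinVal s| = 1 := by
  cases s <;> simp [spinVal]

theorem abs_siteW_sub_le {p k : ℕ} (h h' : ℝ) (θs θs' : Fin k → Inter p) (c : Fin k → ℝ)
    (s : Fin k × Fin (p - 1) → Bool) :
    |siteW h θs s - siteW h' θs' s - ∑ j, c j| ≤
      |h - h'| + ∑ j, ‖θs j - θs' j - fun _ => c j‖ := by
  have key : ∀ ε : Bool,
      |(h * spinVal ε + ∑ j : Fin k, θs j (lastLeg (fun l => s (j, l)) ε)) -
        (h' * spinVal ε + ∑ j : Fin k, θs' j (lastLeg (fun l => s (j, l)) ε)) - ∑ j, c j| ≤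
      |h - h'| + ∑ j, ‖θs j - θs' j - fun _ => c j‖ := by
    intro ε
    have e : (h * spinVal ε + ∑ j : Fin k, θs j (lastLeg (fun l => s (j, l)) ε)) -
        (h' * spinVal ε + ∑ j : Fin k, θs' j (lastLeg (fun l => s (j, l)) ε)) - ∑ j, c j =
        (h - h') * spinVal ε + ∑ j : Fin k,
          (θs j - θs' j - fun _ => c j : Inter p) (lastLeg (fun l => s (j, l)) ε) := by
      simp only [Pi.sub_apply, Finset.sum_sub_distrib]
      ring
    rw [e]
    refine (abs_add_le _ _).trans (add_le_add ?_ ?_)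
    · rw [abs_mul, MPow_abs_spinVal, mul_one]
    · exact (Finset.abs_sum_le_sum_abs _ _).trans (Finset.sum_le_sum fun j _ =>
        norm_le_pi_norm (θs j - θs' j - fun _ => c j : Inter p) _)
  have h1 : siteW h θs s ≤ siteW h' θs' s +
      (∑ j, c j + (|h - h'| + ∑ j, ‖θs j - θs' j - fun _ => c j‖)) :=
    MPow_lse_le fun ε => by linarith [(abs_le.1 (key ε)).2]
  have h2 : siteW h' θs' s ≤ siteW h θs s +
      (-∑ j, c j + (|h - h'| + ∑ j, ‖θs j - θs' j - fun _ => c j‖)) :=
    MPow_lse_le fun ε => by linarith [(abs_le.1 (key ε)).1]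
  exact abs_le.2 ⟨by linarith, by linarith⟩

theorem abs_siteW_le {p k : ℕ} (h : ℝ) (θs : Fin k → Inter p) (s : Fin k × Fin (p - 1) → Bool) :
    |siteW h θs s| ≤ |h| + ∑ j, ‖θs j‖ := by
  have h1 := abs_siteW_sub_le h 0 θs 0 0 s
  have h2 : siteW 0 (0 : Fin k → Inter p) s = 0 := by simp [siteW]
  have h3 : ∀ j, (θs j - (0 : Fin k → Inter p) j - fun _ => (0 : Fin k → ℝ) j) = θs j := fun j => by
    funext a; simp
  simp only [h3] at h1
  simpa only [h2, Pi.zero_apply, Finset.sum_const_zero, sub_zero] using h1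

theorem MPow_lip {f : ℝ → ℝ} {a b : ℝ} (hf : ContDiffOn ℝ 1 f (Set.Icc a b)) :
    ∃ K : ℝ, 0 ≤ K ∧ ∀ x ∈ Set.Icc a b, ∀ y ∈ Set.Icc a b, |f x - f y| ≤ K * |x - y| := by
  obtain ⟨K, hK⟩ := hf.exists_lipschitzOnWith one_ne_zero (convex_Icc a b) isCompact_Icc
  exact ⟨K, K.2, fun x hx y hy => hK.dist_le_mul x hx y hy⟩

theorem MPow_abs_prod_sub {ι : Type} (s : Finset ι) (a b : ι → ℝ) (ha : ∀ i, |a i| ≤ 1)
    (hb : ∀ i, |b i| ≤ 1) : |∏ i ∈ s, a i - ∏ i ∈ s, b i| ≤ ∑ i ∈ s, |a i - b i| := by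
  classical
  induction s using Finset.induction_on with
  | empty => simp
  | insert i s hi ih =>
    rw [Finset.prod_insert hi, Finset.prod_insert hi, Finset.sum_insert hi]
    have e : a i * ∏ j ∈ s, a j - b i * ∏ j ∈ s, b j =
        (a i - b i) * ∏ j ∈ s, a j + b i * (∏ j ∈ s, a j - ∏ j ∈ s, b j) := by ring
    have h1 : |∏ j ∈ s, a j| ≤ 1 := by
      rw [Finset.abs_prod]
      exact Finset.prod_le_one (fun _ _ => abs_nonneg _) fun j _ => ha j
    rw [e]
    refine (abs_add_le _ _).trans (add_le_add ?_ ?_)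
    · rw [abs_mul]; exact mul_le_of_le_one_right (abs_nonneg _) h1
    · rw [abs_mul]; exact (mul_le_of_le_one_left (abs_nonneg _) (hb i)).trans ih

variable {r : ℕ} {m : Fin r → ℝ} {L : Type} [Fintype L] [DecidableEq L]

theorem MPow_weight {t : ℝ} (ht : |t| ≤ 1) (s : Bool) :
    0 ≤ (1 + t * spinVal s) / 2 ∧ (1 + t * spinVal s) / 2 ≤ 1 := by
  have : |t * spinVal s| ≤ 1 := by rw [abs_mul, MPow_abs_spinVal, mul_one]; exact ht
  constructor <;> linarith [(abs_le.1 this).1, (abs_le.1 this).2]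

theorem MPow_spinMean_le {w w' : (L → Bool) → ℝ} {d : ℝ} (h : ∀ s, w s ≤ w' s + d) {t : L → ℝ}
    (ht : ∀ l, |t l| ≤ 1) : spinMean w t ≤ Real.exp d * spinMean w' t := by
  unfold spinMean
  rw [Finset.mul_sum]
  refine Finset.sum_le_sum fun s _ => ?_
  rw [← mul_assoc, ← Real.exp_add]
  exact mul_le_mul_of_nonneg_right (Real.exp_le_exp.2 (by linarith [h s]))
    (Finset.prod_nonneg fun l _ => (MPow_weight (ht l) _).1)

theorem MPow_spinMean_zero (t : L → ℝ) : spinMean (fun _ => 0) t = 1 := by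
  unfold spinMean
  simp only [Real.exp_zero, one_mul]
  rw [← Fintype.prod_sum (fun l (b : Bool) => (1 + t l * spinVal b) / 2)]
  refine Finset.prod_eq_one fun l _ => ?_
  simp [spinVal]
  ring

theorem MPow_spinMean_lip {w : (L → Bool) → ℝ} {C : ℝ} (h : ∀ s, |w s| ≤ C) {t t' : L → ℝ}
    (ht : ∀ l, |t l| ≤ 1) (ht' : ∀ l, |t' l| ≤ 1) :
    |spinMean w t - spinMean w t'| ≤
      (Fintype.card (L → Bool) * Real.exp C) * ∑ l, |t l - t' l| := by
  unfold spinMean
  rw [← Finset.sum_sub_distrib]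
  refine (Finset.abs_sum_le_sum_abs _ _).trans ?_
  rw [mul_assoc, ← nsmul_eq_mul, ← Finset.card_univ]
  refine Finset.sum_le_card_nsmul _ _ _ fun s _ => ?_
  rw [← mul_sub, abs_mul, abs_of_pos (Real.exp_pos _)]
  refine mul_le_mul (Real.exp_le_exp.2 (abs_le.1 (h s)).2) ?_ (abs_nonneg _) (Real.exp_pos _).le
  have hab : ∀ {x : ℝ}, |x| ≤ 1 → ∀ b, |(1 + x * spinVal b) / 2| ≤ 1 := fun hx b => by
    rw [abs_of_nonneg (MPow_weight hx b).1]; exact (MPow_weight hx b).2
  refine (MPow_abs_prod_sub _ _ _ (fun l => hab (ht l) _) fun l => hab (ht' l) _).trans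
    (Finset.sum_le_sum fun l _ => ?_)
  have e : (1 + t l * spinVal (s l)) / 2 - (1 + t' l * spinVal (s l)) / 2 =
      (t l - t' l) * spinVal (s l) / 2 := by ring
  rw [e, abs_div, abs_mul, MPow_abs_spinVal, mul_one, abs_two]
  linarith [abs_nonneg (t l - t' l)]

/-- measurable functions with values in `[exp (-C), exp C]` -/
def MPowGood {Ω : Type} [MeasurableSpace Ω] (C : ℝ) (W : Ω → ℝ) : Prop :=
  Measurable W ∧ ∀ u, W u ∈ Set.Icc (Real.exp (-C)) (Real.exp C)

theorem MPowGood.pos {Ω : Type} [MeasurableSpace Ω] {C : ℝ} {W : Ω → ℝ} (h : MPowGood C W)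
    (u : Ω) : 0 < W u := (Real.exp_pos _).trans_le (h.2 u).1

theorem MPow_integrable {Ω : Type} [MeasurableSpace Ω] {μ : Measure Ω} [IsFiniteMeasure μ]
    {f : Ω → ℝ} (hf : Measurable f) {B : ℝ} (h : ∀ u, |f u| ≤ B) : Integrable f μ :=
  Integrable.of_bound hf.aestronglyMeasurable B (Filter.Eventually.of_forall h)

theorem MPowGood.abs_le {Ω : Type} [MeasurableSpace Ω] {C : ℝ} {W : Ω → ℝ} (h : MPowGood C W)
    (u : Ω) : |W u| ≤ Real.exp C := by
  rw [abs_of_pos (h.pos u)]; exact (h.2 u).2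

theorem MPowGood.abs_log_le {Ω : Type} [MeasurableSpace Ω] {C : ℝ} {W : Ω → ℝ} (h : MPowGood C W)
    (u : Ω) : |Real.log (W u)| ≤ C :=
  _root_.abs_le.2 ⟨(Real.le_log_iff_exp_le (h.pos u)).2 (h.2 u).1,
    (Real.log_le_iff_le_exp (h.pos u)).2 (h.2 u).2⟩

theorem MPowGood.rpow {Ω : Type} [MeasurableSpace Ω] {C : ℝ} {W : Ω → ℝ} (h : MPowGood C W)
    {a : ℝ} (ha : 0 ≤ a) : MPowGood (C * a) fun u => W u ^ a := by
  refine ⟨h.1.pow_const a, fun u => ⟨?_, ?_⟩⟩
  · rw [← neg_mul, Real.exp_mul]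
    exact Real.rpow_le_rpow (Real.exp_pos _).le (h.2 u).1 ha
  · rw [Real.exp_mul]
    exact Real.rpow_le_rpow (h.pos u).le (h.2 u).2 ha

theorem MPowGood.integral_mem {Ω : Type} [MeasurableSpace Ω] {C : ℝ} {W : Ω → ℝ}
    (h : MPowGood C W) (μ : Measure Ω) [IsProbabilityMeasure μ] :
    ∫ u, W u ∂μ ∈ Set.Icc (Real.exp (-C)) (Real.exp C) := by
  have hi : Integrable W μ := MPow_integrable h.1 h.abs_le
  constructor
  · simpa using integral_mono (integrable_const (Real.exp (-C))) hi fun u => (h.2 u).1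
  · simpa using integral_mono hi (integrable_const (Real.exp C)) fun u => (h.2 u).2

/-- refresh one level -/
def MPowUpd (lvl : Fin (r + 1)) (z : (L → Cube r) × (L → unitInterval)) : L → Cube r :=
  fun ω j => if j = lvl then z.2 ω else z.1 ω j

instance MPow_prob (r : ℕ) : IsProbabilityMeasure (cubeVol r) := by
  unfold cubeVol; infer_instance

instance MPow_prob' (L : Type) [Fintype L] (r : ℕ) : IsProbabilityMeasure (uniformArrays L r) := by
  unfold uniformArrays; infer_instance

theorem MPow_mp1 (lvl : Fin (r + 1)) :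
    MeasurePreserving (fun (z : Cube r × unitInterval) j => if j = lvl then z.2 else z.1 j)
      ((cubeVol r).prod volume) (cubeVol r) := by
  have hm : Measurable fun (z : Cube r × unitInterval) j => if j = lvl then z.2 else z.1 j := by
    refine measurable_pi_lambda _ fun j => ?_
    split_ifs
    · exact measurable_snd
    · exact (measurable_pi_apply j).comp measurable_fst
  refine ⟨hm, (Measure.pi_eq fun s hs => ?_).symm⟩
  rw [Measure.map_apply hm (MeasurableSet.univ_pi hs)]
  have e : (fun (z : Cube r × unitInterval) j => if j = lvl then z.2 else z.1 j) ⁻¹'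
      Set.pi Set.univ s = (Set.pi Set.univ fun j => if j = lvl then Set.univ else s j) ×ˢ s lvl := by
    ext z
    simp only [Set.mem_preimage, Set.mem_pi, Set.mem_univ, true_imp_iff, Set.mem_prod]
    constructor
    · intro h
      refine ⟨fun j => ?_, by simpa using h lvl⟩
      have := h j
      split_ifs at this ⊢
      · trivial
      · exact this
    · rintro ⟨h, h'⟩ j
      have := h j
      split_ifs at this ⊢ with hj
      · rw [hj]; exact h'
      · exact this
  rw [e, Measure.prod_prod, cubeVol, Measure.pi_pi, ← Finset.prod_erase_mul _ _ (Finset.mem_univ lvl),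
    ← Finset.prod_erase_mul _ (fun j => volume (s j)) (Finset.mem_univ lvl), if_pos rfl, measure_univ,
    mul_one]
  congr 1
  exact Finset.prod_congr rfl fun j hj => by rw [if_neg (Finset.ne_of_mem_erase hj)]

theorem MPow_mp (lvl : Fin (r + 1)) :
    MeasurePreserving (MPowUpd (L := L) lvl)
      ((uniformArrays L r).prod (Measure.pi fun _ : L => (volume : Measure unitInterval)))
      (uniformArrays L r) :=
  (measurePreserving_pi (fun _ : L => (cubeVol r).prod volume) (fun _ => cubeVol r)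
    fun _ => MPow_mp1 lvl).comp
    (measurePreserving_arrowProdEquivProdArrow (Cube r) unitInterval L (fun _ => cubeVol r)
      fun _ => volume).symm

theorem MPow_pmStep_eq (a : ℝ) (lvl : Fin (r + 1)) (W : (L → Cube r) → ℝ) (u : L → Cube r) :
    pmStep a lvl W u = (∫ v, W (MPowUpd lvl (u, v)) ^ a
      ∂(Measure.pi fun _ : L => (volume : Measure unitInterval))) ^ (1 / a) := rfl

theorem MPowGood.slice {C : ℝ} {W : (L → Cube r) → ℝ} (h : MPowGood C W) (lvl : Fin (r + 1))
    (u : L → Cube r) : MPowGood C fun v => W (MPowUpd lvl (u, v)) :=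
  ⟨h.1.comp ((MPow_mp lvl).measurable.comp measurable_prodMk_left), fun _ => h.2 _⟩

theorem MPowGood.step {C : ℝ} {W : (L → Cube r) → ℝ} (h : MPowGood C W) {a : ℝ} (ha : 0 < a)
    (lvl : Fin (r + 1)) : MPowGood C (pmStep a lvl W) := by
  have h1 : MPowGood (C * a) fun u : L → Cube r => ∫ v, W (MPowUpd lvl (u, v)) ^ a
      ∂(Measure.pi fun _ : L => (volume : Measure unitInterval)) :=
    ⟨((h.1.comp (MPow_mp lvl).measurable).pow_const a).stronglyMeasurable.integral_prod_right'.measurable,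
      fun u => ((h.slice lvl u).rpow ha.le).integral_mem _⟩
  have h2 := h1.rpow (a := 1 / a) (by positivity)
  rwa [mul_assoc, mul_one_div_cancel ha.ne', mul_one] at h2

theorem MPow_step_le {C d : ℝ} {W W' : (L → Cube r) → ℝ} (h : MPowGood C W) (h' : MPowGood C W')
    (hle : ∀ u, W u ≤ Real.exp d * W' u) {a : ℝ} (ha : 0 < a) (lvl : Fin (r + 1)) (u : L → Cube r) :
    pmStep a lvl W u ≤ Real.exp d * pmStep a lvl W' u := by
  have g := (h.slice lvl u).rpow ha.le
  have g' := (h'.slice lvl u).rpow ha.le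
  have h0 := (Real.exp_pos _).le.trans (g.integral_mem
    (Measure.pi fun _ : L => (volume : Measure unitInterval))).1
  have h0' := (Real.exp_pos _).le.trans (g'.integral_mem
    (Measure.pi fun _ : L => (volume : Measure unitInterval))).1
  have h1 : ∫ v, W (MPowUpd lvl (u, v)) ^ a ∂(Measure.pi fun _ : L => (volume : Measure unitInterval))
      ≤ Real.exp d ^ a * ∫ v, W' (MPowUpd lvl (u, v)) ^ a
        ∂(Measure.pi fun _ : L => (volume : Measure unitInterval)) := by
    rw [← integral_const_mul]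
    refine integral_mono (MPow_integrable g.1 g.abs_le)
      ((MPow_integrable g'.1 g'.abs_le).const_mul _) fun v => ?_
    simp only
    rw [← Real.mul_rpow (Real.exp_pos _).le (h'.pos _).le]
    exact Real.rpow_le_rpow (h.pos _).le (hle _) ha.le
  rw [MPow_pmStep_eq, MPow_pmStep_eq]
  refine (Real.rpow_le_rpow h0 h1 (by positivity)).trans_eq ?_
  rw [Real.mul_rpow (by positivity) h0', ← Real.rpow_mul (Real.exp_pos _).le,
    mul_one_div_cancel ha.ne', Real.rpow_one]

theorem MPow_step_L1 (C : ℝ) {a : ℝ} (ha : 0 < a) (lvl : Fin (r + 1)) :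
    ∃ K : ℝ, 0 ≤ K ∧ ∀ W W' : (L → Cube r) → ℝ, MPowGood C W → MPowGood C W' →
      ∫ u, |pmStep a lvl W u - pmStep a lvl W' u| ∂(uniformArrays L r) ≤
        K * ∫ u, |W u - W' u| ∂(uniformArrays L r) := by
  obtain ⟨K₁, hK₁, h₁⟩ := MPow_lip (f := fun x => x ^ a) (a := Real.exp (-C)) (b := Real.exp C)
    (contDiffOn_id.rpow_const_of_ne fun x hx => ((Real.exp_pos _).trans_le hx.1).ne')
  obtain ⟨K₂, hK₂, h₂⟩ := MPow_lip (f := fun x => x ^ (1 / a)) (a := Real.exp (-(C * a)))
    (b := Real.exp (C * a))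
    (contDiffOn_id.rpow_const_of_ne fun x hx => ((Real.exp_pos _).trans_le hx.1).ne')
  refine ⟨K₂ * K₁, mul_nonneg hK₂ hK₁, fun W W' h h' => ?_⟩
  have hb : ∀ u, |(|W u - W' u|)| ≤ Real.exp C + Real.exp C := fun u => by
    rw [abs_abs]; exact (abs_sub _ _).trans (add_le_add (h.abs_le u) (h'.abs_le u))
  have hm : Measurable fun u => |W u - W' u| := (h.1.sub h'.1).abs
  have hI : Integrable (fun z => |W (MPowUpd lvl z) - W' (MPowUpd lvl z)|)
      ((uniformArrays L r).prod (Measure.pi fun _ : L => (volume : Measure unitInterval))) :=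
    MPow_integrable (hm.comp (MPow_mp lvl).measurable) fun z => hb _
  have e : ∫ u, |W u - W' u| ∂(uniformArrays L r) = ∫ u, ∫ v,
      |W (MPowUpd lvl (u, v)) - W' (MPowUpd lvl (u, v))|
        ∂(Measure.pi fun _ : L => (volume : Measure unitInterval)) ∂(uniformArrays L r) := by
    rw [← integral_prod _ hI, ← integral_map (MPow_mp lvl).measurable.aemeasurable
      hm.aestronglyMeasurable, (MPow_mp lvl).map_eq]
  rw [e, ← integral_const_mul]
  refine integral_mono_of_nonneg (Filter.Eventually.of_forall fun u => abs_nonneg _)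
    (hI.integral_prod_left.const_mul _) (Filter.Eventually.of_forall fun u => ?_)
  have g := (h.slice lvl u).rpow ha.le
  have g' := (h'.slice lvl u).rpow ha.le
  simp only
  rw [MPow_pmStep_eq, MPow_pmStep_eq]
  refine (h₂ _ (g.integral_mem _) _ (g'.integral_mem _)).trans ?_
  rw [mul_assoc]
  refine mul_le_mul_of_nonneg_left ?_ hK₂
  rw [← integral_sub (MPow_integrable g.1 g.abs_le) (MPow_integrable g'.1 g'.abs_le),
    ← integral_const_mul]
  refine abs_integral_le_integral_abs.trans (integral_mono_of_nonneg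
    (Filter.Eventually.of_forall fun v => abs_nonneg _)
    ((MPow_integrable (hm.comp ((MPow_mp lvl).measurable.comp measurable_prodMk_left))
      fun v => hb _).const_mul _) (Filter.Eventually.of_forall fun v => ?_))
  exact h₁ _ (h.2 _) _ (h'.2 _)

theorem MPowGood.fold (hm : ∀ d, 0 < m d) {C : ℝ} {W : (L → Cube r) → ℝ} (h : MPowGood C W)
    (l : List (Fin r)) : MPowGood C (l.foldr (fun d acc => pmStep (m d) d.succ acc) W) := by
  induction l with
  | nil => exact h
  | cons d l ih => exact ih.step (hm d) _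

theorem MPow_fold_le (hm : ∀ d, 0 < m d) {C c : ℝ} {W W' : (L → Cube r) → ℝ} (h : MPowGood C W)
    (h' : MPowGood C W') (hle : ∀ u, W u ≤ Real.exp c * W' u) (l : List (Fin r)) :
    ∀ u, l.foldr (fun d acc => pmStep (m d) d.succ acc) W u ≤
      Real.exp c * l.foldr (fun d acc => pmStep (m d) d.succ acc) W' u := by
  induction l with
  | nil => exact hle
  | cons d l ih => exact MPow_step_le (h.fold hm l) (h'.fold hm l) ih (hm d) _

theorem MPow_fold_L1 (hm : ∀ d, 0 < m d) (C : ℝ) (l : List (Fin r)) :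
    ∃ K : ℝ, 0 ≤ K ∧ ∀ W W' : (L → Cube r) → ℝ, MPowGood C W → MPowGood C W' →
      ∫ u, |l.foldr (fun d acc => pmStep (m d) d.succ acc) W u -
          l.foldr (fun d acc => pmStep (m d) d.succ acc) W' u| ∂(uniformArrays L r) ≤
        K * ∫ u, |W u - W' u| ∂(uniformArrays L r) := by
  induction l with
  | nil => exact ⟨1, zero_le_one, fun W W' _ _ => by simp⟩
  | cons d l ih =>
    obtain ⟨K, hK, h⟩ := ih
    obtain ⟨K', hK', h'⟩ := MPow_step_L1 (L := L) C (hm d) d.succ
    refine ⟨K' * K, mul_nonneg hK' hK, fun W W' g g' => ?_⟩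
    refine (h' _ _ (g.fold hm l) (g'.fold hm l)).trans ?_
    rw [mul_assoc]
    exact mul_le_mul_of_nonneg_left (h W W' g g') hK'

theorem MPow_good_spin {T : Cube r → ℝ} (hT : Measurable T) (hT1 : ∀ u, |T u| ≤ 1)
    {w : (L → Bool) → ℝ} {C : ℝ} (h : ∀ s, |w s| ≤ C) :
    MPowGood C fun u' : L → Cube r => spinMean w fun l => T (u' l) := by
  refine ⟨?_, fun u => ⟨?_, ?_⟩⟩
  · unfold spinMean
    refine Finset.measurable_sum _ fun s _ => Measurable.const_mul ?_ _
    refine Finset.measurable_prod _ fun l _ => Measurable.div_const ?_ _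
    exact ((hT.comp (measurable_pi_apply l)).mul_const _).const_add _
  · have := MPow_spinMean_le (w := fun _ => 0) (w' := w) (d := C)
      (fun s => by linarith [(abs_le.1 (h s)).1]) fun l => hT1 (u l)
    rw [MPow_spinMean_zero] at this
    rw [Real.exp_neg, inv_le_iff_one_le_mul₀' (Real.exp_pos _)]
    exact this
  · have := MPow_spinMean_le (w := w) (w' := fun _ => 0) (d := C)
      (fun s => by linarith [(abs_le.1 (h s)).2]) fun l => hT1 (u l)
    rwa [MPow_spinMean_zero, mul_one] at this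

theorem MPow_valT_le (hm : AdmissibleExponents m) {T : Cube r → ℝ} (hT : Measurable T)
    (hT1 : ∀ u, |T u| ≤ 1) {w w' : (L → Bool) → ℝ} {d : ℝ} (h : ∀ s, w s ≤ w' s + d) :
    valT m T w ≤ valT m T w' + d := by
  have hm0 : ∀ d, 0 < m d := fun d => (hm.2 d).1
  have g := MPow_good_spin (w := w) (C := ‖w‖ + ‖w'‖) hT hT1 fun s =>
    (norm_le_pi_norm w s).trans (le_add_of_nonneg_right (norm_nonneg _))
  have g' := MPow_good_spin (w := w') (C := ‖w‖ + ‖w'‖) hT hT1 fun s =>
    (norm_le_pi_norm w' s).trans (le_add_of_nonneg_left (norm_nonneg _))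
  have f := g.fold hm0 (List.finRange r)
  have f' := g'.fold hm0 (List.finRange r)
  have hle := MPow_fold_le hm0 g g' (fun u => MPow_spinMean_le h fun l => hT1 (u l))
    (List.finRange r)
  have hI := MPow_integrable (μ := uniformArrays L r) f.1.log f.abs_log_le
  have hI' := MPow_integrable (μ := uniformArrays L r) f'.1.log f'.abs_log_le
  have := integral_mono hI (hI'.add (integrable_const d)) fun u => by
    refine (Real.log_le_log (f.pos u) (hle u)).trans_eq ?_
    rw [Real.log_mul (Real.exp_pos _).ne' (f'.pos u).ne', Real.log_exp, add_comm]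
    rfl
  rw [integral_add' hI' (integrable_const d)] at this
  simpa [valT, powerMeans] using this

theorem abs_valT_sub_le (hm : AdmissibleExponents m) {T : Cube r → ℝ} (hT : Measurable T)
    (hT1 : ∀ u, |T u| ≤ 1) {w w' : (L → Bool) → ℝ} {a c : ℝ} (h : ∀ s, |w s - w' s - c| ≤ a) :
    |valT m T w - valT m T w' - c| ≤ a := by
  have h1 := MPow_valT_le hm hT hT1 (w := w) (w' := w') (d := c + a) fun s => by
    linarith [(abs_le.1 (h s)).2]
  have h2 := MPow_valT_le hm hT hT1 (w := w') (w' := w) (d := a - c) fun s => by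
    linarith [(abs_le.1 (h s)).1]
  exact abs_le.2 ⟨by linarith, by linarith⟩

theorem abs_valT_le (hm : AdmissibleExponents m) {T : Cube r → ℝ} (hT : Measurable T)
    (hT1 : ∀ u, |T u| ≤ 1) {w : (L → Bool) → ℝ} {a : ℝ} (h : ∀ s, |w s| ≤ a) :
    |valT m T w| ≤ a := by
  have f := (MPow_good_spin hT hT1 h).fold (fun d => (hm.2 d).1) (List.finRange r)
  have := norm_integral_le_of_norm_le_const (μ := uniformArrays L r) (C := a)
    (f := fun u => Real.log (powerMeans m (fun u' : L → Cube r => spinMean w fun l => T (u' l)) u))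
    (Filter.Eventually.of_forall f.abs_log_le)
  simpa [valT] using this

theorem valT_cont (hm : AdmissibleExponents m) (L : Type) [Fintype L] [DecidableEq L] (C : ℝ) :
    ∃ A : ℝ, 0 ≤ A ∧ ∀ (T T' : Cube r → ℝ), Measurable T → Measurable T' → (∀ u, |T u| ≤ 1) →
      (∀ u, |T' u| ≤ 1) → ∀ w : (L → Bool) → ℝ, (∀ s, |w s| ≤ C) →
        |valT m T w - valT m T' w| ≤ A * ∫ u, |T u - T' u| ∂(cubeVol r) := by
  have hm0 : ∀ d, 0 < m d := fun d => (hm.2 d).1
  obtain ⟨K₁, hK₁, h₁⟩ := MPow_lip (f := Real.log) (a := Real.exp (-C)) (b := Real.exp C)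
    (contDiffOn_id.log fun x hx => ((Real.exp_pos _).trans_le hx.1).ne')
  obtain ⟨K₂, hK₂, h₂⟩ := MPow_fold_L1 (L := L) hm0 C (List.finRange r)
  refine ⟨K₁ * (K₂ * ((Fintype.card (L → Bool) * Real.exp C) * Fintype.card L)), by positivity,
    fun T T' hT hT' hT1 hT1' w hw => ?_⟩
  have g := MPow_good_spin hT hT1 hw
  have g' := MPow_good_spin hT' hT1' hw
  have f := g.fold hm0 (List.finRange r)
  have f' := g'.fold hm0 (List.finRange r)
  have hI := MPow_integrable (μ := uniformArrays L r) f.1.log f.abs_log_le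
  have hI' := MPow_integrable (μ := uniformArrays L r) f'.1.log f'.abs_log_le
  have hJ := MPow_integrable (μ := uniformArrays L r) f.1 f.abs_le
  have hJ' := MPow_integrable (μ := uniformArrays L r) f'.1 f'.abs_le
  have hTm : Measurable fun u => |T u - T' u| := (hT.sub hT').abs
  have hTb : ∀ u, |(|T u - T' u|)| ≤ 1 + 1 := fun u => by
    rw [abs_abs]; exact (abs_sub _ _).trans (add_le_add (hT1 u) (hT1' u))
  have hTI : ∀ l : L, Integrable (fun u : L → Cube r => |T (u l) - T' (u l)|) (uniformArrays L r) :=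
    fun l => MPow_integrable (hTm.comp (measurable_pi_apply l)) fun u => hTb _
  have e : ∀ l : L, ∫ u : L → Cube r, |T (u l) - T' (u l)| ∂(uniformArrays L r) =
      ∫ u, |T u - T' u| ∂(cubeVol r) := fun l => by
    have hp := measurePreserving_eval (fun _ : L => cubeVol r) l
    rw [← hp.map_eq, integral_map hp.measurable.aemeasurable hTm.aestronglyMeasurable]
    rfl
  have h3 : ∫ u : L → Cube r, |(spinMean w fun l => T (u l)) - spinMean w fun l => T' (u l)|
      ∂(uniformArrays L r) ≤ ((Fintype.card (L → Bool) * Real.exp C) * Fintype.card L) *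
        ∫ u, |T u - T' u| ∂(cubeVol r) := by
    refine (integral_mono_of_nonneg (Filter.Eventually.of_forall fun u => abs_nonneg _)
      ((integrable_finsetSum _ fun l _ => hTI l).const_mul _)
      (Filter.Eventually.of_forall fun u => MPow_spinMean_lip hw (fun l => hT1 (u l))
        fun l => hT1' (u l))).trans_eq ?_
    rw [integral_const_mul, integral_finsetSum _ fun l _ => hTI l]
    simp only [e, Finset.sum_const, Finset.card_univ, nsmul_eq_mul, mul_assoc]
  unfold valT powerMeans
  rw [← integral_sub hI hI', mul_assoc, mul_assoc]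
  refine abs_integral_le_integral_abs.trans ((integral_mono_of_nonneg
    (Filter.Eventually.of_forall fun u => abs_nonneg _) ((hJ.sub hJ').abs.const_mul K₁)
    (Filter.Eventually.of_forall fun u => h₁ _ (f.2 u) _ (f'.2 u))).trans ?_)
  rw [integral_const_mul]
  exact mul_le_mul_of_nonneg_left ((h₂ _ _ g g').trans (mul_le_mul_of_nonneg_left h3 hK₂)) hK₁

end Crest.Agent.R141
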