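import Crest.Agent.R141.Upper
import Crest.Agent.R141.Lower
import Crest.Agent.R141.MApprox
import Crest.Agent.R141.MFactor

/-! # Row 141: the Mézard–Parisi formula -/

set_option autoImplicit false

namespace Crest.Agent.R141

open Finset MeasureTheory Crest.ProbabilityR.Diluted
open scoped BigOperators

theorem PT_eq_P {p : ℕ} {D H : Type} [Fintype D] [Fintype H] (X : Dis p D H) (α : ℝ) {r : ℕ}
    (e : Expo r) {Ω : Type} [Fintype Ω] (ζ : Trial r Ω) (T : Cube r → ℝ)
    (h : ∀ (L : Type) [Fintype L] [DecidableEq L] (w : (L → Bool) → ℝ),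
      valT e.fin T w = ζ.val e w) : X.PT α e.fin T = X.P α e ζ := by
  unfold Dis.PT Dis.P
  simp only [h]

theorem measurable_tanh' : Measurable Real.tanh := by
  have : Real.tanh = fun x => Real.sinh x / Real.cosh x := funext Real.tanh_eq_sinh_div_cosh
  rw [this]
  exact Real.continuous_sinh.measurable.div Real.continuous_cosh.measurable

theorem mp_formula (p : ℕ) (hp : Even p) (hp2 : 2 ≤ p) (α : ℝ) (hα : 0 < α)
    (μ : Measure (Inter p)) [IsProbabilityMeasure μ] (ν : Measure ℝ) [IsProbabilityMeasure ν]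
    (hμ : Integrable (fun θ => supNorm θ) μ) (hν : Integrable (fun x : ℝ => x) ν)
    (hfac : HasFactorization p μ) :
    ∃ F : ℝ, Filter.Tendsto (pressure p α μ ν) Filter.atTop (nhds F) ∧
      IsGLB {B : ℝ | ∃ (r : ℕ) (m : Fin r → ℝ) (X : (Fin (r + 1) → unitInterval) → ℝ),
        AdmissibleExponents m ∧ Measurable X ∧ B = trialFunctional p α μ ν r m X} F := by
  set 𝓢 := {B : ℝ | ∃ (r : ℕ) (m : Fin r → ℝ) (X : (Fin (r + 1) → unitInterval) → ℝ),
        AdmissibleExponents m ∧ Measurable X ∧ B = trialFunctional p α μ ν r m X} with h𝓢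
  have hp1 : 1 ≤ p := by omega
  have hK : 0 < 2 * α * p + 1 + (α + 1) := by positivity
  have habs : ∀ x : ℝ, |Real.tanh x| ≤ 1 := fun x =>
    abs_le.2 ⟨(Real.neg_one_lt_tanh x).le, (Real.tanh_lt_one x).le⟩
  -- upper bound
  have hup : ∀ B ∈ 𝓢, ∀ N, 1 ≤ N → pressure p α μ ν N ≤ B := by
    rintro B ⟨r, m, Y, hm, hY, rfl⟩ N hN
    refine le_of_forall_pos_le_add fun ε hε => ?_
    obtain ⟨B', F, H, _, _, _, M, c, hc⟩ := exists_coupled hp hp1 μ ν hμ hν hfac
      (η := ε / 2 / (2 * α * p + 1 + (α + 1))) (by positivity)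
    obtain ⟨e, rfl⟩ := exists_expo hm
    obtain ⟨η, hη, hcont⟩ := PT_cont M.dis hα.le hm (half_pos hε)
    have hT : Measurable fun u => Real.tanh (Y u) := measurable_tanh'.comp hY
    obtain ⟨n, q, hq, hqm, hqa⟩ := approx_grid hT (fun u => habs _) hη
    obtain ⟨ζ, hζ⟩ := conv_b q hq
    have h1 := hc.pressure hν hα.le hN
    have h2 := hc.trial hp1 hν hα.le hm hY
    have h3 := hcont _ _ hT hqm (fun u => habs _) (fun u => hq _) hqa
    rw [PT_eq_P M.dis α e ζ _ (hζ e)] at h3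
    have h4 := upper_fin hp1 M hα.le ζ e hN
    have h5 : (2 * α * p + 1) * (ε / 2 / (2 * α * p + 1 + (α + 1))) +
        (α + 1) * (ε / 2 / (2 * α * p + 1 + (α + 1))) = ε / 2 := by field_simp
    have := (abs_le.1 h1).2
    have := (abs_le.1 h2).1
    have := (abs_le.1 h3).1
    linarith
  have hne : 𝓢.Nonempty := ⟨_, 0, Fin.elim0, fun _ => 0,
    ⟨fun a => a.elim0, fun a => a.elim0⟩, measurable_const, rfl⟩
  have hbdd : BddBelow 𝓢 := ⟨_, fun B hB => hup B hB 1 le_rfl⟩
  refine ⟨sInf 𝓢, ?_, isGLB_csInf hne hbdd⟩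
  rw [Metric.tendsto_atTop]
  intro ε hε
  have hε4 : 0 < ε / 4 := by positivity
  obtain ⟨B', F, H, _, _, _, M, c, hc⟩ := exists_coupled hp hp1 μ ν hμ hν hfac
    (η := ε / 4 / (2 * α * p + 1 + (α + 1))) (by positivity)
  have hlow := lower_fin hp1 M.dis M.dis_sym hα.le
    (I := sInf 𝓢 - α * c - ε / 4 - (2 * α * p + 1) * (ε / 4 / (2 * α * p + 1 + (α + 1))))
    (fun r n _ R hR s => by
      obtain ⟨T, hT, hT1, hTv⟩ := conv_a (Trial.part r R hR s)
      have hm := (Expo.unif r).fin_admissible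
      obtain ⟨η, hη, hcont⟩ := PT_cont M.dis hα.le hm hε4
      obtain ⟨Y, hY, hYa⟩ := approx_tanh hT hT1 hη
      have h3 := hcont _ _ hT (measurable_tanh'.comp hY) hT1 (fun u => habs _) hYa
      rw [PT_eq_P M.dis α _ _ _ (hTv _)] at h3
      have h2 := hc.trial hp1 hν hα.le hm hY
      have h4 : sInf 𝓢 ≤ trialFunctional p α μ ν r _ Y := csInf_le hbdd ⟨r, _, Y, hm, hY, rfl⟩
      have := (abs_le.1 h2).2
      have := (abs_le.1 h3).1
      simp only [Function.comp_def] at *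
      linarith) hε4
  obtain ⟨N₀, hN₀⟩ := Filter.eventually_atTop.1 hlow
  refine ⟨max N₀ 1, fun N hN => ?_⟩
  have hN1 : 1 ≤ N := le_of_max_le_right hN
  have h1 := hc.pressure hν hα.le hN1
  have h2 := hN₀ N (le_of_max_le_left hN)
  have h3 : pressure p α μ ν N ≤ sInf 𝓢 := le_csInf hne fun B hB => hup B hB N hN1
  have h5 : (2 * α * p + 1) * (ε / 4 / (2 * α * p + 1 + (α + 1))) +
      (α + 1) * (ε / 4 / (2 * α * p + 1 + (α + 1))) = ε / 4 := by field_simp
  have := (abs_le.1 h1).1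
  rw [Real.dist_eq, abs_lt]
  constructor <;> linarith

end Crest.Agent.R141
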