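import Crest.Prelude.Def_DilutedSpinGlass
import Crest.Agent.R141.FKS

/-!
# Row 141: finite disorder, finite trials and the finite versions of the two functionals
-/

set_option autoImplicit false

namespace Crest.Agent.R141

open Finset Crest.ProbabilityR.Diluted
open scoped BigOperators

/-- Finite disorder: interactions `θ d`, `d ∼ πd`, and fields `h x`, `x ∼ πh`. -/
structure Dis (p : ℕ) (D H : Type) [Fintype D] [Fintype H] where
  πd : FinLaw D
  θ : D → Inter p
  πh : FinLaw H
  h : H → ℝ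

/-- The law of the interaction is invariant under permutations of the legs. -/
def Dis.Sym {p : ℕ} {D H : Type} [Fintype D] [Fintype H] (X : Dis p D H) : Prop :=
  ∀ (π : Equiv.Perm (Fin p)) (Φ : Inter p → ℝ),
    X.πd.E (fun d => Φ fun s => X.θ d fun l => s (π l)) = X.πd.E fun d => Φ (X.θ d)

/-- Finite factorized disorder `exp θ = 1 + b ∏ f_l (s_l)`. -/
structure Model (p : ℕ) (B F H : Type) [Fintype B] [Fintype F] [Fintype H] where
  πb : FinLaw B
  πf : FinLaw F
  πh : FinLaw H
  b : B → ℝ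
  f : F → Bool → ℝ
  h : H → ℝ
  ρ : ℝ
  ρ_lt : ρ < 1
  bound : ∀ (x : B) (y : Fin p → F) (s : Fin p → Bool), |b x * ∏ l, f (y l) (s l)| ≤ ρ
  mom : ∀ n : ℕ, 1 ≤ n → 0 ≤ πb.E fun x => (-b x) ^ n
  sign : Even p ∨ ∀ y s, 0 ≤ f y s

/-- The finite disorder of a factorized model. -/
noncomputable def Model.dis {p : ℕ} {B F H : Type} [Fintype B] [Fintype F] [Fintype H]
    (M : Model p B F H) : Dis p (B × (Fin p → F)) H where
  πd := M.πb.prod (FinLaw.pi fun _ : Fin p => M.πf)
  θ d s := Real.log (1 + M.b d.1 * ∏ l, M.f (d.2 l) (s l))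
  πh := M.πh
  h := M.h

/-- The pressure for finite disorder. -/
noncomputable def Dis.pressure {p : ℕ} {D H : Type} [Fintype D] [Fintype H] (X : Dis p D H)
    (α : ℝ) (N : ℕ) : ℝ :=
  (1 / (N : ℝ)) * ∑' M : ℕ, poissonWeight (α * N) M *
    (FinLaw.pi fun _ : Fin M => X.πd).E fun ds => (FinLaw.pi fun _ : Fin N => X.πh).E fun hs =>
      (Fintype.card (Fin M → Fin p → Fin N) : ℝ)⁻¹ * ∑ idx : Fin M → Fin p → Fin N,
        logPartition N (fun k => X.θ (ds k)) idx (fun i => X.h (hs i))

/-- A finite trial of depth `r`: a filtered kernel system, a law of the starting point (level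
`0`) and a spin read at the end. -/
structure Trial (r : ℕ) (Ω : Type) [Fintype Ω] where
  S : FKS Ω r
  ν : FinLaw Ω
  s : Ω → Bool

/-- Expected log nested power mean of `exp w`, every label carrying an independent copy of the
trial. -/
noncomputable def Trial.val {r : ℕ} {Ω : Type} [Fintype Ω] (ζ : Trial r Ω) (e : Expo r)
    {L : Type} [Fintype L] [DecidableEq L] (w : (L → Bool) → ℝ) : ℝ :=
  (FinLaw.pi fun _ : L => ζ.ν).E fun z =>
    (Kern.pi fun _ : L => ζ.S.toKern).lp e (fun ω => w fun l => ζ.s (ω l)) 0 z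

/-- The trial given by a refining chain of partitions of a finite set with the uniform law. -/
noncomputable def Trial.part (r : ℕ) {Ω : Type} [Fintype Ω] [Nonempty Ω] (R : ℕ → Setoid Ω)
    (hR : ∀ j a b, R (j + 1) a b → R j a b) (s : Ω → Bool) : Trial r Ω where
  S := FKS.part r R hR
  ν := FinLaw.unif Ω
  s := s

/-- Put `ε` in the last leg. -/
def lastLeg {p : ℕ} {β : Type} (s : Fin (p - 1) → β) (ε : β) : Fin p → β :=
  fun l => if h : l.val < p - 1 then s ⟨l.val, h⟩ else ε

/-- Log-weight of a cavity site with field `h` and `k` interactions. -/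
noncomputable def siteW {p k : ℕ} (h : ℝ) (θs : Fin k → Inter p)
    (s : Fin k × Fin (p - 1) → Bool) : ℝ :=
  Real.log ((1 / 2) * ∑ ε : Bool,
    Real.exp (h * spinVal ε + ∑ j : Fin k, θs j (lastLeg (fun l => s (j, l)) ε)))

/-- The shape of the cavity functional, for an abstract evaluation `val` of log-weights. -/
noncomputable def Dis.cav {p : ℕ} {D H : Type} [Fintype D] [Fintype H] (X : Dis p D H) (α : ℝ)
    (vs : (k : ℕ) → ((Fin k × Fin (p - 1) → Bool) → ℝ) → ℝ) (ve : Inter p → ℝ) : ℝ :=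
  Real.log 2 + (∑' k : ℕ, poissonWeight (α * p) k *
    (FinLaw.pi fun _ : Fin k => X.πd).E fun ds => X.πh.E fun x =>
      vs k (siteW (X.h x) fun j => X.θ (ds j))) -
    α * (p - 1 : ℝ) * X.πd.E fun d => ve (X.θ d)

/-- The cavity functional of a finite trial. -/
noncomputable def Dis.P {p : ℕ} {D H : Type} [Fintype D] [Fintype H] (X : Dis p D H) (α : ℝ)
    {r : ℕ} (e : Expo r) {Ω : Type} [Fintype Ω] (ζ : Trial r Ω) : ℝ :=
  X.cav α (fun _ w => ζ.val e w) fun w => ζ.val e w

end Crest.Agent.R141
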