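import Crest.Agent.R141.CDefs

/-!
# Row 141: elementary properties of the perturbed free energy

Recipes. `|gEn| ≤ C₀ + 1 + r τ`. `base.lp (v ∘ sig) 0 = log 𝔼 exp v` (`hom_restrict Sum.inl`, `lp_of_const`,
`lvl_A_of_lt`, `pi_unif_E`). New site: for `ξ' = ξ` with labels mapped by `Fin.castSucc`, split the coordinates
into those of `M` sites and `inl (Fin.last M)` (`hom_split`/`hom_eval`, `lp_prod_last`), so the two `lp` agree;
such `ξ'` have uniform probability `(M/(M+1))^(c |K|) ≥ 1 - c |K|/(M+1)` (`one_add_mul_le_pow`), and all terms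
on both sides are within `c (C₀ + 1 + r τ)` of `log 𝔼 exp v`.
-/

set_option autoImplicit false

namespace Crest.Agent.R141

open Finset Crest.ProbabilityR.Diluted
open scoped BigOperators

variable {W K : Type} [Fintype W] [Nonempty W] [Fintype K] [DecidableEq K] {r : ℕ}

omit [Fintype W] [Nonempty W] [Fintype K] [DecidableEq K] in
theorem abs_gEn_le {ι C : Type} {w : W → (K → Bool) → ℝ} {C₀ τ : ℝ} (hC : 1 ≤ C₀)
    (hw : ∀ d x, |w d x| ≤ C₀) (hτ : 0 ≤ τ) {n : ℕ} (a : Gd W K ι n) (g : C)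
    (ω : Co ι C r → Bool) : |gEn w C₀ τ a g ω| ≤ C₀ + 1 + r * τ := by
  have hs : ∀ b, |spinVal b| = 1 := fun b => by cases b <;> simp [spinVal]
  have hr : |rd ω g| = 1 := hs _
  unfold gEn
  set x := w a.1.1 fun k => sig ω (a.2 k)
  have hx : |x| ≤ C₀ := hw _ _
  have h1 : |(a.1.2 : ℝ) / n * x| ≤ C₀ := by
    rw [abs_mul, abs_of_nonneg (by positivity)]
    have : ((a.1.2 : ℕ) : ℝ) / n ≤ 1 :=
      div_le_one_of_le₀ (by exact_mod_cast a.1.2.2.le) (Nat.cast_nonneg _)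
    nlinarith [abs_nonneg x]
  have h2 : |Real.log (1 + rd ω g * x / (2 * C₀))| ≤ 1 := by
    have h3 : |rd ω g * x / (2 * C₀)| ≤ 1 / 2 := by
      rw [abs_div, abs_mul, hr, one_mul, abs_of_pos (by linarith : 0 < 2 * C₀),
        div_le_iff₀ (by linarith)]
      linarith
    obtain ⟨h4, h5⟩ := abs_le.1 h3
    generalize rd ω g * x / (2 * C₀) = y at h4 h5
    have h6 := Real.log_le_sub_one_of_pos (show 0 < 1 + y by linarith)
    have h7 := Real.one_sub_inv_le_log_of_pos (show 0 < 1 + y by linarith)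
    have h8 : (1 + y)⁻¹ ≤ 2 := by rw [inv_le_comm₀ (by linarith) two_pos]; linarith
    exact abs_le.2 ⟨by linarith, by linarith⟩
  have h3 : |τ * ∑ j : Fin r, spinVal (ω (Sum.inr (Sum.inr (g, j)))) * rd ω g| ≤ r * τ := by
    rw [abs_mul, abs_of_nonneg hτ, mul_comm]
    refine mul_le_mul_of_nonneg_right ((abs_sum_le_sum_abs _ _).trans (le_of_eq ?_)) hτ
    simp [abs_mul, hs, hr]
  exact (abs_add_three _ _ _).trans (by linarith)

theorem Pert_abs_expect_le {X : Type} [Fintype X] {f : X → ℝ} {d : ℝ} (hd : 0 ≤ d)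
    (h : ∀ x, |f x| ≤ d) : |𝔼 x, f x| ≤ d := by
  rcases isEmpty_or_nonempty X with _ | _
  · simpa using hd
  · exact abs_le.2 ⟨le_expect univ_nonempty fun x _ => (abs_le.1 (h x)).1,
      expect_le univ_nonempty fun x _ => (abs_le.1 (h x)).2⟩

theorem Pert_expect_inj {X X' : Type} [Fintype X] [Fintype X'] [Nonempty X] {φ : X → X'}
    (hφ : Function.Injective φ) {f : X' → ℝ} {a b : ℝ} (h : ∀ x, |f x - a| ≤ b) :
    |(𝔼 x, f x) - 𝔼 x, f (φ x)| ≤ 2 * b * (1 - (Fintype.card X : ℝ) / Fintype.card X') := by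
  classical
  have : Nonempty X' := ⟨φ (Classical.arbitrary X)⟩
  have hX : (0 : ℝ) < Fintype.card X := by exact_mod_cast Fintype.card_pos
  have hX' : (0 : ℝ) < Fintype.card X' := by exact_mod_cast Fintype.card_pos
  set m := 𝔼 x, f (φ x) with hm
  have h1 : |m - a| ≤ b := by
    have := Pert_abs_expect_le ((abs_nonneg _).trans (h (Classical.arbitrary X'))) fun x => h (φ x)
    rwa [expect_sub_distrib, Fintype.expect_const] at this
  have h2 : ∑ x ∈ univ.image φ, (f x - m) = 0 := by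
    rw [sum_image fun x _ y _ hxy => hφ hxy, sum_sub_distrib, sum_const, card_univ, nsmul_eq_mul, hm,
      Fintype.expect_eq_sum_div_card]
    field_simp
    ring
  have h3 : (𝔼 x, f x) - m = (∑ x ∈ (univ.image φ)ᶜ, (f x - m)) / Fintype.card X' := by
    rw [← add_zero (∑ x ∈ (univ.image φ)ᶜ, _), ← h2, sum_compl_add_sum, sum_sub_distrib, sum_const,
      card_univ, nsmul_eq_mul, Fintype.expect_eq_sum_div_card]
    field_simp
  have h4 : |∑ x ∈ (univ.image φ)ᶜ, (f x - m)| ≤ ((univ.image φ)ᶜ.card : ℝ) * (2 * b) := by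
    refine (abs_sum_le_sum_abs _ _).trans ?_
    rw [← nsmul_eq_mul]
    refine sum_le_card_nsmul _ _ _ fun x _ => ?_
    have := abs_sub_le (f x) a m
    rw [abs_sub_comm a m] at this
    linarith [h x]
  rw [card_compl, card_image_of_injective _ hφ, card_univ,
    Nat.cast_sub (Fintype.card_le_of_injective φ hφ)] at h4
  rw [h3, abs_div, abs_of_pos hX', div_le_iff₀ hX']
  refine h4.trans (le_of_eq ?_)
  field_simp

theorem Pert_base_lp {ι C : Type} [Fintype ι] [DecidableEq ι] [Fintype C] [DecidableEq C]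
    (e : Expo r) (v : (ι → Bool) → ℝ) (z : Co ι C r → Bool) :
    (base ι C r).lp e (fun ω => v (sig ω)) 0 z = Real.log (𝔼 σ, Real.exp (v σ)) := by
  refine ((Kern.hom_restrict (r := r) (fun c : Co ι C r => (FKS.lvl Bool r c.lev).toKern) Sum.inl
    Sum.inl_injective).lp e v 0 z).trans ?_
  rw [Kern.lp_of_const _ e (FinLaw.pi fun _ : ι => FinLaw.unif Bool) _ v (Nat.zero_le r),
    FinLaw.pi_unif_E]
  intro j hj z
  funext ω
  exact prod_congr rfl fun i _ => FKS.lvl_A_of_lt Bool r (Nat.lt_succ_of_le hj) _ _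

omit [Fintype W] [Nonempty W] [Fintype K] [DecidableEq K] in
theorem Pert_abs_lp_sub {ι : Type} [Fintype ι] [DecidableEq ι] (e : Expo r)
    {w : W → (K → Bool) → ℝ} {C₀ τ : ℝ} (hC : 1 ≤ C₀) (hw : ∀ d x, |w d x| ≤ C₀) (hτ : 0 ≤ τ)
    {n c : ℕ} (v : (ι → Bool) → ℝ) (ξ : Fin c → Gd W K ι n) :
    |(base ι (Fin c) r).lp e (totEn w C₀ τ v ξ) 0 root - Real.log (𝔼 σ, Real.exp (v σ))| ≤
      c * (C₀ + 1 + r * τ) := by
  rw [← Pert_base_lp (C := Fin c) e v root]
  refine Kern.abs_lp_sub_le _ e (fun ω => ?_) 0 root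
  rw [totEn, add_sub_cancel_left]
  refine (abs_sum_le_sum_abs _ _).trans ((sum_le_card_nsmul _ _ _ fun g _ =>
    abs_gEn_le hC hw hτ (ξ g) g ω).trans (le_of_eq ?_))
  rw [card_univ, Fintype.card_fin, nsmul_eq_mul]

omit [Fintype W] [Nonempty W] [Fintype K] [DecidableEq K] in
theorem Pert_lp_succ {C : Type} [Fintype C] [DecidableEq C] (e : Expo r)
    (w : W → (K → Bool) → ℝ) (C₀ τ : ℝ) {n M : ℕ} (v : (Fin (M + 1) → Bool) → ℝ)
    (ξ : C → Gd W K (Fin M) n) :
    (base (Fin (M + 1)) C r).lp e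
        (totEn w C₀ τ v fun g => ((ξ g).1, fun k => ((ξ g).2 k).castSucc)) 0 root =
      (base (Fin M) C r).lp e (totEn w C₀ τ
        (fun σ => Real.log (𝔼 ε : Bool, Real.exp (v (Fin.snoc σ ε)))) ξ) 0 root := by
  let T : Co (Fin (M + 1)) C r → Kern Bool := fun c => (FKS.lvl Bool r c.lev).toKern
  let ι₁ : Co (Fin M) C r → Co (Fin (M + 1)) C r := Sum.map Fin.castSucc id
  have h₁ : Function.Injective ι₁ :=
    Sum.map_injective.2 ⟨Fin.castSucc_injective M, Function.injective_id⟩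
  have h := ((Kern.hom_split (r := r) T ι₁ (fun _ : Unit => Sum.inl (Fin.last M)) h₁
    (fun _ _ _ => rfl) (by
      rintro (a | a) _ h
      · exact (Fin.castSucc_lt_last a).ne (Sum.inl_injective h)
      · cases h)).comp ((Kern.Hom.id _).prod_map (Kern.hom_eval _ ()))).lp e
    (fun ω => v (Fin.snoc (sig ω.1) ω.2) + ∑ g, gEn w C₀ τ (ξ g) g ω.1) 0 root
  have hT : (Kern.pi fun a => T (ι₁ a)) = (base (Fin M) C r).toKern := by
    show _ = Kern.pi _
    congr 1
    funext a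
    rcases a with a | a | a <;> rfl
  rw [Kern.lp_prod_last _ (T (Sum.inl (Fin.last M))) e (FinLaw.unif Bool)
    (fun j hj z => funext fun ω => FKS.lvl_A_of_lt Bool r (Nat.lt_succ_of_le hj) _ _) _
    (Nat.zero_le r), hT] at h
  refine Eq.trans ?_ (h.trans ?_)
  · show (Kern.pi T).lp e _ 0 root = _
    congr 1
    funext ω
    exact congrArg₂ (· + ·) (congrArg v (Fin.snoc_init_self _).symm) rfl
  · congr 1
    funext ω
    have hp := Kern.PiKern_E_exp_pos (FinLaw.unif Bool) fun x => v (Fin.snoc (sig ω) x)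
    simp only [Real.exp_add, mul_comm (Real.exp (v _))]
    rw [FinLaw.E_smul, Real.log_mul (Real.exp_pos _).ne' hp.ne', Real.log_exp, FinLaw.unif_E, totEn,
      add_comm]

theorem abs_Psi_sub_le (e : Expo r) {w : W → (K → Bool) → ℝ} {C₀ τ : ℝ} (hC : 1 ≤ C₀)
    (hw : ∀ d x, |w d x| ≤ C₀) (hτ : 0 ≤ τ) {n : ℕ} (hn : 1 ≤ n) (c : ℕ) {M : ℕ} (hM : 1 ≤ M)
    (v : (Fin M → Bool) → ℝ) :
    |Psi e w C₀ τ n c M v - Real.log (𝔼 σ, Real.exp (v σ))| ≤ c * (C₀ + 1 + r * τ) := by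
  have : Nonempty (Fin n) := ⟨⟨0, hn⟩⟩
  have : Nonempty (Fin M) := ⟨⟨0, hM⟩⟩
  have := Pert_abs_expect_le (by positivity) fun ξ : Fin c → Gd W K (Fin M) n =>
    Pert_abs_lp_sub e hC hw hτ v ξ
  rwa [expect_sub_distrib, Fintype.expect_const] at this

theorem Psi_lip (e : Expo r) (w : W → (K → Bool) → ℝ) (C₀ τ : ℝ) (n c M : ℕ) :
    LipschitzWith 1 (Psi e w C₀ τ n c M) := by
  refine LipschitzWith.of_dist_le_mul fun v v' => ?_
  rw [NNReal.coe_one, one_mul, Real.dist_eq, Psi, Psi, ← expect_sub_distrib]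
  refine Pert_abs_expect_le dist_nonneg fun ξ => Kern.abs_lp_sub_le _ e (fun ω => ?_) 0 root
  rw [totEn, totEn, add_sub_add_right_eq_sub, ← Real.dist_eq]
  exact dist_le_pi_dist v v' _

theorem abs_Psi_succ_sub_le (e : Expo r) {w : W → (K → Bool) → ℝ} {C₀ τ : ℝ} (hC : 1 ≤ C₀)
    (hw : ∀ d x, |w d x| ≤ C₀) (hτ : 0 ≤ τ) {n : ℕ} (hn : 1 ≤ n) (c : ℕ) {M : ℕ} (hM : 1 ≤ M)
    (v : (Fin (M + 1) → Bool) → ℝ) :
    |Psi e w C₀ τ n c (M + 1) v -
        Psi e w C₀ τ n c M fun σ => Real.log (𝔼 ε : Bool, Real.exp (v (Fin.snoc σ ε)))| ≤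
      2 * (c * (C₀ + 1 + r * τ)) * (c * Fintype.card K) / (M + 1) := by
  have : Nonempty (Fin n) := ⟨⟨0, hn⟩⟩
  have : Nonempty (Fin M) := ⟨⟨0, hM⟩⟩
  have h := Pert_expect_inj (X := Fin c → Gd W K (Fin M) n) (X' := Fin c → Gd W K (Fin (M + 1)) n)
    (φ := fun ξ g => ((ξ g).1, fun k => ((ξ g).2 k).castSucc)) (fun ξ ξ' h => funext fun g =>
      Prod.ext (congrArg Prod.fst (congrFun h g) :) (funext fun k =>
        Fin.castSucc_injective M (congrFun (congrArg Prod.snd (congrFun h g)) k :)))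
    fun ξ => Pert_abs_lp_sub e hC hw hτ v ξ
  simp only [Pert_lp_succ] at h
  refine h.trans ?_
  rw [mul_div_assoc]
  refine mul_le_mul_of_nonneg_left ?_ (by positivity)
  have hW : (0 : ℝ) < Fintype.card W := by exact_mod_cast Fintype.card_pos
  have hn' : (0 : ℝ) < n := by exact_mod_cast hn
  have hq : (Fintype.card (Fin c → Gd W K (Fin M) n) : ℝ) /
      Fintype.card (Fin c → Gd W K (Fin (M + 1)) n) =
      (1 + -(1 / ((M : ℝ) + 1))) ^ (Fintype.card K * c) := by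
    have : 1 + -(1 / ((M : ℝ) + 1)) = M / (M + 1) := by field_simp; ring
    simp only [this, Fintype.card_fun, Fintype.card_prod, Fintype.card_fin]
    push_cast
    rw [← div_pow, mul_div_mul_left _ _ (by positivity), ← div_pow, pow_mul]
  have hb := one_add_mul_le_pow (a := -(1 / ((M : ℝ) + 1))) (by
    have : 1 / ((M : ℝ) + 1) ≤ 1 := by rw [div_le_one (by positivity)]; linarith [Nat.cast_nonneg (α := ℝ) M]
    linarith) (Fintype.card K * c)
  rw [hq]
  push_cast at hb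
  have : (c : ℝ) * Fintype.card K / (M + 1) = Fintype.card K * c * (1 / ((M : ℝ) + 1)) := by ring
  linarith

omit [Nonempty W] in
theorem Psi_add_sub (e : Expo r) (w : W → (K → Bool) → ℝ) (C₀ τ : ℝ) (n c M : ℕ)
    (v v' : (Fin M → Bool) → ℝ) :
    Psi e w C₀ τ n c M (fun σ => v σ + v' σ) - Psi e w C₀ τ n c M v =
      𝔼 ξ : Fin c → Gd W K (Fin M) n, (sys e w C₀ τ v ξ).lp e (fun ω => v' (sig ω)) 0 root := by
  rw [Psi, Psi, ← expect_sub_distrib]
  refine expect_congr rfl fun ξ _ => ?_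
  rw [sys, FKS.lp_tilt]
  congr 2
  funext ω
  simp only [totEn]
  ring

end Crest.Agent.R141
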