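import Crest.Agent.R141.PiLaw

/-!
# Row 141: product laws, product kernels, partitions (tool box)

Recipes. Everything is a finite-sum identity. For `FinLaw.pi` use `Equiv.piSplitAt`,
`Equiv.piEquivPiSubtypeProd`, `Fin.consEquiv`/`Fin.insertNthEquiv`, `Finset.prod_univ_sum`.
`pi_E_restrict`: split `L` into the range of `ι` and its complement (or prove first `pi_E_update`
and remove the coordinates outside the range one by one). The kernel statements are the law
statements for the laws `(T l).law j (z l)` (`Kern.ex_eq_E`; `(Kern.pi T).law j z` is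
`FinLaw.pi fun l => (T l).law j (z l)` by `rfl`).
-/

set_option autoImplicit false

namespace Crest.Agent.R141

open Finset
open scoped BigOperators

namespace Kern
variable {Ω : Type} [Fintype Ω] {L : Type} [Fintype L] [DecidableEq L] {r : ℕ}

theorem hom_restrict {L' : Type} [Fintype L'] [DecidableEq L'] (T : L → Kern Ω) (ι : L' → L)
    (hι : Function.Injective ι) :
    Hom r (pi T) (pi fun l => T (ι l)) fun z l => z (ι l) := by
  exact fun j _ f z => FinLaw.pi_E_restrict (fun l => (T l).law j (z l)) ι hι f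

theorem hom_eval (T : L → Kern Ω) (l : L) : Hom r (pi T) (T l) fun z => z l := by
  exact fun j _ f z => FinLaw.pi_E_eval (fun l => (T l).law j (z l)) l f

theorem hom_split {L₁ L₂ : Type} [Fintype L₁] [DecidableEq L₁] [Fintype L₂] [DecidableEq L₂]
    (T : L → Kern Ω) (ι₁ : L₁ → L) (ι₂ : L₂ → L) (h₁ : Function.Injective ι₁)
    (h₂ : Function.Injective ι₂) (hd : ∀ a b, ι₁ a ≠ ι₂ b) :
    Hom r (pi T) ((pi fun a => T (ι₁ a)).prod (pi fun b => T (ι₂ b)))
      fun z => (fun a => z (ι₁ a), fun b => z (ι₂ b)) := by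
  intro j _ f z
  rw [prod_ex]
  exact FinLaw.pi_E_split (fun l => (T l).law j (z l)) ι₁ ι₂ h₁ h₂ hd fun x y => f (x, y)

theorem Hom.prod_map {Ω₁ Ω₂ Ω₁' Ω₂' : Type} [Fintype Ω₁] [Fintype Ω₂] [Fintype Ω₁']
    [Fintype Ω₂'] {S₁ : Kern Ω₁} {S₂ : Kern Ω₂} {S₁' : Kern Ω₁'} {S₂' : Kern Ω₂'}
    {φ : Ω₁ → Ω₁'} {ψ : Ω₂ → Ω₂'} (h₁ : Hom r S₁ S₁' φ) (h₂ : Hom r S₂ S₂' ψ) :
    Hom r (S₁.prod S₂) (S₁'.prod S₂') fun z => (φ z.1, ψ z.2) := by
  intro j hj f z
  rw [prod_ex, prod_ex, ← h₁ j hj fun a => S₂'.ex j (fun b => f (a, b)) (ψ z.2)]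
  congr 1
  funext a
  exact h₂ j hj (fun b => f (φ a, b)) z.2

theorem Hom.pi_map {Ω' : Type} [Fintype Ω'] {T : L → Kern Ω} {T' : L → Kern Ω'}
    {φ : L → Ω → Ω'} (h : ∀ l, Hom r (T l) (T' l) (φ l)) :
    Hom r (pi T) (pi T') fun z l => φ l (z l) := by
  exact fun j hj f z => FinLaw.pi_E_map (fun l => (T l).law j (z l))
    (fun l => (T' l).law j (φ l (z l))) φ (fun l g => h l j hj g (z l)) f

theorem Hom.id (S : Kern Ω) : Hom r S S fun z => z := fun _ _ _ _ => rfl

theorem PiKern_lp_add (T : L → Kern Ω) (e : Expo r) (s : Set L) {v v' : (L → Ω) → ℝ}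
    (hv : DependsOn v s) (hv' : DependsOn v' sᶜ) (j : ℕ) (z : L → Ω) :
    (pi T).lp e (fun ω => v ω + v' ω) j z = (pi T).lp e v j z + (pi T).lp e v' j z := by
  classical
  have key : ∀ (t : Set L) (w : (L → Ω) → ℝ), DependsOn w t →
      ∃ W : (t → Ω) → ℝ, w = fun ω => W fun a => ω a := fun t w hw =>
    ⟨fun y => w fun l => if h : l ∈ t then y ⟨l, h⟩ else z l,
      funext fun ω => hw fun l hl => by simp [hl]⟩
  obtain ⟨V, rfl⟩ := key s v hv
  obtain ⟨V', rfl⟩ := key sᶜ v' hv'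
  have h := (hom_split (r := r) T (fun a : s => (a : L)) (fun a : ↥sᶜ => (a : L))
    Subtype.val_injective Subtype.val_injective fun a b hab => b.2 (hab ▸ a.2)).lp e
    (fun ω => V ω.1 + V' ω.2) j z
  rw [lp_prod] at h
  rw [(hom_restrict T (fun a : s => (a : L)) Subtype.val_injective).lp e V j z,
    (hom_restrict T (fun a : ↥sᶜ => (a : L)) Subtype.val_injective).lp e V' j z]
  exact h

/-- Energies with pairwise disjoint supports: the nested power means multiply. Recipe: for two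
energies depending on `s` and on `sᶜ` use `hom_split` with the subtype inclusions, `Hom.lp` and
`lp_prod` (or a direct downward induction); then induct on the finite family. -/
theorem lp_pi_sum (T : L → Kern Ω) (e : Expo r) {J : Type} (t : Finset J) (s : J → Set L)
    (hs : ∀ a ∈ t, ∀ b ∈ t, a ≠ b → Disjoint (s a) (s b)) (v : J → (L → Ω) → ℝ)
    (hv : ∀ a ∈ t, DependsOn (v a) (s a)) (j : ℕ) (z : L → Ω) :
    (pi T).lp e (fun ω => ∑ a ∈ t, v a ω) j z = ∑ a ∈ t, (pi T).lp e (v a) j z := by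
  classical
  induction t using Finset.induction_on with
  | empty => simpa using lp_const (pi T) e 0 j z
  | insert a t ha ih =>
    simp only [sum_insert ha]
    rw [PiKern_lp_add T e (s a) (hv a (mem_insert_self _ _)),
      ih (fun b hb c hc => hs b (mem_insert_of_mem hb) c (mem_insert_of_mem hc))
        fun b hb => hv b (mem_insert_of_mem hb)]
    intro x y hxy
    refine sum_congr rfl fun b hb => hv b (mem_insert_of_mem hb) fun l hl => hxy l fun hl' => ?_
    exact Set.disjoint_left.1 (hs a (mem_insert_self _ _) b (mem_insert_of_mem hb)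
      fun h => ha (h ▸ hb)) hl' hl

/-- If the kernels of the levels `≤ r` all equal the law `μ`, `lp` is a plain log-mean. -/
theorem lp_of_const (S : Kern Ω) (e : Expo r) (μ : FinLaw Ω) (h : ∀ j ≤ r, ∀ z, S.A j z = μ.w)
    (v : Ω → ℝ) {j : ℕ} (hj : j ≤ r) (z : Ω) :
    S.lp e v j z = Real.log (μ.E fun ω => Real.exp (v ω)) := by
  induction j using down_ind (r := r) generalizing z with
  | top j hj' => omega
  | step j _ ih =>
    rw [S.lp_succ e v hj]
    by_cases h' : j = r
    · subst h'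
      simp only [S.lp_top e v le_rfl, e.top, inv_one, one_mul, ex, h j le_rfl z, FinLaw.E]
    · have hm := e.pos hj
      simp only [ih (by omega), ex_const, Real.log_exp]
      field_simp

theorem PiKern_E_exp_pos (μ : FinLaw Ω) (f : Ω → ℝ) : 0 < μ.E fun x => Real.exp (f x) := by
  obtain ⟨ω, hω⟩ := μ.exists_le_E fun x => Real.exp (f x)
  exact (Real.exp_pos _).trans_le hω

/-- Summing out a last-level factor: if `S'` resamples from `μ` at all levels `≤ r`, the nested
power mean of `exp v` on `S × S'` is that of the `μ`-marginal. -/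
theorem lp_prod_last {Ω' : Type} [Fintype Ω'] (S : Kern Ω) (S' : Kern Ω') (e : Expo r)
    (μ : FinLaw Ω') (h : ∀ j ≤ r, ∀ z, S'.A j z = μ.w) (v : Ω × Ω' → ℝ) {j : ℕ} (hj : j ≤ r)
    (z : Ω × Ω') : (S.prod S').lp e v j z =
      S.lp e (fun ω => Real.log (μ.E fun x => Real.exp (v (ω, x)))) j z.1 := by
  induction j using down_ind (r := r) generalizing z with
  | top j hj' => omega
  | step j _ ih =>
    rw [lp_succ _ e v hj, S.lp_succ e _ hj, prod_ex]
    congr 3
    funext ω
    by_cases h' : j = r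
    · subst h'
      rw [lp_top _ e v le_rfl, S.lp_top e _ le_rfl]
      simp only [e.top, one_mul]
      rw [Real.exp_log (PiKern_E_exp_pos μ _)]
      simp only [ex, h j le_rfl, FinLaw.E]
    · simp only [ih (by omega), ex_const]

end Kern

/-- The tilted version of `lp_prod_last`: averages for the tilted product system. -/
theorem FKS.tilt_prod_last_ex {Ω Ω' : Type} [Fintype Ω] [Fintype Ω'] {r : ℕ} (S : FKS Ω r)
    (S' : FKS Ω' r) (e : Expo r) (μ : FinLaw Ω') (h : ∀ j ≤ r, ∀ z, S'.A j z = μ.w)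
    (v f : Ω × Ω' → ℝ) {j : ℕ} (hj : j ≤ r) (z : Ω × Ω') :
    ((S.prod S').tilt e v).ex j f z =
      (S.tilt e fun ω => Real.log (μ.E fun x => Real.exp (v (ω, x)))).ex j
        (fun ω => (μ.E fun x => Real.exp (v (ω, x)) * f (ω, x)) /
          μ.E fun x => Real.exp (v (ω, x))) z.1 := by
  rw [FKS.tilt_ex, FKS.tilt_ex]
  refine (Kern.prod_ex S.toKern S'.toKern j _ z).trans ?_
  congr 1
  funext ω
  have hp := Kern.PiKern_E_exp_pos μ fun x => v (ω, x)
  have key : ∀ x, (S.prod S').tau e v j (ω, x) =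
      S.tau e (fun ω => Real.log (μ.E fun x => Real.exp (v (ω, x)))) j ω /
        (μ.E fun x => Real.exp (v (ω, x))) * Real.exp (v (ω, x)) := by
    intro x
    unfold FKS.tau
    conv_rhs => rw [← Real.exp_log hp]
    rw [← Real.exp_sub, ← Real.exp_add]
    congr 1
    have h1 : ∀ i ∈ range (r + 1), e.d i * (v (ω, x) - (S.prod S').lp e v (max i j) (ω, x)) =
        e.d i * (Real.log (μ.E fun x => Real.exp (v (ω, x))) - S.lp e
          (fun ω => Real.log (μ.E fun x => Real.exp (v (ω, x)))) (max i j) ω) +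
        e.d i * (v (ω, x) - Real.log (μ.E fun x => Real.exp (v (ω, x)))) := by
      intro i hi
      have := Kern.lp_prod_last S.toKern S'.toKern e μ h v
        (max_le (Nat.lt_succ_iff.1 (mem_range.1 hi)) hj) (ω, x)
      rw [show (S.prod S').lp e v (max i j) (ω, x) = _ from this]
      ring
    rw [sum_congr rfl h1, sum_add_distrib, ← sum_mul, e.sum_d_top]
    ring
  simp only [key, mul_assoc]
  rw [Kern.ex_smul]
  simp only [Kern.ex, h j hj, FinLaw.E]
  ring

/-- A morphism of base systems transports tilted averages (restating `FKS.tilt_hom`). -/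
theorem FKS.tilt_ex_hom {Ω Ω' : Type} [Fintype Ω] [Fintype Ω'] {r : ℕ} {S : FKS Ω r}
    {S' : FKS Ω' r} {φ : Ω → Ω'} (h : Kern.Hom r S.toKern S'.toKern φ) (e : Expo r) (v f : Ω' → ℝ)
    {j : ℕ} (hj : j ≤ r) (z : Ω) :
    (S.tilt e fun ω => v (φ ω)).ex j (fun ω => f (φ ω)) z = (S'.tilt e v).ex j f (φ z) :=
  FKS.tilt_hom h e v j hj f z

/-- Sum of the squared martingale increments. -/
theorem FKS.sum_var_le {Ω : Type} [Fintype Ω] {r : ℕ} (S : FKS Ω r) {f : Ω → ℝ}
    (hf : ∀ ω, |f ω| ≤ 1) (z : Ω) :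
    ∑ p ∈ range r, S.ex 0 (fun ω => (S.ex (p + 1) f ω - S.ex p f ω) ^ 2) z ≤ 1 := by
  have key : ∀ p ∈ range r, S.ex 0 (fun ω => (S.ex (p + 1) f ω - S.ex p f ω) ^ 2) z =
      S.ex 0 (fun ω => S.ex (p + 1) f ω ^ 2) z - S.ex 0 (fun ω => S.ex p f ω ^ 2) z := by
    intro p hp
    have hp' := mem_range.1 hp
    have h1 : S.ex 0 (fun ω => S.ex p f ω * S.ex (p + 1) f ω) z =
        S.ex 0 (fun ω => S.ex p f ω ^ 2) z := by
      rw [← S.ex_ex (Nat.zero_le p) hp'.le]
      congr 1
      funext ω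
      rw [S.ex_inv_mul (S.inv_ex p f), S.ex_ex_succ hp', sq]
    have h2 : (fun ω => (S.ex (p + 1) f ω - S.ex p f ω) ^ 2) = fun ω =>
        (S.ex (p + 1) f ω ^ 2 + S.ex p f ω ^ 2) - 2 * (S.ex p f ω * S.ex (p + 1) f ω) := by
      funext ω; ring
    rw [h2, S.ex_sub, S.ex_add, S.ex_smul, h1]
    ring
  rw [sum_congr rfl key, sum_range_sub fun p => S.ex 0 (fun ω => S.ex p f ω ^ 2) z]
  have h1 : S.ex 0 (fun ω => S.ex r f ω ^ 2) z ≤ S.ex 0 (fun _ => 1) z :=
    S.ex_mono 0 (fun ω => (sq_le_one_iff_abs_le_one _).2 (S.abs_ex_le r hf ω)) z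
  rw [S.ex_const] at h1
  have h2 := S.ex_nonneg 0 (f := fun ω => S.ex 0 f ω ^ 2) (fun ω => sq_nonneg _) z
  linarith

end Crest.Agent.R141
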