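import Crest.Agent.R141.Model

/-!
# Row 141: product laws, product kernels, partitions (tool box)

Recipes. Everything is a finite-sum identity. For `FinLaw.pi` use `Equiv.piSplitAt`,
`Equiv.piEquivPiSubtypeProd`, `Fin.consEquiv`/`Fin.insertNthEquiv`, `Finset.prod_univ_sum`.
`pi_E_restrict`: split `L` into the range of `ι` and its complement (or prove first `pi_E_update`
and remove the coordinates outside the range one by one). The kernel statements are the law
statements for the laws `(T l).law j (z l)` (`Kern.ex_eq_E`; `(Kern.pi T).law j z` is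
`FinLaw.pi fun l => (T l).law j (z l)` by `rfl`).
-/

set_option autoImplicit false

namespace Crest.Agent.R141

open Finset
open scoped BigOperators

namespace FinLaw
variable {S : Type} [Fintype S] {L : Type} [Fintype L] [DecidableEq L]

theorem pi_E_prod {β : L → Type} [∀ l, Fintype (β l)] (μ : ∀ l, FinLaw (β l))
    (f : ∀ l, β l → ℝ) : (pi μ).E (fun x => ∏ l, f l (x l)) = ∏ l, (μ l).E (f l) := by
  simp only [E, pi, ← Finset.prod_mul_distrib]
  rw [Finset.prod_univ_sum, Fintype.piFinset_univ]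

theorem pl_E_equiv {A B : Type} [Fintype A] [Fintype B] (μ : FinLaw A) (ν : FinLaw B) (e : A ≃ B)
    (h : ∀ a, ν.w (e a) = μ.w a) (f : B → ℝ) : ν.E f = μ.E fun a => f (e a) := by
  simp only [E, ← h]
  exact (e.sum_comp fun b => ν.w b * f b).symm

theorem pl_E_mul_const (μ : FinLaw S) (f : S → ℝ) (c : ℝ) :
    μ.E (fun s => f s * c) = μ.E f * c := by
  simp only [E, Finset.sum_mul, mul_assoc]

/-- A law is determined by the expectations of product functions. -/
theorem pl_eq_pi {β : L → Type} [∀ l, Fintype (β l)] (Λ : FinLaw (∀ l, β l)) (μ : ∀ l, FinLaw (β l))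
    (h : ∀ f : ∀ l, β l → ℝ, Λ.E (fun x => ∏ l, f l (x l)) = ∏ l, (μ l).E (f l)) : Λ = pi μ := by
  classical
  refine ext_w (funext fun y => ?_)
  have h1 := h fun l a => if a = y l then 1 else 0
  simp only [E, Finset.prod_ite_zero, Finset.prod_const_one, mem_univ, forall_const,
    ← funext_iff, mul_ite, mul_one, mul_zero, Finset.sum_ite_eq', if_true] at h1
  exact h1

theorem pi_E_update {β : L → Type} [∀ l, Fintype (β l)] (μ : ∀ l, FinLaw (β l)) (l : L)
    (f : (∀ l, β l) → ℝ) :
    (pi μ).E f = (pi μ).E fun x => (μ l).E fun a => f (Function.update x l a) := by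
  have h := pl_eq_pi (((pi μ).prod (μ l)).map fun p => Function.update p.1 l p.2) μ fun g => by
    rw [map_E, prod_E]
    have h1 : ∀ (x : ∀ l, β l) (a : β l), ∏ k, g k (Function.update x l a k) =
        (∏ k, Function.update g l (fun _ => 1) k (x k)) * g l a := fun x a => by
      rw [← Finset.mul_prod_erase univ _ (mem_univ l), ← Finset.mul_prod_erase univ _ (mem_univ l),
        Function.update_self, Function.update_self, one_mul, mul_comm]
      congr 1
      refine Finset.prod_congr rfl fun k hk => ?_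
      rw [Function.update_of_ne (ne_of_mem_erase hk), Function.update_of_ne (ne_of_mem_erase hk)]
    simp only [h1, E_smul, pl_E_mul_const, pi_E_prod]
    rw [← Finset.mul_prod_erase univ _ (mem_univ l), ← Finset.mul_prod_erase univ _ (mem_univ l),
      Function.update_self, E_const, one_mul, mul_comm]
    congr 1
    refine Finset.prod_congr rfl fun k hk => ?_
    rw [Function.update_of_ne (ne_of_mem_erase hk)]
  conv_lhs => rw [← h, map_E, prod_E]

theorem pi_E_eval {β : L → Type} [∀ l, Fintype (β l)] (μ : ∀ l, FinLaw (β l)) (l : L)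
    (f : β l → ℝ) : (pi μ).E (fun x => f (x l)) = (μ l).E f := by
  rw [pi_E_update μ l]
  simp only [Function.update_self, E_const]

theorem pi_E_cons {n : ℕ} (μ : Fin (n + 1) → FinLaw S) (f : (Fin (n + 1) → S) → ℝ) :
    (pi μ).E f = (μ 0).E fun a => (pi fun i : Fin n => μ i.succ).E fun x => f (Fin.cons a x) := by
  rw [pl_E_equiv ((μ 0).prod (pi fun i : Fin n => μ i.succ)) (pi μ) (Fin.consEquiv fun _ => S)
    fun a => by simp [pi, prod, Fin.consEquiv, Fin.prod_univ_succ], prod_E]
  rfl

theorem pi_E_insertNth {n : ℕ} (μ : Fin (n + 1) → FinLaw S) (g : Fin (n + 1))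
    (f : (Fin (n + 1) → S) → ℝ) :
    (pi μ).E f = (μ g).E fun a => (pi fun i : Fin n => μ (g.succAbove i)).E fun x =>
      f (Fin.insertNth g a x) := by
  rw [pl_E_equiv ((μ g).prod (pi fun i : Fin n => μ (g.succAbove i))) (pi μ)
    (Fin.insertNthEquiv (fun _ => S) g)
    fun a => by simp [pi, prod, Fin.insertNthEquiv, Fin.prod_univ_succAbove _ g], prod_E]
  rfl

theorem pi_E_restrict {L' : Type} [Fintype L'] [DecidableEq L'] (μ : L → FinLaw S) (ι : L' → L)
    (hι : Function.Injective ι) (f : (L' → S) → ℝ) :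
    (pi μ).E (fun x => f fun l => x (ι l)) = (pi fun l => μ (ι l)).E f := by
  have h := pl_eq_pi ((pi μ).map fun x l => x (ι l)) (fun l => μ (ι l)) fun g => by
    rw [map_E]
    have h1 : ∀ x : L → S, ∏ l, g l (x (ι l)) =
        ∏ k, Function.extend ι g (fun _ _ => 1) k (x k) := fun x =>
      Fintype.prod_of_injective ι hι _ _
        (fun k hk => by rw [Function.extend_apply' _ _ _ hk]) fun l => by rw [hι.extend_apply]
    simp only [h1, pi_E_prod]
    exact (Fintype.prod_of_injective ι hι _ _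
      (fun k hk => by rw [Function.extend_apply' _ _ _ hk, E_const])
      fun l => by rw [hι.extend_apply]).symm
  rw [← h, map_E]

theorem pi_E_split {L₁ L₂ : Type} [Fintype L₁] [DecidableEq L₁] [Fintype L₂] [DecidableEq L₂]
    (μ : L → FinLaw S) (ι₁ : L₁ → L) (ι₂ : L₂ → L) (h₁ : Function.Injective ι₁)
    (h₂ : Function.Injective ι₂) (hd : ∀ a b, ι₁ a ≠ ι₂ b) (f : (L₁ → S) → (L₂ → S) → ℝ) :
    (pi μ).E (fun x => f (fun a => x (ι₁ a)) fun b => x (ι₂ b)) =
      (pi fun a => μ (ι₁ a)).E fun x => (pi fun b => μ (ι₂ b)).E fun y => f x y := by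
  have h := pi_E_restrict μ (Sum.elim ι₁ ι₂) (h₁.sumElim h₂ hd)
    fun x => f (fun a => x (Sum.inl a)) fun b => x (Sum.inr b)
  simp only [Sum.elim_inl, Sum.elim_inr] at h
  rw [h, pl_E_equiv ((pi fun a => μ (ι₁ a)).prod (pi fun b => μ (ι₂ b))) _
    (Equiv.sumArrowEquivProdArrow L₁ L₂ S).symm
    fun a => by simp only [pi, prod, Fintype.prod_sum_type]; rfl, prod_E]
  rfl

/-- Coordinatewise images. -/
theorem pi_E_map {T : Type} [Fintype T] (μ : L → FinLaw S) (ν : L → FinLaw T) (φ : L → S → T)
    (h : ∀ l (g : T → ℝ), (μ l).E (fun s => g (φ l s)) = (ν l).E g) (f : (L → T) → ℝ) :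
    (pi μ).E (fun x => f fun l => φ l (x l)) = (pi ν).E f := by
  have h1 := pl_eq_pi ((pi μ).map fun x l => φ l (x l)) ν fun g => by
    rw [map_E, pi_E_prod μ fun l s => g l (φ l s)]
    simp only [h]
  rw [← h1, map_E]

/-- A product of pair laws is a pair of product laws. -/
theorem pi_E_prod_law {T : Type} [Fintype T] (μ : L → FinLaw S) (ν : L → FinLaw T)
    (f : (L → S × T) → ℝ) :
    (pi fun l => (μ l).prod (ν l)).E f =
      (pi μ).E fun x => (pi ν).E fun y => f fun l => (x l, y l) := by
  rw [pl_E_equiv ((pi μ).prod (pi ν)) _ (Equiv.arrowProdEquivProdArrow L (fun _ => S) fun _ => T).symm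
    fun a => by simp [pi, prod, Finset.prod_mul_distrib], prod_E]
  rfl

/-- Currying. -/
theorem pi_E_curry {L' : Type} [Fintype L'] [DecidableEq L'] (μ : L × L' → FinLaw S)
    (f : (L × L' → S) → ℝ) :
    (pi μ).E f = (pi fun l : L => pi fun l' : L' => μ (l, l')).E fun x => f fun a => x a.1 a.2 := by
  rw [pl_E_equiv (pi fun l : L => pi fun l' : L' => μ (l, l')) _ (Equiv.curry L L' S).symm
    fun a => by simp [pi, Fintype.prod_prod_type]]
  rfl

theorem pi_unif_E [Nonempty S] (f : (L → S) → ℝ) :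
    (pi fun _ : L => unif S).E f = 𝔼 x, f x := by
  rw [← unif_E]
  congr 1
  refine ext_w (funext fun x => ?_)
  simp [pi, unif]

theorem sq_E_le (μ : FinLaw S) (f : S → ℝ) : (μ.E f) ^ 2 ≤ μ.E fun s => f s ^ 2 := by
  have h := μ.E_nonneg (f := fun s => (f s - μ.E f) ^ 2) fun s => sq_nonneg _
  have h1 : ∀ s, (f s - μ.E f) ^ 2 = f s ^ 2 - 2 * μ.E f * f s + μ.E f ^ 2 := fun s => by ring
  simp only [h1, E_add, E_sub, E_smul, E_const] at h
  nlinarith

theorem E_abs_le_sqrt (μ : FinLaw S) (f : S → ℝ) :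
    μ.E (fun s => |f s|) ≤ Real.sqrt (μ.E fun s => f s ^ 2) := by
  refine Real.le_sqrt_of_sq_le ?_
  simpa only [sq_abs] using μ.sq_E_le fun s => |f s|

theorem E_mul_le_sqrt (μ : FinLaw S) (f g : S → ℝ) :
    μ.E (fun s => f s * g s) ≤
      Real.sqrt (μ.E fun s => f s ^ 2) * Real.sqrt (μ.E fun s => g s ^ 2) := by
  have h := Real.sum_mul_le_sqrt_mul_sqrt univ (fun s => Real.sqrt (μ.w s) * f s)
    fun s => Real.sqrt (μ.w s) * g s
  have h1 : ∀ s, Real.sqrt (μ.w s) * f s * (Real.sqrt (μ.w s) * g s) = μ.w s * (f s * g s) :=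
    fun s => by
      rw [mul_mul_mul_comm, Real.mul_self_sqrt (μ.nonneg s)]
  simpa only [E, h1, mul_pow, Real.sq_sqrt (μ.nonneg _)] using h

theorem E_sqrt_le (μ : FinLaw S) {f : S → ℝ} (hf : ∀ s, 0 ≤ f s) :
    μ.E (fun s => Real.sqrt (f s)) ≤ Real.sqrt (μ.E f) := by
  refine Real.le_sqrt_of_sq_le ?_
  simpa only [Real.sq_sqrt (hf _)] using μ.sq_E_le fun s => Real.sqrt (f s)

/-- Variance of an empirical mean of `n ≥ 1` independent copies. -/
theorem pi_E_sq_mean_sub (μ : FinLaw S) (n : ℕ) (hn : 1 ≤ n) (f : S → ℝ) {a : ℝ}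
    (hf : ∀ s, |f s| ≤ a) :
    (pi fun _ : Fin n => μ).E (fun x => ((𝔼 i, f (x i)) - μ.E f) ^ 2) ≤ a ^ 2 / n := by
  have hn' : (0 : ℝ) < n := by exact_mod_cast hn
  set g : S → ℝ := fun s => f s - μ.E f with hg
  have g0 : μ.E g = 0 := by rw [hg, E_sub, E_const, sub_self]
  have g2 : μ.E (fun s => g s * g s) ≤ a ^ 2 := by
    have h1 : ∀ s, g s * g s = f s ^ 2 - 2 * μ.E f * f s + μ.E f ^ 2 := fun s => by
      simp only [hg]; ring
    have h2 : μ.E (fun s => f s ^ 2) ≤ a ^ 2 := by
      rw [← μ.E_const (a ^ 2)]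
      exact μ.E_mono fun s => sq_le_sq' (abs_le.1 (hf s)).1 (abs_le.1 (hf s)).2
    simp only [h1, E_add, E_sub, E_smul, E_const]
    nlinarith [sq_nonneg (μ.E f)]
  have h1 : ∀ x : Fin n → S, ((𝔼 i, f (x i)) - μ.E f) ^ 2 =
      ((n : ℝ) ^ 2)⁻¹ * ∑ i, ∑ j, g (x i) * g (x j) := fun x => by
    rw [← Finset.sum_mul_sum, Fintype.expect_eq_sum_div_card, Fintype.card_fin]
    simp only [hg, Finset.sum_sub_distrib, Finset.sum_const, card_univ, Fintype.card_fin,
      nsmul_eq_mul]
    field_simp
  have h2 : ∀ i j : Fin n, (pi fun _ : Fin n => μ).E (fun x => g (x i) * g (x j)) ≤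
      if i = j then a ^ 2 else 0 := fun i j => by
    split_ifs with h
    · subst h
      rw [pi_E_eval (fun _ : Fin n => μ) i fun s => g s * g s]
      exact g2
    · rw [pi_E_update _ j]
      simp only [Function.update_self, Function.update_of_ne h, E_smul, g0, mul_zero, E_const]
      exact le_rfl
  simp only [h1, E_smul, E_sum]
  calc ((n : ℝ) ^ 2)⁻¹ * ∑ i, ∑ j, (pi fun _ : Fin n => μ).E (fun x => g (x i) * g (x j))
      ≤ ((n : ℝ) ^ 2)⁻¹ * ∑ i : Fin n, ∑ j : Fin n, if i = j then a ^ 2 else 0 := by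
        gcongr with i _ j _
        exact h2 i j
    _ = a ^ 2 / n := by
        simp only [Finset.sum_ite_eq, mem_univ, if_true, Finset.sum_const, card_univ,
          Fintype.card_fin, nsmul_eq_mul]
        field_simp

/-- A dominated law is close in total variation. -/
theorem abs_E_sub_le_of_le {μ ν : FinLaw S} {K : ℝ} (h : ∀ s, ν.w s ≤ K * μ.w s) {f : S → ℝ}
    {a : ℝ} (hf : ∀ s, |f s| ≤ a) : |ν.E f - μ.E f| ≤ 2 * (K - 1) * a := by
  have hK : 1 ≤ K := by
    have := Finset.sum_le_sum fun s (_ : s ∈ univ) => h s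
    rwa [← Finset.mul_sum, ν.sum_one, μ.sum_one, mul_one] at this
  have h1 : ∀ s, |ν.w s * f s - μ.w s * f s| ≤
      (K * μ.w s - ν.w s + (K - 1) * μ.w s) * a := fun s => by
    rw [← sub_mul, abs_mul]
    have h2 := mul_nonneg (sub_nonneg.2 hK) (μ.nonneg s)
    refine mul_le_mul (abs_le.2 ⟨?_, ?_⟩) (hf s) (abs_nonneg _) ?_ <;> nlinarith [h s]
  rw [E, E, ← Finset.sum_sub_distrib]
  refine (Finset.abs_sum_le_sum_abs _ _).trans ((Finset.sum_le_sum fun s _ => h1 s).trans_eq ?_)
  rw [← Finset.sum_mul, Finset.sum_add_distrib, Finset.sum_sub_distrib, ← Finset.mul_sum,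
    ← Finset.mul_sum, ν.sum_one, μ.sum_one]
  ring

theorem pi_w_le {β : L → Type} [∀ l, Fintype (β l)] {μ ν : ∀ l, FinLaw (β l)} {K : L → ℝ}
    (h : ∀ l s, (ν l).w s ≤ K l * (μ l).w s) (x : ∀ l, β l) :
    (pi ν).w x ≤ (∏ l, K l) * (pi μ).w x := by
  simp only [pi, ← Finset.prod_mul_distrib]
  exact Finset.prod_le_prod (fun l _ => (ν l).nonneg _) fun l _ => h l _

/-- Replacing the laws one coordinate at a time (Lindeberg). -/
theorem pi_E_le_of_update (μ ν : FinLaw S) (Φ : (L → S) → ℝ)
    (h : ∀ (x : L → S) (l : L), μ.E (fun a => Φ (Function.update x l a)) ≤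
      ν.E fun a => Φ (Function.update x l a)) :
    (pi fun _ : L => μ).E Φ ≤ (pi fun _ : L => ν).E Φ := by
  have key : ∀ (ρ : L → FinLaw S) (l : L) (κ : FinLaw S), (pi (Function.update ρ l κ)).E Φ =
      (pi ρ).E fun x => κ.E fun a => Φ (Function.update x l a) := fun ρ l κ => by
    rw [pi_E_update _ l, Function.update_self]
    have h1 := pl_eq_pi (((pi ρ).prod κ).map fun p => Function.update p.1 l p.2)
      (Function.update ρ l κ) fun g => by
      rw [map_E, prod_E]
      have h1 : ∀ (x : L → S) (a : S), ∏ k, g k (Function.update x l a k) =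
          (∏ k, Function.update g l (fun _ => 1) k (x k)) * g l a := fun x a => by
        rw [← Finset.mul_prod_erase univ _ (mem_univ l),
          ← Finset.mul_prod_erase univ _ (mem_univ l),
          Function.update_self, Function.update_self, one_mul, mul_comm]
        congr 1
        refine Finset.prod_congr rfl fun k hk => ?_
        rw [Function.update_of_ne (ne_of_mem_erase hk), Function.update_of_ne (ne_of_mem_erase hk)]
      simp only [h1, E_smul, pl_E_mul_const, pi_E_prod]
      rw [← Finset.mul_prod_erase univ _ (mem_univ l), ← Finset.mul_prod_erase univ _ (mem_univ l),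
        Function.update_self, Function.update_self, E_const, one_mul, mul_comm]
      congr 1
      refine Finset.prod_congr rfl fun k hk => ?_
      rw [Function.update_of_ne (ne_of_mem_erase hk), Function.update_of_ne (ne_of_mem_erase hk)]
    rw [← h1, map_E, prod_E]
    simp only [Function.update_idem, E_const]
  have main : ∀ s : Finset L, (pi fun _ : L => μ).E Φ ≤
      (pi fun l => if l ∈ s then ν else μ).E Φ := by
    intro s
    induction s using Finset.induction_on with
    | empty => simp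
    | insert l s hl ih =>
      have e1 : (fun k => if k ∈ s then ν else μ) =
          Function.update (fun k => if k ∈ s then ν else μ) l μ := by
        funext k
        by_cases hk : k = l
        · subst hk; simp [hl]
        · simp [hk]
      have e2 : (fun k => if k ∈ insert l s then ν else μ) =
          Function.update (fun k => if k ∈ s then ν else μ) l ν := by
        funext k
        by_cases hk : k = l
        · subst hk; simp
        · simp [hk]
      rw [e2, key]
      rw [e1, key] at ih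
      exact ih.trans (E_mono _ fun x => h x l)
  simpa using main univ

end FinLaw

end Crest.Agent.R141
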