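import Crest.Agent.R141.PiHom

/-!
# Row 141: Poisson sums of random shifts, superposition and thinning

`shiftOp μ en f x = E f (x + en s)`, `poisOp λ μ en f x = ∑ₙ Poi(λ, n) (shiftOp^[n] f) x`.

Recipes. Scalar facts from `Real.summable_pow_div_factorial`, `NormedSpace.expSeries…` or
`ProbabilityTheory.poissonPMFRealSum`. `binom_thin`: Cauchy product
(`tsum_mul_tsum_eq_tsum_sum_antidiagonal_of_summable_norm` or `summable_prod`/`tsum_sigma'` on
`(k, n - k)`), with `Poi(λ,n) C(n,k) t^k (1-t)^(n-k) = Poi(λ t, k) Poi(λ (1-t), n-k)`.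
`poisOp_mix`: the two shift operators commute and are linear, so
`(t T₁ + (1-t) T₂)^[n] f = ∑ₖ C(n,k) t^k (1-t)^(n-k) T₁^[k] T₂^[n-k] f` (induction, or `Commute.add_pow`
in `Module.End ℝ (E → ℝ)`), `|T₁^[k] T₂^[l] f x - f x| ≤ C (k + l)`; then `binom_thin₂` and exchange
`T₁^[k]` (a finite sum) with the `tsum`.
-/

set_option autoImplicit false

namespace Crest.Agent.R141

open Finset Crest.ProbabilityR.Diluted
open scoped BigOperators

/-! ### Scalar facts -/

theorem poi_nonneg {lam : ℝ} (h : 0 ≤ lam) (n : ℕ) : 0 ≤ poissonWeight lam n := by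
  unfold poissonWeight; positivity

theorem hasSum_poi (lam : ℝ) : HasSum (poissonWeight lam) 1 := by
  have h := (NormedSpace.expSeries_div_hasSum_exp lam).mul_left (Real.exp (-lam))
  rw [← Real.exp_eq_exp_ℝ, ← Real.exp_add, neg_add_cancel, Real.exp_zero] at h
  have e : poissonWeight lam = fun n : ℕ => Real.exp (-lam) * (lam ^ n / (n.factorial : ℝ)) := by
    funext n
    unfold poissonWeight
    rw [mul_div_assoc]
  rw [e]
  exact h

theorem hasSum_poi_mul (lam : ℝ) : HasSum (fun n : ℕ => poissonWeight lam n * n) lam := by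
  rw [← hasSum_nat_add_iff' 1]
  have h := (hasSum_poi lam).mul_left lam
  have e : (fun n : ℕ => poissonWeight lam (n + 1) * ((n + 1 : ℕ) : ℝ)) =
      fun n => lam * poissonWeight lam n := by
    funext n
    unfold poissonWeight
    rw [Nat.factorial_succ]
    have : ((n : ℝ) + 1) ≠ 0 := by positivity
    have : (n.factorial : ℝ) ≠ 0 := by positivity
    push_cast
    field_simp
    ring
  rw [e]
  simpa using h

theorem PoiScalar_hasSum (lam C D : ℝ) :
    HasSum (fun n : ℕ => poissonWeight lam n * (C * n + D)) (C * lam + D) := by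
  have h := ((hasSum_poi_mul lam).mul_left C).add ((hasSum_poi lam).mul_left D)
  rw [mul_one] at h
  have e : (fun n : ℕ => poissonWeight lam n * (C * n + D)) =
      fun n : ℕ => C * (poissonWeight lam n * n) + D * poissonWeight lam n := by
    funext n; ring
  rw [e]
  exact h

theorem summable_poi_mul {lam : ℝ} (h : 0 ≤ lam) {a : ℕ → ℝ} {C : ℝ}
    (ha : ∀ n, |a n| ≤ C * (n + 1)) : Summable fun n => poissonWeight lam n * a n := by
  refine Summable.of_norm_bounded (PoiScalar_hasSum lam C C).summable fun n => ?_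
  rw [Real.norm_eq_abs, abs_mul, abs_of_nonneg (poi_nonneg h n)]
  exact mul_le_mul_of_nonneg_left ((ha n).trans (le_of_eq (by ring))) (poi_nonneg h n)

theorem abs_tsum_poi_le {lam : ℝ} (h : 0 ≤ lam) {a : ℕ → ℝ} {C D : ℝ}
    (ha : ∀ n, |a n| ≤ C * n + D) : |∑' n, poissonWeight lam n * a n| ≤ C * lam + D := by
  rw [← Real.norm_eq_abs]
  refine tsum_of_norm_bounded (PoiScalar_hasSum lam C D) fun n => ?_
  rw [Real.norm_eq_abs, abs_mul, abs_of_nonneg (poi_nonneg h n)]
  exact mul_le_mul_of_nonneg_left (ha n) (poi_nonneg h n)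

/-- Truncation of a Poisson sum, uniformly over sequences of linear growth. -/
theorem poi_tail {lam : ℝ} (h : 0 ≤ lam) (C : ℝ) {ε : ℝ} (hε : 0 < ε) :
    ∃ k₀ : ℕ, ∀ k₁, k₀ ≤ k₁ → ∀ a : ℕ → ℝ, (∀ n, |a n| ≤ C * (n + 1)) →
      |(∑' n, poissonWeight lam n * a n) - ∑ n ∈ range (k₁ + 1), poissonWeight lam n * a n| ≤ ε := by
  have hg := (PoiScalar_hasSum lam C C).summable
  have ht := (tendsto_sum_nat_add fun n : ℕ => poissonWeight lam n * (C * n + C)).eventually
    (gt_mem_nhds hε)
  obtain ⟨k₀, hk⟩ := Filter.eventually_atTop.1 ht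
  refine ⟨k₀, fun k₁ hk₁ a ha => ?_⟩
  rw [← (summable_poi_mul h ha).sum_add_tsum_nat_add (k₁ + 1), add_sub_cancel_left,
    ← Real.norm_eq_abs]
  refine (tsum_of_norm_bounded ((summable_nat_add_iff (k₁ + 1)).2 hg).hasSum fun n => ?_).trans
    (hk (k₁ + 1) (by omega)).le
  rw [Real.norm_eq_abs, abs_mul, abs_of_nonneg (poi_nonneg h _)]
  exact mul_le_mul_of_nonneg_left ((ha _).trans (le_of_eq (by ring))) (poi_nonneg h _)

theorem binom_thin₂ {lam t : ℝ} (h : 0 ≤ lam) (h0 : 0 ≤ t) (h1 : t ≤ 1) {a : ℕ → ℕ → ℝ} {C : ℝ}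
    (ha : ∀ k l, |a k l| ≤ C * (k + l + 1)) :
    ∑' n, poissonWeight lam n *
        ∑ k ∈ range (n + 1), (n.choose k : ℝ) * t ^ k * (1 - t) ^ (n - k) * a k (n - k) =
      ∑' k, poissonWeight (lam * t) k * ∑' l, poissonWeight (lam * (1 - t)) l * a k l := by
  have hp : 0 ≤ lam * t := mul_nonneg h h0
  have hq : 0 ≤ lam * (1 - t) := mul_nonneg h (sub_nonneg.2 h1)
  have hC : 0 ≤ C := by
    have := (abs_nonneg _).trans (ha 0 0)
    simpa using this
  let F : ℕ × ℕ → ℝ := fun x =>
    poissonWeight (lam * t) x.1 * (poissonWeight (lam * (1 - t)) x.2 * a x.1 x.2)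
  have hF : Summable F := by
    have hs := Summable.mul_of_nonneg (PoiScalar_hasSum (lam * t) C C).summable
      (PoiScalar_hasSum (lam * (1 - t)) 1 1).summable
      (fun n => mul_nonneg (poi_nonneg hp n) (by positivity))
      (fun n => mul_nonneg (poi_nonneg hq n) (by positivity))
    refine Summable.of_norm_bounded hs fun x => ?_
    have h1 := poi_nonneg hp x.1
    have h2 := poi_nonneg hq x.2
    simp only [F, Real.norm_eq_abs, abs_mul, abs_of_nonneg h1, abs_of_nonneg h2]
    have h3 : |a x.1 x.2| ≤ (C * x.1 + C) * (1 * x.2 + 1) := by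
      refine (ha _ _).trans ?_
      have : 0 ≤ C * x.1 * x.2 := by positivity
      nlinarith
    calc _ ≤ poissonWeight (lam * t) x.1 * (poissonWeight (lam * (1 - t)) x.2 *
          ((C * x.1 + C) * (1 * x.2 + 1))) := by gcongr
      _ = _ := by ring
  have e1 : ∑' x, F x = ∑' k, poissonWeight (lam * t) k *
      ∑' l, poissonWeight (lam * (1 - t)) l * a k l := by
    rw [hF.tsum_prod]
    refine tsum_congr fun k => ?_
    rw [← tsum_mul_left]
  have e2 : ∑' x, F x = ∑' n, ∑ x ∈ antidiagonal n, F x := by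
    conv_rhs => congr; ext; rw [← Finset.sum_finset_coe, ← tsum_fintype (L := .unconditional _)]
    rw [← HasAntidiagonal.sigmaAntidiagonalEquivProd.tsum_eq F]
    exact (HasAntidiagonal.sigmaAntidiagonalEquivProd.summable_iff.2 hF).tsum_sigma'
      (fun n => (hasSum_fintype _).summable)
  rw [← e1, e2]
  refine tsum_congr fun n => ?_
  rw [Finset.Nat.sum_antidiagonal_eq_sum_range_succ_mk, Finset.mul_sum]
  refine Finset.sum_congr rfl fun k hk => ?_
  have hkn : k ≤ n := Nat.lt_succ_iff.1 (Finset.mem_range.1 hk)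
  obtain ⟨l, rfl⟩ := Nat.exists_eq_add_of_le hkn
  simp only [F, Nat.add_sub_cancel_left, poissonWeight]
  have he : Real.exp (-lam) = Real.exp (-(lam * t)) * Real.exp (-(lam * (1 - t))) := by
    rw [← Real.exp_add]; congr 1; ring
  have hk0 : (k.factorial : ℝ) ≠ 0 := by positivity
  have hl0 : (l.factorial : ℝ) ≠ 0 := by positivity
  have hn0 : ((k + l).factorial : ℝ) ≠ 0 := by positivity
  rw [he, Nat.cast_add_choose ℝ, mul_pow, mul_pow, pow_add]
  field_simp

theorem binom_thin {lam t : ℝ} (h : 0 ≤ lam) (h0 : 0 ≤ t) (h1 : t ≤ 1) {a : ℕ → ℝ} {C : ℝ}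
    (ha : ∀ k, |a k| ≤ C * (k + 1)) :
    ∑' n, poissonWeight lam n *
        ∑ k ∈ range (n + 1), (n.choose k : ℝ) * t ^ k * (1 - t) ^ (n - k) * a k =
      ∑' k, poissonWeight (lam * t) k * a k := by
  have hC : 0 ≤ C := by
    have := (abs_nonneg _).trans (ha 0)
    simpa using this
  rw [binom_thin₂ h h0 h1 (a := fun k _ => a k) (C := C) fun k l => (ha k).trans (by
    have : (0 : ℝ) ≤ l := Nat.cast_nonneg l
    gcongr
    linarith)]
  refine tsum_congr fun k => ?_
  rw [tsum_mul_right, (hasSum_poi _).tsum_eq, one_mul]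

/-- Thinning for a family of functionals that ignore empty slots. Recipe: transport to lists
(`Ψ' l = Ψ l.length l.get`), show `Ψ' l = Ψ' ((l.filterMap id).map some)`, or induct on `n` with the
stronger statement for `Ψ (k + n) (Fin.append (some ∘ x) ·)`; use `pi_E_insertNth`, Pascal's rule. -/
theorem thin_family {D : Type} [Fintype D] (μ : FinLaw D) {t : ℝ} (h0 : 0 ≤ t) (h1 : t ≤ 1)
    (Ψ : (n : ℕ) → (Fin n → Option D) → ℝ)
    (hΨ : ∀ n (g : Fin (n + 1)) (x : Fin n → Option D), Ψ (n + 1) (Fin.insertNth g none x) = Ψ n x)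
    (n : ℕ) :
    (FinLaw.pi fun _ : Fin n => FinLaw.mix t h0 h1 (μ.map some) (FinLaw.dirac none)).E (Ψ n) =
      ∑ k ∈ range (n + 1), (n.choose k : ℝ) * t ^ k * (1 - t) ^ (n - k) *
        (FinLaw.pi fun _ : Fin k => μ).E fun x => Ψ k fun i => some (x i) := by
  induction n generalizing Ψ with
  | zero =>
    simp only [FinLaw.E, FinLaw.pi, Finset.univ_unique, Finset.sum_singleton, Finset.range_one,
      Nat.choose_self, Nat.cast_one, pow_zero, Nat.sub_self, one_mul, Finset.univ_eq_empty,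
      Finset.prod_empty, zero_add]
    congr 1
    exact Subsingleton.elim _ _
  | succ n ih =>
    set b : ℕ → ℝ := fun k => (FinLaw.pi fun _ : Fin k => μ).E fun x => Ψ k fun i => some (x i)
      with hb
    have hnone : (FinLaw.pi fun _ : Fin n =>
        FinLaw.mix t h0 h1 (μ.map some) (FinLaw.dirac none)).E
        (fun x => Ψ (n + 1) (Fin.cons none x)) =
        ∑ k ∈ range (n + 1), (n.choose k : ℝ) * t ^ k * (1 - t) ^ (n - k) * b k := by
      rw [← ih Ψ hΨ]
      congr 1
      funext x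
      rw [← hΨ n 0 x, Fin.insertNth_zero']
    have hsome : μ.E (fun d => (FinLaw.pi fun _ : Fin n =>
        FinLaw.mix t h0 h1 (μ.map some) (FinLaw.dirac none)).E
        (fun x => Ψ (n + 1) (Fin.cons (some d) x))) =
        ∑ k ∈ range (n + 1), (n.choose k : ℝ) * t ^ k * (1 - t) ^ (n - k) * b (k + 1) := by
      have h2 : ∀ d : D, (FinLaw.pi fun _ : Fin n =>
          FinLaw.mix t h0 h1 (μ.map some) (FinLaw.dirac none)).E
          (fun x => Ψ (n + 1) (Fin.cons (some d) x)) =
          ∑ k ∈ range (n + 1), (n.choose k : ℝ) * t ^ k * (1 - t) ^ (n - k) *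
            (FinLaw.pi fun _ : Fin k => μ).E fun x =>
              Ψ (k + 1) (Fin.cons (some d) fun i => some (x i)) := fun d =>
        ih (fun k x => Ψ (k + 1) (Fin.cons (some d) x)) fun k g x => by
          rw [← hΨ (k + 1) g.succ (Fin.cons (some d) x), Fin.insertNth_succ_cons]
      simp only [h2]
      rw [FinLaw.E_sum]
      refine Finset.sum_congr rfl fun k _ => ?_
      rw [FinLaw.E_smul, hb]
      dsimp only
      rw [FinLaw.pi_E_cons]
      congr 2
      funext d
      congr 1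
      funext x
      congr 1
      funext i
      refine Fin.cases ?_ (fun j => ?_) i <;> simp
    rw [FinLaw.pi_E_cons, FinLaw.mix_E, FinLaw.map_E, FinLaw.dirac_E, hnone, hsome]
    have hP := Finset.sum_choose_succ_mul (R := ℝ) (fun i j => t ^ i * (1 - t) ^ j * b i) n
    simp only [← mul_assoc] at hP
    rw [hP, add_comm, Finset.mul_sum, Finset.mul_sum]
    congr 1
    · refine Finset.sum_congr rfl fun k hk => ?_
      rw [Nat.succ_sub (Nat.lt_succ_iff.1 (Finset.mem_range.1 hk)), pow_succ]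
      ring
    · refine Finset.sum_congr rfl fun k _ => ?_
      ring

end Crest.Agent.R141
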