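import Crest.Agent.R141.PoiScalar

/-!
# Row 141: Poisson sums of random shifts, superposition and thinning

`shiftOp μ en f x = E f (x + en s)`, `poisOp λ μ en f x = ∑ₙ Poi(λ, n) (shiftOp^[n] f) x`.

Recipes. Scalar facts from `Real.summable_pow_div_factorial`, `NormedSpace.expSeries…` or
`ProbabilityTheory.poissonPMFRealSum`. `binom_thin`: Cauchy product
(`tsum_mul_tsum_eq_tsum_sum_antidiagonal_of_summable_norm` or `summable_prod`/`tsum_sigma'` on
`(k, n - k)`), with `Poi(λ,n) C(n,k) t^k (1-t)^(n-k) = Poi(λ t, k) Poi(λ (1-t), n-k)`.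
`poisOp_mix`: the two shift operators commute and are linear, so
`(t T₁ + (1-t) T₂)^[n] f = ∑ₖ C(n,k) t^k (1-t)^(n-k) T₁^[k] T₂^[n-k] f` (induction, or `Commute.add_pow`
in `Module.End ℝ (E → ℝ)`), `|T₁^[k] T₂^[l] f x - f x| ≤ C (k + l)`; then `binom_thin₂` and exchange
`T₁^[k]` (a finite sum) with the `tsum`.
-/

set_option autoImplicit false

namespace Crest.Agent.R141

open Finset Crest.ProbabilityR.Diluted
open scoped BigOperators

/-! ### Shift operators -/

section Op
variable {E : Type} [NormedAddCommGroup E] {S : Type} [Fintype S]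

/-- Average over one random shift. -/
noncomputable def shiftOp (μ : FinLaw S) (en : S → E) (f : E → ℝ) (x : E) : ℝ :=
  μ.E fun s => f (x + en s)

/-- Average over a Poisson number of independent random shifts. -/
noncomputable def poisOp (lam : ℝ) (μ : FinLaw S) (en : S → E) (f : E → ℝ) (x : E) : ℝ :=
  ∑' n : ℕ, poissonWeight lam n * ((shiftOp μ en)^[n] f) x

theorem shiftOp_iterate (μ : FinLaw S) (en : S → E) (f : E → ℝ) (n : ℕ) (x : E) :
    ((shiftOp μ en)^[n] f) x =
      (FinLaw.pi fun _ : Fin n => μ).E fun ss => f (x + ∑ i, en (ss i)) := by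
  induction n generalizing x with
  | zero => simp [FinLaw.E_const]
  | succ n ih =>
    rw [Function.iterate_succ_apply', FinLaw.pi_E_cons]
    unfold shiftOp
    congr 1
    funext a
    have := ih (x + en a)
    unfold shiftOp at this
    rw [this]
    congr 1
    funext ss
    rw [Fin.sum_univ_succ]
    simp [add_assoc]

theorem shiftOp_lip (μ : FinLaw S) (en : S → E) {f : E → ℝ} (hf : LipschitzWith 1 f) :
    LipschitzWith 1 (shiftOp μ en f) := by
  refine LipschitzWith.of_dist_le_mul fun x y => ?_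
  rw [Real.dist_eq]
  unfold shiftOp
  rw [← FinLaw.E_sub]
  refine μ.abs_E_le fun s => ?_
  have := hf.dist_le_mul (x + en s) (y + en s)
  rwa [Real.dist_eq, dist_add_right] at this

theorem shiftOp_iter_lip (μ : FinLaw S) (en : S → E) {f : E → ℝ} (hf : LipschitzWith 1 f)
    (n : ℕ) : LipschitzWith 1 ((shiftOp μ en)^[n] f) := by
  induction n with
  | zero => exact hf
  | succ n ih =>
    rw [Function.iterate_succ_apply']
    exact shiftOp_lip μ en ih

theorem abs_shiftOp_sub_le (μ : FinLaw S) {en : S → E} {C : ℝ} (hC : ∀ s, ‖en s‖ ≤ C)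
    {f : E → ℝ} (hf : LipschitzWith 1 f) (x : E) : |shiftOp μ en f x - f x| ≤ C := by
  have h1 : shiftOp μ en f x - f x = μ.E fun s => f (x + en s) - f x := by
    rw [FinLaw.E_sub, FinLaw.E_const]; rfl
  rw [h1]
  refine μ.abs_E_le fun s => ?_
  have := hf.dist_le_mul (x + en s) x
  rw [Real.dist_eq, dist_eq_norm, add_sub_cancel_left] at this
  have h2 := hC s
  simp only [NNReal.coe_one, one_mul] at this
  linarith

theorem abs_shiftOp_iter_sub_le (μ : FinLaw S) {en : S → E} {C : ℝ} (hC : ∀ s, ‖en s‖ ≤ C)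
    {f : E → ℝ} (hf : LipschitzWith 1 f) (n : ℕ) (x : E) :
    |((shiftOp μ en)^[n] f) x - f x| ≤ C * n := by
  induction n with
  | zero => simp
  | succ n ih =>
    rw [Function.iterate_succ_apply']
    have h1 := abs_shiftOp_sub_le μ hC (shiftOp_iter_lip μ en hf n) x
    have h2 := abs_sub_le (shiftOp μ en ((shiftOp μ en)^[n] f) x) (((shiftOp μ en)^[n] f) x) (f x)
    push_cast
    linarith

theorem exists_en_bound (en : S → E) : ∃ C : ℝ, 0 ≤ C ∧ ∀ s, ‖en s‖ ≤ C :=
  ⟨∑ s, ‖en s‖, sum_nonneg fun _ _ => norm_nonneg _, fun s =>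
    single_le_sum (f := fun s => ‖en s‖) (fun _ _ => norm_nonneg _) (mem_univ s)⟩

theorem summable_poisOp {lam : ℝ} (h : 0 ≤ lam) (μ : FinLaw S) (en : S → E) {f : E → ℝ}
    (hf : LipschitzWith 1 f) (x : E) :
    Summable fun n : ℕ => poissonWeight lam n * ((shiftOp μ en)^[n] f) x := by
  obtain ⟨C, hC0, hC⟩ := exists_en_bound en
  refine summable_poi_mul h (C := C + |f x|) fun n => ?_
  have h1 := abs_shiftOp_iter_sub_le μ hC hf n x
  have h2 : |((shiftOp μ en)^[n] f) x| ≤ |((shiftOp μ en)^[n] f) x - f x| + |f x| := by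
    have := abs_add_le (((shiftOp μ en)^[n] f) x - f x) (f x)
    rwa [sub_add_cancel] at this
  have h3 : (0 : ℝ) ≤ n := Nat.cast_nonneg n
  have h4 := abs_nonneg (f x)
  nlinarith [mul_nonneg h4 h3]

theorem E_tsum_comm {T : Type} [Fintype T] (ν : FinLaw T) (g : ℕ → T → ℝ)
    (hs : ∀ a, Summable fun n => g n a) :
    ν.E (fun a => ∑' n, g n a) = ∑' n, ν.E (g n) := by
  unfold FinLaw.E
  rw [Summable.tsum_finsetSum (fun a _ => (hs a).mul_left (ν.w a))]
  exact sum_congr rfl fun a _ => tsum_mul_left.symm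

theorem tsum_poi_const (lam c : ℝ) : ∑' n : ℕ, poissonWeight lam n * c = c := by
  rw [tsum_mul_right, (hasSum_poi lam).tsum_eq, one_mul]

/-- `shiftOp` as a linear map. -/
noncomputable def shiftL (μ : FinLaw S) (en : S → E) : Module.End ℝ (E → ℝ) where
  toFun := shiftOp μ en
  map_add' f g := by
    funext x
    exact μ.E_add (fun s => f (x + en s)) fun s => g (x + en s)
  map_smul' c f := by
    funext x
    exact μ.E_smul c fun s => f (x + en s)

theorem shiftL_pow (μ : FinLaw S) (en : S → E) (n : ℕ) (f : E → ℝ) :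
    (shiftL μ en ^ n) f = (shiftOp μ en)^[n] f := by
  rw [Module.End.pow_apply]; rfl

theorem shiftL_commute {S₁ S₂ : Type} [Fintype S₁] [Fintype S₂] (μ₁ : FinLaw S₁) (en₁ : S₁ → E)
    (μ₂ : FinLaw S₂) (en₂ : S₂ → E) : Commute (shiftL μ₁ en₁) (shiftL μ₂ en₂) := by
  refine LinearMap.ext fun f => funext fun x => ?_
  change μ₁.E (fun s => μ₂.E fun s' => f (x + en₁ s + en₂ s')) =
    μ₂.E (fun s' => μ₁.E fun s => f (x + en₂ s' + en₁ s))
  rw [FinLaw.E_comm]
  simp only [add_right_comm x]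

theorem poisOp_lip {lam : ℝ} (h : 0 ≤ lam) (μ : FinLaw S) (en : S → E) {f : E → ℝ}
    (hf : LipschitzWith 1 f) : LipschitzWith 1 (poisOp lam μ en f) := by
  refine LipschitzWith.of_dist_le_mul fun x y => ?_
  rw [Real.dist_eq]
  unfold poisOp
  rw [← (summable_poisOp h μ en hf x).tsum_sub (summable_poisOp h μ en hf y)]
  simp only [← mul_sub]
  have := abs_tsum_poi_le h (C := 0) (D := dist x y)
    (a := fun n => ((shiftOp μ en)^[n] f) x - ((shiftOp μ en)^[n] f) y) fun n => by
      have := (shiftOp_iter_lip μ en hf n).dist_le_mul x y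
      rw [Real.dist_eq] at this
      simpa using this
  simpa using this

theorem abs_poisOp_sub_self_le {lam : ℝ} (h : 0 ≤ lam) (μ : FinLaw S) {en : S → E} {C : ℝ}
    (hC : ∀ s, ‖en s‖ ≤ C) {f : E → ℝ} (hf : LipschitzWith 1 f) (x : E) :
    |poisOp lam μ en f x - f x| ≤ lam * C := by
  have h1 : poisOp lam μ en f x - f x =
      ∑' n : ℕ, poissonWeight lam n * (((shiftOp μ en)^[n] f) x - f x) := by
    simp only [mul_sub]
    rw [(summable_poisOp h μ en hf x).tsum_sub ((hasSum_poi lam).summable.mul_right _),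
      tsum_poi_const]
    rfl
  rw [h1]
  have := abs_tsum_poi_le h (C := C) (D := 0)
    (a := fun n => ((shiftOp μ en)^[n] f) x - f x) fun n => by
      simpa using abs_shiftOp_iter_sub_le μ hC hf n x
  linarith

/-- A pointwise lower bound on a difference passes to the Poisson averages. -/
theorem le_poisOp_sub {lam : ℝ} (h : 0 ≤ lam) (μ : FinLaw S) (en : S → E) {f g : E → ℝ}
    (hf : LipschitzWith 1 f) (hg : LipschitzWith 1 g) {c : ℝ} (hc : ∀ y, c ≤ f y - g y) (x : E) :
    c ≤ poisOp lam μ en f x - poisOp lam μ en g x := by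
  have key : ∀ n y, c ≤ ((shiftOp μ en)^[n] f) y - ((shiftOp μ en)^[n] g) y := by
    intro n
    induction n with
    | zero => exact hc
    | succ n ih =>
      intro y
      rw [Function.iterate_succ_apply', Function.iterate_succ_apply']
      have h1 := μ.E_mono (f := fun _ => c)
        (g := fun s => ((shiftOp μ en)^[n] f) (y + en s) - ((shiftOp μ en)^[n] g) (y + en s))
        fun s => ih _
      rw [FinLaw.E_const, FinLaw.E_sub] at h1
      exact h1
  unfold poisOp
  rw [← (summable_poisOp h μ en hf x).tsum_sub (summable_poisOp h μ en hg x)]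
  refine (tsum_poi_const lam c).symm.le.trans ?_
  refine Summable.tsum_le_tsum (fun n => ?_) ((hasSum_poi lam).summable.mul_right _)
    ((summable_poisOp h μ en hf x).sub (summable_poisOp h μ en hg x))
  rw [← mul_sub]
  exact mul_le_mul_of_nonneg_left (key n x) (poi_nonneg h n)

/-- Averaging over a finite parameter commutes with the Poisson average. -/
theorem poisOp_E {lam : ℝ} (h : 0 ≤ lam) (μ : FinLaw S) (en : S → E) {T : Type} [Fintype T]
    (ν : FinLaw T) {f : T → E → ℝ} (hf : ∀ a, LipschitzWith 1 (f a)) (x : E) :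
    poisOp lam μ en (fun y => ν.E fun a => f a y) x = ν.E fun a => poisOp lam μ en (f a) x := by
  have key : ∀ n y, ((shiftOp μ en)^[n] (fun y => ν.E fun a => f a y)) y =
      ν.E fun a => ((shiftOp μ en)^[n] (f a)) y := by
    intro n
    induction n with
    | zero => intro y; rfl
    | succ n ih =>
      intro y
      simp only [Function.iterate_succ_apply']
      change μ.E (fun s => ((shiftOp μ en)^[n] (fun y => ν.E fun a => f a y)) (y + en s)) =
        ν.E fun a => μ.E fun s => ((shiftOp μ en)^[n] (f a)) (y + en s)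
      simp only [ih]
      exact μ.E_comm ν fun s a => ((shiftOp μ en)^[n] (f a)) (y + en s)
  unfold poisOp
  rw [E_tsum_comm ν (fun n a => poissonWeight lam n * ((shiftOp μ en)^[n] (f a)) x)
    fun a => summable_poisOp h μ en (hf a) x]
  refine tsum_congr fun n => ?_
  rw [key, FinLaw.E_smul]

/-- Superposition. -/
theorem poisOp_mix {lam t : ℝ} (h : 0 ≤ lam) (h0 : 0 ≤ t) (h1 : t ≤ 1) {S₁ S₂ : Type} [Fintype S₁]
    [Fintype S₂] (μ : FinLaw S) (en : S → E) (μ₁ : FinLaw S₁) (en₁ : S₁ → E) (μ₂ : FinLaw S₂)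
    (en₂ : S₂ → E)
    (hmix : ∀ g : E → ℝ, μ.E (fun s => g (en s)) =
      t * μ₁.E (fun s => g (en₁ s)) + (1 - t) * μ₂.E fun s => g (en₂ s))
    {f : E → ℝ} (hf : LipschitzWith 1 f) (x : E) :
    poisOp lam μ en f x = poisOp (lam * t) μ₁ en₁ (poisOp (lam * (1 - t)) μ₂ en₂ f) x := by
  have hT : shiftL μ en = t • shiftL μ₁ en₁ + (1 - t) • shiftL μ₂ en₂ := by
    refine LinearMap.ext fun g => funext fun y => ?_
    exact hmix fun e => g (y + e)
  have hc : Commute (t • shiftL μ₁ en₁) ((1 - t) • shiftL μ₂ en₂) :=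
    ((shiftL_commute μ₁ en₁ μ₂ en₂).smul_left t).smul_right (1 - t)
  have hexp : ∀ n : ℕ, ((shiftOp μ en)^[n] f) x =
      ∑ k ∈ range (n + 1), (n.choose k : ℝ) * t ^ k * (1 - t) ^ (n - k) *
        ((shiftOp μ₁ en₁)^[k] ((shiftOp μ₂ en₂)^[n - k] f)) x := by
    intro n
    rw [← shiftL_pow, hT, hc.add_pow, LinearMap.sum_apply, Finset.sum_apply]
    refine sum_congr rfl fun k _ => ?_
    rw [smul_pow, smul_pow, ← shiftL_pow, ← shiftL_pow]
    simp only [Module.End.mul_apply, Module.End.natCast_apply, LinearMap.smul_apply, map_smul,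
      map_nsmul, Pi.smul_apply, smul_eq_mul]
    rw [nsmul_eq_mul]
    ring
  obtain ⟨C₁, hC₁0, hC₁⟩ := exists_en_bound en₁
  obtain ⟨C₂, hC₂0, hC₂⟩ := exists_en_bound en₂
  have hb : ∀ k l : ℕ, |((shiftOp μ₁ en₁)^[k] ((shiftOp μ₂ en₂)^[l] f)) x| ≤
      (C₁ + C₂ + |f x|) * (k + l + 1) := by
    intro k l
    have a1 := abs_shiftOp_iter_sub_le μ₁ hC₁ (shiftOp_iter_lip μ₂ en₂ hf l) k x
    have a2 := abs_shiftOp_iter_sub_le μ₂ hC₂ hf l x
    have a3 : |((shiftOp μ₁ en₁)^[k] ((shiftOp μ₂ en₂)^[l] f)) x| ≤ C₁ * k + C₂ * l + |f x| := by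
      rw [abs_le] at a1 a2 ⊢
      constructor
      · linarith [a1.1, a2.1, neg_abs_le (f x)]
      · linarith [a1.2, a2.2, le_abs_self (f x)]
    have hk : (0 : ℝ) ≤ k := Nat.cast_nonneg k
    have hl : (0 : ℝ) ≤ l := Nat.cast_nonneg l
    have h4 := abs_nonneg (f x)
    nlinarith [mul_nonneg h4 hk, mul_nonneg h4 hl, mul_nonneg hC₁0 hl, mul_nonneg hC₂0 hk]
  have h2 : 0 ≤ lam * (1 - t) := mul_nonneg h (sub_nonneg.2 h1)
  have hmain := binom_thin₂ h h0 h1
    (a := fun k l => ((shiftOp μ₁ en₁)^[k] ((shiftOp μ₂ en₂)^[l] f)) x) hb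
  have hL : poisOp lam μ en f x = ∑' n, poissonWeight lam n *
      ∑ k ∈ range (n + 1), (n.choose k : ℝ) * t ^ k * (1 - t) ^ (n - k) *
        ((shiftOp μ₁ en₁)^[k] ((shiftOp μ₂ en₂)^[n - k] f)) x :=
    tsum_congr fun n => by rw [hexp]
  rw [hL, hmain]
  refine tsum_congr fun k => ?_
  congr 1
  simp only [shiftOp_iterate μ₁ en₁]
  have := E_tsum_comm (FinLaw.pi fun _ : Fin k => μ₁)
    (fun l ss => poissonWeight (lam * (1 - t)) l *
      ((shiftOp μ₂ en₂)^[l] f) (x + ∑ i, en₁ (ss i)))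
    fun ss => summable_poisOp h2 μ₂ en₂ hf _
  simp only [FinLaw.E_smul] at this
  exact this.symm

theorem poisOp_add {l₁ l₂ : ℝ} (h₁ : 0 ≤ l₁) (h₂ : 0 ≤ l₂) (μ : FinLaw S) (en : S → E) {f : E → ℝ}
    (hf : LipschitzWith 1 f) (x : E) :
    poisOp (l₁ + l₂) μ en f x = poisOp l₁ μ en (poisOp l₂ μ en f) x := by
  have hs : 0 ≤ l₁ + l₂ := add_nonneg h₁ h₂
  have e1 : (l₁ + l₂) * (l₁ / (l₁ + l₂)) = l₁ := by
    rcases hs.eq_or_lt with h0 | h0
    · have : l₁ = 0 := by linarith
      rw [← h0, this, zero_mul]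
    · field_simp
  have e2 : (l₁ + l₂) * (1 - l₁ / (l₁ + l₂)) = l₂ := by
    rw [mul_sub, e1]; ring
  have := poisOp_mix hs (t := l₁ / (l₁ + l₂)) (div_nonneg h₁ hs)
    (div_le_one_of_le₀ (by linarith) hs) μ en μ en μ en (fun g => by ring) hf x
  rwa [e1, e2] at this

theorem abs_poisOp_sub_param_le {l₁ l₂ : ℝ} (h₁ : 0 ≤ l₁) (h₂ : 0 ≤ l₂) (μ : FinLaw S)
    {en : S → E} {C : ℝ} (hC : ∀ s, ‖en s‖ ≤ C) {f : E → ℝ} (hf : LipschitzWith 1 f) (x : E) :
    |poisOp l₁ μ en f x - poisOp l₂ μ en f x| ≤ |l₁ - l₂| * C := by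
  have key : ∀ a b : ℝ, 0 ≤ b → b ≤ a →
      |poisOp a μ en f x - poisOp b μ en f x| ≤ |a - b| * C := by
    intro a b hb hab
    have h1 := poisOp_add (sub_nonneg.2 hab) hb μ en hf x
    rw [sub_add_cancel] at h1
    rw [h1, abs_of_nonneg (sub_nonneg.2 hab)]
    exact abs_poisOp_sub_self_le (sub_nonneg.2 hab) μ hC (poisOp_lip hb μ en hf) x
  rcases le_total l₂ l₁ with h | h
  · exact key l₁ l₂ h₂ h
  · rw [abs_sub_comm, abs_sub_comm l₁]
    exact key l₂ l₁ h₁ h

/-- Only the law of the shift matters. -/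
theorem poisOp_congr (lam : ℝ) {S' : Type} [Fintype S'] (μ : FinLaw S) (en : S → E)
    (μ' : FinLaw S') (en' : S' → E)
    (h : ∀ g : E → ℝ, μ.E (fun s => g (en s)) = μ'.E fun s => g (en' s)) (f : E → ℝ) :
    poisOp lam μ en f = poisOp lam μ' en' f := by
  have hT : shiftOp μ en = shiftOp μ' en' := by
    funext g y
    exact h fun e => g (y + e)
  funext x
  unfold poisOp
  rw [hT]

/-- Transport along an additive map. -/
theorem poisOp_map (lam : ℝ) {E' : Type} [NormedAddCommGroup E'] (L : E' →+ E) (μ : FinLaw S)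
    (en : S → E') (f : E → ℝ) (a : E) (x : E') :
    poisOp lam μ (fun s => L (en s)) f (L x + a) = poisOp lam μ en (fun y => f (L y + a)) x := by
  have key : ∀ (n : ℕ) (y : E'), ((shiftOp μ fun s => L (en s))^[n] f) (L y + a) =
      ((shiftOp μ en)^[n] fun y => f (L y + a)) y := by
    intro n
    induction n with
    | zero => intro y; rfl
    | succ n ih =>
      intro y
      simp only [Function.iterate_succ_apply']
      change μ.E (fun s => ((shiftOp μ fun s => L (en s))^[n] f) (L y + a + L (en s))) =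
        μ.E fun s => ((shiftOp μ en)^[n] fun y => f (L y + a)) (y + en s)
      congr 1
      funext s
      rw [← ih, map_add, add_right_comm]
  unfold poisOp
  exact tsum_congr fun n => by rw [key]

end Op

end Crest.Agent.R141
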