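import Crest.Agent.R141.CDefs

/-!
# Row 141: nested power means for partitions squeezed between two others

Recipe. `Y = (part F).lp v`, `V = (part F₀).lp v`, `U j = exp (m (j+1) V (j+1))`, `δ j = ce (G j) (U j) -
ce (F₀ j) (U j)`. For `p < j ≤ r`:
`exp (m Y j) - exp (m V j) = ce (F j) (exp (m Y (j+1)) - U j) + (ce (F j) (U j) - ce (F₀ j) (U j))`, and the
last bracket equals `ce (F j) (δ j)` (`ce_ce`, `ce_ce'`). Hence `err j ≤ exp (2C) ce (F j) (err (j+1)) +
(exp C / m 1) ce (F j) |δ j|` with `err j = |Y j - V j|`; apply `ce (F p)` (`ce_ce`) and induct downwards.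
At level `p`: `|Y p - Ṽ| ≤ exp (2C) ce (F p) (err (p+1))` with
`Ṽ = (m (p+1))⁻¹ log (ce (F p) (U p))`, the same for `F` and `F'`.
-/

set_option autoImplicit false

namespace Crest.Agent.R141

open Finset
open scoped BigOperators

theorem Sandwich_exp {m C x y : ℝ} (hm : 0 < m) (hm1 : m ≤ 1) (hx : |x| ≤ C) (hy : |y| ≤ C) :
    |Real.exp (m * x) - Real.exp (m * y)| ≤ m * Real.exp C * |x - y| ∧
      m * |x - y| ≤ Real.exp C * |Real.exp (m * x) - Real.exp (m * y)| := by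
  wlog h : y ≤ x generalizing x y
  · rw [abs_sub_comm, abs_sub_comm x]; exact this hy hx (le_of_not_ge h)
  have hC : 0 ≤ C := (abs_nonneg _).trans hx
  have h0 : m * y ≤ m * x := mul_le_mul_of_nonneg_left h hm.le
  rw [abs_of_nonneg (sub_nonneg.2 (Real.exp_le_exp.2 h0)), abs_of_nonneg (sub_nonneg.2 h)]
  have h1 := Real.add_one_le_exp (m * y - m * x)
  have h2 := Real.add_one_le_exp (m * x - m * y)
  rw [Real.exp_sub, le_div_iff₀ (Real.exp_pos _)] at h1 h2
  have h3 : Real.exp (m * x) ≤ Real.exp C :=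
    Real.exp_le_exp.2 (by nlinarith [(abs_le.1 hx).2, (abs_le.1 hx).1])
  have h4 : 1 ≤ Real.exp C * Real.exp (m * y) := by
    rw [← Real.exp_add]
    exact Real.one_le_exp (by nlinarith [(abs_le.1 hy).2, (abs_le.1 hy).1])
  have h5 := sub_nonneg.2 h0
  constructor
  · nlinarith [mul_le_mul_of_nonneg_left h3 h5]
  · nlinarith [mul_le_mul_of_nonneg_left h4 h5, mul_le_mul_of_nonneg_left h2 (Real.exp_pos C).le]

theorem Sandwich_step {Ω : Type} [Fintype Ω] (S : Kern Ω) (j : ℕ) (z : Ω) {m C X X' D : ℝ}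
    {Y Y' : Ω → ℝ} (hm : 0 < m) (hm1 : m ≤ 1) (hX : |X| ≤ C) (hX' : |X'| ≤ C) (hY : ∀ ω, |Y ω| ≤ C)
    (hY' : ∀ ω, |Y' ω| ≤ C) (h : Real.exp (m * X) = S.ex j (fun ω => Real.exp (m * Y ω)) z)
    (h' : Real.exp (m * X') + D = S.ex j (fun ω => Real.exp (m * Y' ω)) z) :
    |X - X'| ≤ Real.exp C ^ 2 * S.ex j (fun ω => |Y ω - Y' ω|) z + Real.exp C / m * |D| := by
  have h1 := (Sandwich_exp hm hm1 hX hX').2
  have h2 : Real.exp (m * X) - Real.exp (m * X') =
      S.ex j (fun ω => Real.exp (m * Y ω) - Real.exp (m * Y' ω)) z + D := by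
    rw [S.ex_sub, ← h, ← h']; ring
  have h3 : |S.ex j (fun ω => Real.exp (m * Y ω) - Real.exp (m * Y' ω)) z| ≤
      m * Real.exp C * S.ex j (fun ω => |Y ω - Y' ω|) z := by
    rw [← S.ex_smul]
    exact (S.abs_ex_le_ex_abs _ _ _).trans
      (S.ex_mono j (fun ω => (Sandwich_exp hm hm1 (hY ω) (hY' ω)).1) z)
  rw [h2] at h1
  have h4 := mul_le_mul_of_nonneg_left ((abs_add_le _ _).trans (add_le_add h3 (le_refl |D|)))
    (Real.exp_pos C).le
  refine le_of_mul_le_mul_left ((h1.trans h4).trans (le_of_eq ?_)) hm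
  field_simp

theorem Sandwich_aux {r : ℕ} (e : Expo r) {C : ℝ} {Ω : Type} [Fintype Ω] (F G F₀ : ℕ → Setoid Ω)
    (p : ℕ) (hF : ∀ j, p ≤ j → ∀ a b, F (j + 1) a b → F j a b)
    (hG : ∀ j, p < j → j ≤ r → ∀ a b, (G j a b → F j a b) ∧ (F j a b → F₀ j a b))
    {v : Ω → ℝ} (hv : ∀ ω, |v ω| ≤ C) (z : Ω) (j : ℕ) (hj : p < j) :
    ce (F p) (fun ω => |(Kern.part F).lp e v j ω - (Kern.part F₀).lp e v j ω|) z ≤
      (Real.exp C ^ 2) ^ (r + 1 - j) * (Real.exp C / e.m 1) * ∑ i ∈ Ico j (r + 1), ce (F p) (fun ω =>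
        |ce (G i) (fun a => Real.exp (e.m (i + 1) * (Kern.part F₀).lp e v (i + 1) a)) ω -
          ce (F₀ i) (fun a => Real.exp (e.m (i + 1) * (Kern.part F₀).lp e v (i + 1) a)) ω|) z := by
  have hC : 0 ≤ C := (abs_nonneg _).trans (hv z)
  have hK : 1 ≤ Real.exp C ^ 2 := one_le_pow₀ (Real.one_le_exp hC)
  have hm1 := e.pos (Nat.zero_le r)
  rw [zero_add] at hm1
  induction j using down_ind (r := r) with
  | top j hj' =>
    rw [Kern.lp_top _ e v hj', Kern.lp_top _ e v hj', Ico_eq_empty_of_le hj']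
    simp [ce]
  | step j hj' ih =>
    have hpj : ∀ a b, F j a b → F p a b := by
      have : ∀ k, p ≤ k → ∀ a b, F k a b → F p a b := fun k hk => by
        induction k, hk using Nat.le_induction with
        | base => exact fun _ _ h => h
        | succ k hk ih => exact fun a b h => ih a b (hF k hk a b h)
      exact this j hj.le
    set U : Ω → ℝ := fun a => Real.exp (e.m (j + 1) * (Kern.part F₀).lp e v (j + 1) a) with hU
    set δ : Ω → ℝ := fun ω => ce (G j) U ω - ce (F₀ j) U ω with hδ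
    have h1 : ∀ ω, |(Kern.part F).lp e v j ω - (Kern.part F₀).lp e v j ω| ≤
        Real.exp C ^ 2 * ce (F j) (fun ω => |(Kern.part F).lp e v (j + 1) ω -
          (Kern.part F₀).lp e v (j + 1) ω|) ω + Real.exp C / e.m 1 * ce (F j) (fun ω => |δ ω|) ω := by
      intro ω
      refine (Sandwich_step (Kern.part F) j ω (D := ce (F j) δ ω) (e.pos hj') (e.le_one (by omega))
        (Kern.abs_lp_le _ e hv _ _) (Kern.abs_lp_le _ e hv _ _) (Kern.abs_lp_le _ e hv _)
        (Kern.abs_lp_le _ e hv _) (Kern.exp_mul_lp _ e v hj' ω) ?_).trans (add_le_add le_rfl ?_)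
      · rw [Kern.exp_mul_lp _ e v hj' ω]
        have := (Kern.part F).ex_sub j (ce (G j) U) (ce (F₀ j) U) ω
        rw [Kern.part_ex, Kern.part_ex, Kern.part_ex, ce_ce fun a b => (hG j hj hj' a b).1,
          ce_ce' fun a b => (hG j hj hj' a b).2] at this
        rw [Kern.part_ex, Kern.part_ex, hδ, this]
        ring
      · refine mul_le_mul ?_ ((Kern.part F).abs_ex_le_ex_abs j δ ω) (abs_nonneg _) (by positivity)
        gcongr
        exact e.mono (by omega) (by omega)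
    have h2 := (Kern.part F).ex_mono p h1 z
    rw [Kern.ex_add, Kern.ex_smul, Kern.ex_smul] at h2
    simp only [Kern.part_ex] at h2
    rw [ce_ce hpj, ce_ce hpj] at h2
    rw [sum_eq_sum_Ico_succ_bot (by omega : j < r + 1), show r + 1 - j = r + 1 - (j + 1) + 1 by omega,
      pow_succ]
    have h3 := mul_le_mul_of_nonneg_left (ih (by omega)) (zero_le_one.trans hK)
    have h4 : 0 ≤ ce (F p) (fun ω => |δ ω|) z := (Kern.part F).ex_nonneg p (fun _ => abs_nonneg _) z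
    have h5 : 1 * (Real.exp C / e.m 1 * ce (F p) (fun ω => |δ ω|) z) ≤
        (Real.exp C ^ 2) ^ (r + 1 - (j + 1)) * Real.exp C ^ 2 *
          (Real.exp C / e.m 1 * ce (F p) (fun ω => |δ ω|) z) :=
      mul_le_mul_of_nonneg_right (one_le_mul_of_one_le_of_one_le (one_le_pow₀ hK) hK) (by positivity)
    linarith

theorem sandwich {r : ℕ} (e : Expo r) (C : ℝ) : ∃ A : ℝ, 0 ≤ A ∧
    ∀ {Ω : Type} [Fintype Ω] (F F' G F₀ : ℕ → Setoid Ω) (p : ℕ), p ≤ r → F p = F' p →
      (∀ j, p ≤ j → ∀ a b, F (j + 1) a b → F j a b) →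
      (∀ j, p ≤ j → ∀ a b, F' (j + 1) a b → F' j a b) →
      (∀ j, p < j → j ≤ r → ∀ a b, (G j a b → F j a b) ∧ (F j a b → F₀ j a b)) →
      (∀ j, p < j → j ≤ r → ∀ a b, (G j a b → F' j a b) ∧ (F' j a b → F₀ j a b)) →
      ∀ v : Ω → ℝ, (∀ ω, |v ω| ≤ C) → ∀ z : Ω,
        |(Kern.part F).lp e v p z - (Kern.part F').lp e v p z| ≤
          A * ∑ j ∈ Ioc p r, ce (F p) (fun ω =>
            |ce (G j) (fun a => Real.exp (e.m (j + 1) * (Kern.part F₀).lp e v (j + 1) a)) ω -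
              ce (F₀ j) (fun a => Real.exp (e.m (j + 1) * (Kern.part F₀).lp e v (j + 1) a)) ω|) z := by
  have hm1 := e.pos (Nat.zero_le r)
  rw [zero_add] at hm1
  refine ⟨2 * Real.exp C ^ 2 * ((Real.exp C ^ 2) ^ r * (Real.exp C / e.m 1)), by positivity, ?_⟩
  intro Ω _ F F' G F₀ p hp hFF hF hF' hG hG' v hv z
  have hC : 0 ≤ C := (abs_nonneg _).trans (hv z)
  have hK : 1 ≤ Real.exp C ^ 2 := one_le_pow₀ (Real.one_le_exp hC)
  have h1 := Sandwich_aux e F G F₀ p hF hG hv z (p + 1) (Nat.lt_succ_self p)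
  have h2 := Sandwich_aux e F' G F₀ p hF' hG' hv z (p + 1) (Nat.lt_succ_self p)
  rw [← hFF] at h2
  have h3 := Sandwich_step (Kern.part F) p z (D := 0) (e.pos hp) (e.le_one (by omega))
    (Kern.abs_lp_le (Kern.part F) e hv p z) (Kern.abs_lp_le (Kern.part F') e hv p z)
    (Kern.abs_lp_le _ e hv _) (Kern.abs_lp_le (Kern.part F') e hv _) (Kern.exp_mul_lp _ e v hp z) (by
      rw [add_zero, Kern.exp_mul_lp _ e v hp z, Kern.part_ex, Kern.part_ex, hFF])
  have h4 := (Kern.part F).ex_mono p (fun ω => abs_sub_le ((Kern.part F).lp e v (p + 1) ω)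
    ((Kern.part F₀).lp e v (p + 1) ω) ((Kern.part F').lp e v (p + 1) ω)) z
  rw [Kern.ex_add] at h4
  simp only [abs_sub_comm ((Kern.part F₀).lp e v (p + 1) _), Kern.part_ex] at h4
  rw [abs_zero, mul_zero, add_zero, Kern.part_ex] at h3
  rw [Ico_add_one_add_one_eq_Ioc] at h1 h2
  set T := ∑ j ∈ Ioc p r, ce (F p) (fun ω =>
    |ce (G j) (fun a => Real.exp (e.m (j + 1) * (Kern.part F₀).lp e v (j + 1) a)) ω -
      ce (F₀ j) (fun a => Real.exp (e.m (j + 1) * (Kern.part F₀).lp e v (j + 1) a)) ω|) z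
  have hT : 0 ≤ T := sum_nonneg fun j _ => (Kern.part F).ex_nonneg p (fun _ => abs_nonneg _) z
  have h5 : (Real.exp C ^ 2) ^ (r + 1 - (p + 1)) * (Real.exp C / e.m 1) * T ≤
      (Real.exp C ^ 2) ^ r * (Real.exp C / e.m 1) * T := by
    gcongr
    omega
  have h6 := mul_le_mul_of_nonneg_left (h4.trans (add_le_add (h1.trans h5) (h2.trans h5)))
    (zero_le_one.trans hK)
  linarith

end Crest.Agent.R141
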