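import Crest.Agent.R141.CDefs

/-!
# Row 141: changing the law of many slots by importance sampling

Recipe. Fix `l`. `ρ' = (ρ - q)/(1 - q) ≥ 0` has mean one, `ρ' ≤ 2/q`. With `P' F = P.E τ₀ P.E τ₁ ρ' τ₁ F (mix τ₀ τ₁)`,
`Pm = q P + (1-q) P'`, so `Pm^{⊗B} = ∑_T q^|T| (1-q)^|Tᶜ| P^{⊗T} ⊗ P'^{⊗Tᶜ}` (`Finset.prod_add`, or a
coin `c : Fin B → Bool` and `pi_E_map`). For fixed `T`: `E_{P^T ⊗ P'^{Tᶜ}} a = E_big ∑_{sel} ∏_{t ∉ T}
(ρ' (big (t, sel t + 1)) / M) * a (S' sel)`, `S' sel t = big (t,0)` on `T`, `mix (big (t,0)) (big (t, sel t + 1))`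
off `T` (coordinatewise identity, `pi_E_curry`; a convenient way: for each `t` a "signed kernel" from
`Fin (M+1) → U` to `U` whose average under `P^{⊗(M+1)}` is the weight of `P` or `P'`). With
`Z = ∏_{t ∉ T} 𝔼 i, ρ' (big (t, i+1))`: `E Z = 1`, `E Z² ≤ (1 + 4/(q² M))^B`. If `k ≤ |T|` take an embedding
into `T`; replacing `Δ` by `min Δ 2`, the difference is `≤ E (Z Δ) + E |Z - 1| ≤ E Δ + 3 E |Z - 1|`. Otherwise
it is `≤ 2`, and `∑_{|T|<k} q^|T| (1-q)^|Tᶜ| ≤ 2^k ∑_T (q/2)^|T| (1-q)^|Tᶜ| = 2^k (1 - q/2)^B`.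
-/

set_option autoImplicit false

namespace Crest.Agent.R141

open Finset
open scoped BigOperators

/-- Tensorisation of a weighted representation. -/
theorem Sel_tensor {T U Y S : Type} [Fintype T] [DecidableEq T] [Fintype U] [Fintype Y] [Fintype S]
    (ν : FinLaw U) (μ : FinLaw Y) (w : Y → S → ℝ) (o : Y → S → U)
    (h : ∀ F : U → ℝ, ν.E F = μ.E fun y => ∑ s, w y s * F (o y s)) (a : (T → U) → ℝ) :
    (FinLaw.pi fun _ : T => ν).E a = (FinLaw.pi fun _ : T => μ).E fun y =>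
      ∑ s : T → S, (∏ t, w (y t) (s t)) * a fun t => o (y t) (s t) := by
  classical
  have h1 : ∀ u, ν.w u = μ.E fun y => ∑ s, w y s * if o y s = u then 1 else 0 := by
    intro u
    rw [← h fun v => if v = u then 1 else 0]
    simp [FinLaw.E]
  have h2 : ∀ x : T → U, (FinLaw.pi fun _ : T => ν).w x * a x =
      (FinLaw.pi fun _ : T => μ).E fun y => ∑ s : T → S,
        (∏ t, w (y t) (s t) * if o (y t) (s t) = x t then 1 else 0) * a x := by
    intro x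
    change (∏ t, ν.w (x t)) * a x = _
    simp only [h1]
    rw [← FinLaw.pi_E_prod (fun _ : T => μ)
      (fun t y => ∑ s, w y s * if o y s = x t then 1 else 0), ← FinLaw.pl_E_mul_const]
    congr 1
    funext y
    rw [Finset.prod_univ_sum, Fintype.piFinset_univ, Finset.sum_mul]
  rw [FinLaw.E]
  simp only [h2]
  rw [← FinLaw.E_sum]
  congr 1
  funext y
  rw [Finset.sum_comm]
  refine Finset.sum_congr rfl fun s _ => ?_
  rw [Finset.sum_eq_single (fun t => o (y t) (s t))]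
  · simp
  · intro x _ hx
    obtain ⟨t, ht⟩ := Function.ne_iff.1 hx
    rw [Finset.prod_eq_zero (Finset.mem_univ t) (by rw [if_neg (Ne.symm ht), mul_zero]), zero_mul]
  · simp

section
set_option linter.unusedSectionVars false
variable {U : Type} [Fintype U]

/-- importance weight of a slot -/
noncomputable def SelV (ρ' : U → ℝ) (M : ℕ) (c : Bool) (y : Fin (M + 1) → U) (i : Fin M) : ℝ :=
  (if c then 1 else ρ' (y i.succ)) / M

/-- the selected value of a slot -/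
def SelO (mix : U → U → U) (M : ℕ) (c : Bool) (y : Fin (M + 1) → U) (i : Fin M) : U :=
  if c then y 0 else mix (y 0) (y i.succ)

/-- the total weight of a slot -/
noncomputable def SelZ (ρ' : U → ℝ) (M : ℕ) (c : Bool) (y : Fin (M + 1) → U) : ℝ :=
  ∑ i, SelV ρ' M c y i

theorem Sel_one (P ν : FinLaw U) (mix : U → U → U) (ρ : U → ℝ) {q : ℝ} (hq2 : q ≤ 1 / 2)
    (hP : ∀ F : U → ℝ, P.E F = P.E fun τ₀ => P.E fun τ₁ => F (mix τ₀ τ₁))
    (hν : ∀ F : U → ℝ, ν.E F = P.E fun τ₀ => P.E fun τ₁ => ρ τ₁ * F (mix τ₀ τ₁))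
    {M : ℕ} (hM : 1 ≤ M) (F : U → ℝ) :
    ν.E F = (FinLaw.pi fun _ : Fin (M + 1) => P).E fun y => ∑ s : Bool × Fin M,
      ((if s.1 then q else 1 - q) * SelV (fun τ => (ρ τ - q) / (1 - q)) M s.1 y s.2) *
        F (SelO mix M s.1 y s.2) := by
  have hM0 : (M : ℝ) ≠ 0 := by positivity
  have hq1 : 1 - q ≠ 0 := by linarith
  have e : ∀ y : Fin (M + 1) → U, ∑ s : Bool × Fin M,
      ((if s.1 then q else 1 - q) * SelV (fun τ => (ρ τ - q) / (1 - q)) M s.1 y s.2) *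
        F (SelO mix M s.1 y s.2) = q * F (y 0) +
        ∑ i : Fin M, (M : ℝ)⁻¹ * ((ρ (y i.succ) - q) * F (mix (y 0) (y i.succ))) := by
    intro y
    rw [Fintype.sum_prod_type, Fintype.sum_bool]
    congr 1
    · simp only [SelV, SelO, if_true, Finset.sum_const, Finset.card_univ, Fintype.card_fin,
        nsmul_eq_mul]
      field_simp
    · refine Finset.sum_congr rfl fun i _ => ?_
      simp only [SelV, SelO, Bool.false_eq_true, if_false]
      field_simp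
  simp only [e]
  rw [FinLaw.E_add, FinLaw.E_smul, FinLaw.E_sum,
    FinLaw.pi_E_eval (fun _ : Fin (M + 1) => P) 0 F]
  have e2 : ∀ i : Fin M, (FinLaw.pi fun _ : Fin (M + 1) => P).E
      (fun y => (M : ℝ)⁻¹ * ((ρ (y i.succ) - q) * F (mix (y 0) (y i.succ)))) =
      (M : ℝ)⁻¹ * P.E fun τ₀ => P.E fun τ₁ => (ρ τ₁ - q) * F (mix τ₀ τ₁) := by
    intro i
    rw [FinLaw.E_smul, FinLaw.pi_E_cons]
    congr 2
    funext τ₀
    simp only [Fin.cons_succ, Fin.cons_zero]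
    exact FinLaw.pi_E_eval (fun _ : Fin M => P) i fun τ₁ => (ρ τ₁ - q) * F (mix τ₀ τ₁)
  simp only [e2, Finset.sum_const, Finset.card_univ, Fintype.card_fin, nsmul_eq_mul]
  rw [← mul_assoc, mul_inv_cancel₀ hM0, one_mul, hν, hP F, ← FinLaw.E_smul, ← FinLaw.E_add]
  congr 1
  funext τ₀
  rw [← FinLaw.E_smul, ← FinLaw.E_add]
  congr 1
  funext τ₁
  ring

theorem SelZ_true (ρ' : U → ℝ) {M : ℕ} (hM : 1 ≤ M) (y : Fin (M + 1) → U) :
    SelZ ρ' M true y = 1 := by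
  have hM0 : (M : ℝ) ≠ 0 := by positivity
  simp only [SelZ, SelV, if_true, Finset.sum_const, Finset.card_univ, Fintype.card_fin,
    nsmul_eq_mul]
  field_simp

theorem SelZ_false (ρ' : U → ℝ) (M : ℕ) (y : Fin (M + 1) → U) :
    SelZ ρ' M false y = 𝔼 i : Fin M, ρ' (y i.succ) := by
  simp only [SelZ, SelV, Bool.false_eq_true, if_false, Fintype.expect_eq_sum_div_card,
    Fintype.card_fin, Finset.sum_div]

theorem SelZ_E (P : FinLaw U) {ρ' : U → ℝ} (h1 : P.E ρ' = 1) {M : ℕ} (hM : 1 ≤ M) (c : Bool) :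
    (FinLaw.pi fun _ : Fin (M + 1) => P).E (SelZ ρ' M c) = 1 := by
  have hM0 : (M : ℝ) ≠ 0 := by positivity
  cases c
  · have e : SelZ ρ' M false = fun y => ∑ i : Fin M, (M : ℝ)⁻¹ * ρ' (y i.succ) := by
      funext y
      simp only [SelZ, SelV, Bool.false_eq_true, if_false, div_eq_inv_mul]
    rw [e, FinLaw.E_sum]
    have e2 : ∀ i : Fin M, (FinLaw.pi fun _ : Fin (M + 1) => P).E
        (fun y => (M : ℝ)⁻¹ * ρ' (y i.succ)) = (M : ℝ)⁻¹ := by
      intro i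
      rw [FinLaw.E_smul, FinLaw.pi_E_eval (fun _ : Fin (M + 1) => P) i.succ ρ', h1, mul_one]
    simp only [e2, Finset.sum_const, Finset.card_univ, Fintype.card_fin, nsmul_eq_mul]
    exact mul_inv_cancel₀ hM0
  · have e : SelZ ρ' M true = fun _ => 1 := funext (SelZ_true ρ' hM)
    rw [e, FinLaw.E_const]

theorem Sel_sq (μ : FinLaw U) {f : U → ℝ} (h1 : μ.E f = 1) :
    μ.E (fun y => (f y - 1) ^ 2) = μ.E (fun y => f y ^ 2) - 1 := by
  have e : (fun y => (f y - 1) ^ 2) = fun y => (f y ^ 2 - 2 * f y) + 1 := by funext y; ring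
  rw [e, FinLaw.E_add, FinLaw.E_sub, FinLaw.E_smul, FinLaw.E_const, h1]
  ring

theorem SelZ_sq (P : FinLaw U) {ρ' : U → ℝ} (h1 : P.E ρ' = 1) {A : ℝ} (hA : ∀ τ, |ρ' τ| ≤ A)
    {M : ℕ} (hM : 1 ≤ M) (c : Bool) :
    (FinLaw.pi fun _ : Fin (M + 1) => P).E (fun y => SelZ ρ' M c y ^ 2) ≤ 1 + A ^ 2 / M := by
  cases c
  · have h2 := Sel_sq _ (SelZ_E P h1 hM false)
    have h3 := FinLaw.pi_E_sq_mean_sub P M hM ρ' hA
    rw [h1, ← FinLaw.pi_E_restrict (fun _ : Fin (M + 1) => P) Fin.succ (Fin.succ_injective M)] at h3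
    simp only [SelZ_false] at h2 ⊢
    linarith
  · simp only [SelZ_true ρ' hM, one_pow, FinLaw.E_const]
    have : 0 ≤ A ^ 2 / M := by positivity
    linarith

theorem SelZ_prod_E (P : FinLaw U) {ρ' : U → ℝ} (h1 : P.E ρ' = 1) {M : ℕ} (hM : 1 ≤ M) {B : ℕ}
    (c : Fin B → Bool) :
    (FinLaw.pi fun _ : Fin B => FinLaw.pi fun _ : Fin (M + 1) => P).E
      (fun Y => ∏ t, SelZ ρ' M (c t) (Y t)) = 1 := by
  rw [FinLaw.pi_E_prod (fun _ : Fin B => FinLaw.pi fun _ : Fin (M + 1) => P)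
    fun t => SelZ ρ' M (c t)]
  simp [SelZ_E P h1 hM]

theorem SelZ_prod_abs (P : FinLaw U) {ρ' : U → ℝ} (h1 : P.E ρ' = 1) {A : ℝ} (hA : ∀ τ, |ρ' τ| ≤ A)
    {M : ℕ} (hM : 1 ≤ M) {B : ℕ} (c : Fin B → Bool) :
    (FinLaw.pi fun _ : Fin B => FinLaw.pi fun _ : Fin (M + 1) => P).E
      (fun Y => |∏ t, SelZ ρ' M (c t) (Y t) - 1|) ≤ Real.sqrt ((1 + A ^ 2 / M) ^ B - 1) := by
  refine (FinLaw.E_abs_le_sqrt _ _).trans (Real.sqrt_le_sqrt ?_)
  rw [Sel_sq _ (SelZ_prod_E P h1 hM c)]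
  simp only [← Finset.prod_pow]
  rw [FinLaw.pi_E_prod (fun _ : Fin B => FinLaw.pi fun _ : Fin (M + 1) => P)
    fun t y => SelZ ρ' M (c t) y ^ 2]
  gcongr
  calc _ ≤ ∏ _t : Fin B, (1 + A ^ 2 / M) :=
        Finset.prod_le_prod (fun t _ => FinLaw.E_nonneg _ fun y => sq_nonneg _)
          fun t _ => SelZ_sq P h1 hA hM (c t)
    _ = _ := by simp

/-- the error for a fixed coin sequence -/
noncomputable def SelD (P : FinLaw U) (mix : U → U → U) (ρ' : U → ℝ) (M : ℕ) {B : ℕ}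
    (a : (Fin B → U) → ℝ) (c : Fin B → Bool) : ℝ :=
  (FinLaw.pi fun _ : Fin B => FinLaw.pi fun _ : Fin (M + 1) => P).E fun Y =>
    (∑ s : Fin B → Fin M, (∏ t, SelV ρ' M (c t) (Y t) (s t)) *
      a fun t => SelO mix M (c t) (Y t) (s t)) - a fun t => Y t 0

theorem Sel_sumV (ρ' : U → ℝ) (M : ℕ) {B : ℕ} (c : Fin B → Bool) (Y : Fin B → Fin (M + 1) → U) :
    ∑ s : Fin B → Fin M, ∏ t, SelV ρ' M (c t) (Y t) (s t) = ∏ t, SelZ ρ' M (c t) (Y t) := by
  simp only [SelZ]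
  rw [Finset.prod_univ_sum, Fintype.piFinset_univ]

theorem SelV_nonneg {ρ' : U → ℝ} (h0 : ∀ τ, 0 ≤ ρ' τ) (M : ℕ) (c : Bool) (y : Fin (M + 1) → U)
    (i : Fin M) : 0 ≤ SelV ρ' M c y i := by
  unfold SelV
  refine div_nonneg ?_ (Nat.cast_nonneg M)
  split_ifs
  exacts [zero_le_one, h0 _]

theorem SelD_le_two (P : FinLaw U) (mix : U → U → U) {ρ' : U → ℝ} (h0 : ∀ τ, 0 ≤ ρ' τ)
    (h1 : P.E ρ' = 1) {M : ℕ} (hM : 1 ≤ M) {B : ℕ} {a : (Fin B → U) → ℝ} (ha : ∀ x, |a x| ≤ 1)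
    (c : Fin B → Bool) : |SelD P mix ρ' M a c| ≤ 2 := by
  refine (FinLaw.abs_E_le_E_abs _ _).trans ?_
  refine (FinLaw.E_mono _ (g := fun Y => ∏ t, SelZ ρ' M (c t) (Y t) + 1) fun Y => ?_).trans ?_
  · refine (abs_sub _ _).trans (add_le_add ?_ (ha _))
    rw [← Sel_sumV]
    refine (Finset.abs_sum_le_sum_abs _ _).trans (Finset.sum_le_sum fun s _ => ?_)
    have h2 : 0 ≤ ∏ t, SelV ρ' M (c t) (Y t) (s t) :=
      Finset.prod_nonneg fun t _ => SelV_nonneg h0 _ _ _ _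
    rw [abs_mul, abs_of_nonneg h2]
    exact mul_le_of_le_one_right h2 (ha _)
  · rw [FinLaw.E_add, SelZ_prod_E P h1 hM, FinLaw.E_const]
    norm_num

theorem SelD_le (P : FinLaw U) (mix : U → U → U) {ρ' : U → ℝ} (h0 : ∀ τ, 0 ≤ ρ' τ)
    (h1 : P.E ρ' = 1) {A : ℝ} (hA : ∀ τ, |ρ' τ| ≤ A) {M : ℕ} (hM : 1 ≤ M) {B : ℕ}
    {a : (Fin B → U) → ℝ} (ha : ∀ x, |a x| ≤ 1) (c : Fin B → Bool)
    (Δ : (Fin B × Fin (M + 1) → U) → ℝ)
    (hΔ : ∀ (Y : Fin B → Fin (M + 1) → U) (s : Fin B → Fin M),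
      |(a fun t => SelO mix M (c t) (Y t) (s t)) - a fun t => Y t 0| ≤ Δ fun p => Y p.1 p.2) :
    |SelD P mix ρ' M a c| ≤ (FinLaw.pi fun _ : Fin B × Fin (M + 1) => P).E Δ +
      3 * Real.sqrt ((1 + A ^ 2 / M) ^ B - 1) := by
  refine (FinLaw.abs_E_le_E_abs _ _).trans ?_
  refine (FinLaw.E_mono _ (g := fun Y => (Δ fun p => Y p.1 p.2) +
    3 * |∏ t, SelZ ρ' M (c t) (Y t) - 1|) fun Y => ?_).trans ?_
  · set Z := ∏ t, SelZ ρ' M (c t) (Y t) with hZ
    set m := min (Δ fun p => Y p.1 p.2) 2 with hm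
    have hm0 : 0 ≤ m := le_min ((abs_nonneg _).trans (hΔ Y fun _ => ⟨0, hM⟩)) zero_le_two
    have e : (∑ s : Fin B → Fin M, (∏ t, SelV ρ' M (c t) (Y t) (s t)) *
        a fun t => SelO mix M (c t) (Y t) (s t)) - (a fun t => Y t 0) =
        ∑ s : Fin B → Fin M, (∏ t, SelV ρ' M (c t) (Y t) (s t)) *
          ((a fun t => SelO mix M (c t) (Y t) (s t)) - a fun t => Y t 0) +
          (Z - 1) * a fun t => Y t 0 := by
      simp only [mul_sub, Finset.sum_sub_distrib, ← Finset.sum_mul, Sel_sumV]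
      ring
    have h3 : |∑ s : Fin B → Fin M, (∏ t, SelV ρ' M (c t) (Y t) (s t)) *
          ((a fun t => SelO mix M (c t) (Y t) (s t)) - a fun t => Y t 0)| ≤ Z * m := by
      rw [hZ, ← Sel_sumV, Finset.sum_mul]
      refine (Finset.abs_sum_le_sum_abs _ _).trans (Finset.sum_le_sum fun s _ => ?_)
      have h2 : 0 ≤ ∏ t, SelV ρ' M (c t) (Y t) (s t) :=
        Finset.prod_nonneg fun t _ => SelV_nonneg h0 _ _ _ _
      rw [abs_mul, abs_of_nonneg h2]
      refine mul_le_mul_of_nonneg_left (le_min (hΔ Y s) ?_) h2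
      have := ha fun t => SelO mix M (c t) (Y t) (s t)
      have := ha fun t => Y t 0
      exact (abs_sub _ _).trans (by linarith)
    have h4 : |(Z - 1) * a fun t => Y t 0| ≤ |Z - 1| := by
      rw [abs_mul]
      exact mul_le_of_le_one_right (abs_nonneg _) (ha _)
    have h5 : Z * m ≤ m + |Z - 1| * 2 := by
      have : (Z - 1) * m ≤ |Z - 1| * 2 :=
        mul_le_mul (le_abs_self _) (min_le_right _ _) hm0 (abs_nonneg _)
      linarith
    have h6 : m ≤ Δ fun p => Y p.1 p.2 := min_le_left _ _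
    rw [e]
    exact (abs_add_le _ _).trans (by linarith)
  · rw [FinLaw.E_add, FinLaw.E_smul, FinLaw.pi_E_curry (fun _ : Fin B × Fin (M + 1) => P) Δ]
    have := SelZ_prod_abs P h1 hA hM c
    linarith

theorem Sel_coin (q : ℝ) (B : ℕ) (u v : ℝ) :
    ∑ c : Fin B → Bool, (∏ t, if c t then q else 1 - q) * ∏ t, (if c t then u else v) =
      (q * u + (1 - q) * v) ^ B := by
  have := Finset.prod_univ_sum (fun _ : Fin B => (Finset.univ : Finset Bool))
    (fun _ b => (if b then q else 1 - q) * (if b then u else v))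
  rw [Fintype.piFinset_univ] at this
  simp only [← Finset.prod_mul_distrib]
  rw [← this]
  simp

theorem Sel_decomp (P ν : FinLaw U) (mix : U → U → U) (ρ : U → ℝ) {q : ℝ} (hq2 : q ≤ 1 / 2)
    (hP : ∀ F : U → ℝ, P.E F = P.E fun τ₀ => P.E fun τ₁ => F (mix τ₀ τ₁))
    (hν : ∀ F : U → ℝ, ν.E F = P.E fun τ₀ => P.E fun τ₁ => ρ τ₁ * F (mix τ₀ τ₁))
    {M : ℕ} (hM : 1 ≤ M) {B : ℕ} (a : (Fin B → U) → ℝ) :
    (FinLaw.pi fun _ : Fin B => ν).E a - (FinLaw.pi fun _ : Fin B => P).E a =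
      ∑ c : Fin B → Bool, (∏ t, if c t then q else 1 - q) *
        SelD P mix (fun τ => (ρ τ - q) / (1 - q)) M a c := by
  have h1 := Sel_tensor ν (FinLaw.pi fun _ : Fin (M + 1) => P)
    (fun y (s : Bool × Fin M) =>
      (if s.1 then q else 1 - q) * SelV (fun τ => (ρ τ - q) / (1 - q)) M s.1 y s.2)
    (fun y s => SelO mix M s.1 y s.2) (Sel_one P ν mix ρ hq2 hP hν hM) a
  have h2 := FinLaw.pi_E_map (fun _ : Fin B => FinLaw.pi fun _ : Fin (M + 1) => P)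
    (fun _ : Fin B => P) (fun _ y => y 0)
    (fun _ g => FinLaw.pi_E_eval (fun _ : Fin (M + 1) => P) 0 g) a
  have h3 := Sel_coin q B 1 1
  simp only [ite_self, Finset.prod_const_one, mul_one, add_sub_cancel, one_pow] at h3
  rw [h1, ← h2, ← FinLaw.E_sub]
  simp only [SelD, ← FinLaw.E_smul]
  rw [← FinLaw.E_sum]
  congr 1
  funext Y
  simp only [mul_sub, Finset.sum_sub_distrib, ← Finset.sum_mul, h3, one_mul]
  congr 1
  rw [← (Equiv.arrowProdEquivProdArrow (Fin B) (fun _ => Bool) (fun _ => Fin M)).symm.sum_comp,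
    Fintype.sum_prod_type]
  refine Finset.sum_congr rfl fun c _ => ?_
  rw [Finset.mul_sum]
  refine Finset.sum_congr rfl fun s _ => ?_
  rw [← mul_assoc, ← Finset.prod_mul_distrib]
  rfl

end

theorem sel {U L : Type} [Fintype U] [Fintype L] [Nonempty L] (P : FinLaw U) (mix : U → U → U)
    (Pm : L → FinLaw U) (ρ : L → U → ℝ) {q : ℝ} (hq : 0 < q) (hq2 : q ≤ 1 / 2)
    (hρ : ∀ l τ, q ≤ ρ l τ ∧ ρ l τ ≤ 1 / q) (hρ1 : ∀ l, P.E (ρ l) = 1)
    (hP : ∀ F : U → ℝ, P.E F = P.E fun τ₀ => P.E fun τ₁ => F (mix τ₀ τ₁))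
    (hPm : ∀ l (F : U → ℝ), (Pm l).E F = P.E fun τ₀ => P.E fun τ₁ => ρ l τ₁ * F (mix τ₀ τ₁))
    (B M k : ℕ) (hM : 1 ≤ M) (a : L → (Fin B → U) → ℝ) (ha : ∀ l x, |a l x| ≤ 1) {δ : ℝ}
    (hδ : 0 ≤ δ)
    (hΔ : ∀ emb : Fin k ↪ Fin B, ∃ Δ : L → (Fin B × Fin (M + 1) → U) → ℝ,
      (∀ l big (x : Fin B → U),
        (∀ t, x t = big (t, 0) ∨ ∃ i, x t = mix (big (t, 0)) (big (t, i))) →
        (∀ u, x (emb u) = big (emb u, 0)) → |a l x - a l fun t => big (t, 0)| ≤ Δ l big) ∧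
      𝔼 l, (FinLaw.pi fun _ : Fin B × Fin (M + 1) => P).E (Δ l) ≤ δ) :
    𝔼 l, |(FinLaw.pi fun _ : Fin B => Pm l).E (a l) - (FinLaw.pi fun _ : Fin B => P).E (a l)| ≤
      δ + selErr q k B M := by
  classical
  have hq1 : 0 < 1 - q := by linarith
  have h0 : ∀ l τ, 0 ≤ (ρ l τ - q) / (1 - q) := fun l τ =>
    div_nonneg (sub_nonneg.2 (hρ l τ).1) hq1.le
  have h1 : ∀ l, P.E (fun τ => (ρ l τ - q) / (1 - q)) = 1 := by
    intro l
    simp only [div_eq_inv_mul]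
    rw [FinLaw.E_smul, FinLaw.E_sub, hρ1, FinLaw.E_const, inv_mul_cancel₀ hq1.ne']
  have hA : ∀ l τ, |(ρ l τ - q) / (1 - q)| ≤ 2 / q := by
    intro l τ
    rw [abs_of_nonneg (h0 l τ), div_le_iff₀ hq1]
    have h2 := (hρ l τ).2
    have h3 : 1 / q ≤ 2 / q * (1 - q) := by
      rw [div_mul_eq_mul_div]
      gcongr
      linarith
    linarith
  set s := Real.sqrt ((1 + (2 / q) ^ 2 / M) ^ B - 1) with hs
  have hs0 : 0 ≤ s := Real.sqrt_nonneg _
  have hπ : ∀ c : Fin B → Bool, 0 ≤ ∏ t, if c t then q else 1 - q := fun c =>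
    Finset.prod_nonneg fun t _ => by split_ifs <;> linarith
  have key : ∀ c : Fin B → Bool, 𝔼 l, |SelD P mix (fun τ => (ρ l τ - q) / (1 - q)) M (a l) c| ≤
      δ + 3 * s + 2 * 2 ^ k * ∏ t, (if c t then (1 / 2 : ℝ) else 1) := by
    intro c
    have hpr : ∏ t, (if c t then (1 / 2 : ℝ) else 1) =
        (1 / 2) ^ (Finset.univ.filter fun t => c t = true).card := by
      rw [Finset.prod_ite, Finset.prod_const, Finset.prod_const_one, mul_one]
    by_cases hk : k ≤ (Finset.univ.filter fun t => c t = true).card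
    · obtain ⟨e⟩ : Nonempty (Fin k ↪ (Finset.univ.filter fun t => c t = true)) :=
        Function.Embedding.nonempty_of_card_le (by rw [Fintype.card_fin, Fintype.card_coe]; exact hk)
      obtain ⟨Δ, hΔ1, hΔ2⟩ := hΔ (e.trans (Function.Embedding.subtype _))
      have h2 : ∀ l, |SelD P mix (fun τ => (ρ l τ - q) / (1 - q)) M (a l) c| ≤
          (FinLaw.pi fun _ : Fin B × Fin (M + 1) => P).E (Δ l) + 3 * s := by
        intro l
        refine SelD_le P mix (h0 l) (h1 l) (hA l) hM (ha l) c (Δ l) fun Y sel => ?_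
        refine hΔ1 l (fun p => Y p.1 p.2) _ (fun t => ?_) fun u => ?_
        · unfold SelO
          split_ifs
          · exact Or.inl rfl
          · exact Or.inr ⟨_, rfl⟩
        · have hu := (Finset.mem_filter.1 (e u).2).2
          exact if_pos hu
      refine (Finset.expect_le_expect fun l _ => h2 l).trans ?_
      rw [Finset.expect_add_distrib, Fintype.expect_const]
      have : 0 ≤ 2 * 2 ^ k * ∏ t, (if c t then (1 / 2 : ℝ) else 1) := by rw [hpr]; positivity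
      linarith
    · refine (Finset.expect_le_expect fun l _ =>
        SelD_le_two P mix (h0 l) (h1 l) hM (ha l) c).trans ?_
      rw [Fintype.expect_const, hpr]
      have h2 : (1 / 2 : ℝ) ^ k ≤ (1 / 2) ^ (Finset.univ.filter fun t => c t = true).card :=
        pow_le_pow_of_le_one (by norm_num) (by norm_num) (by omega)
      have h3 : (2 : ℝ) ^ k * (1 / 2) ^ k = 1 := by rw [← mul_pow]; norm_num
      have h4 : (2 : ℝ) ^ k * (1 / 2) ^ k ≤
          2 ^ k * (1 / 2) ^ (Finset.univ.filter fun t => c t = true).card := by gcongr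
      linarith
  have h3 := Sel_coin q B 1 1
  simp only [ite_self, Finset.prod_const_one, mul_one, add_sub_cancel, one_pow] at h3
  have h4 := Sel_coin q B (1 / 2) 1
  calc _ ≤ 𝔼 l, ∑ c : Fin B → Bool, (∏ t, if c t then q else 1 - q) *
        |SelD P mix (fun τ => (ρ l τ - q) / (1 - q)) M (a l) c| := by
        refine Finset.expect_le_expect fun l _ => ?_
        rw [Sel_decomp P (Pm l) mix (ρ l) hq2 hP (hPm l) hM]
        refine (Finset.abs_sum_le_sum_abs _ _).trans (le_of_eq ?_)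
        refine Finset.sum_congr rfl fun c _ => ?_
        rw [abs_mul, abs_of_nonneg (hπ c)]
    _ = ∑ c : Fin B → Bool, (∏ t, if c t then q else 1 - q) *
        𝔼 l, |SelD P mix (fun τ => (ρ l τ - q) / (1 - q)) M (a l) c| := by
        rw [Finset.expect_sum_comm]
        exact Finset.sum_congr rfl fun c _ => (Finset.mul_expect _ _ _).symm
    _ ≤ ∑ c : Fin B → Bool, (∏ t, if c t then q else 1 - q) *
        (δ + 3 * s + 2 * 2 ^ k * ∏ t, (if c t then (1 / 2 : ℝ) else 1)) :=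
        Finset.sum_le_sum fun c _ => mul_le_mul_of_nonneg_left (key c) (hπ c)
    _ = δ + 3 * s + 2 * 2 ^ k * (q * (1 / 2) + (1 - q) * 1) ^ B := by
        rw [← h4, Finset.mul_sum]
        simp only [mul_add (∏ t : Fin B, _) (δ + 3 * s), Finset.sum_add_distrib, ← Finset.sum_mul,
          h3, one_mul]
        congr 1
        exact Finset.sum_congr rfl fun c _ => by ring
    _ = _ := by
        have e1 : q * (1 / 2) + (1 - q) * 1 = 1 - q / 2 := by ring
        have e2 : (2 / q) ^ 2 / M = 4 / (q ^ 2 * M) := by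
          rw [div_pow, div_div]; norm_num
        rw [e1, hs, e2, selErr]
        ring

theorem selErr_small {q θ : ℝ} (hq : 0 < q) (hq2 : q ≤ 1 / 2) (hθ : 0 < θ) :
    ∃ f Mx : ℕ → ℕ, (∀ b, b < f b) ∧ (∀ B, 1 ≤ Mx B) ∧ (∀ B, B * (Mx B + 1) ≤ f B) ∧
      ∀ k B, f k ≤ B → selErr q k B (Mx B) ≤ θ := by
  have hM : ∀ B : ℕ, ∃ M : ℕ, 1 ≤ M ∧
      3 * Real.sqrt ((1 + 4 / (q ^ 2 * M)) ^ B - 1) ≤ θ / 2 := by
    intro B
    have h1 : Filter.Tendsto (fun M : ℕ => 4 / q ^ 2 / (M : ℝ)) Filter.atTop (nhds 0) :=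
      tendsto_const_div_atTop_nhds_zero_nat _
    have h2 : Continuous fun x : ℝ => 3 * Real.sqrt ((1 + x) ^ B - 1) := by fun_prop
    have h3 := (h2.tendsto 0).comp h1
    simp only [add_zero, one_pow, sub_self, Real.sqrt_zero, mul_zero] at h3
    obtain ⟨M, h4, h5⟩ := ((h3.eventually (gt_mem_nhds (half_pos hθ))).and
      (Filter.eventually_ge_atTop 1)).exists
    refine ⟨M, h5, ?_⟩
    simp only [Function.comp, div_div] at h4
    exact h4.le
  have hg : ∀ k : ℕ, ∃ g : ℕ, ∀ B, g ≤ B → 2 * 2 ^ k * (1 - q / 2) ^ B ≤ θ / 2 := by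
    intro k
    have h1 := (tendsto_pow_atTop_nhds_zero_of_lt_one (r := 1 - q / 2) (by linarith)
      (by linarith)).const_mul (2 * 2 ^ k)
    rw [mul_zero] at h1
    obtain ⟨g, h2⟩ := Filter.eventually_atTop.1 (h1.eventually (gt_mem_nhds (half_pos hθ)))
    exact ⟨g, fun B hB => (h2 B hB).le⟩
  choose Mx hM1 hM2 using hM
  choose g hg using hg
  refine ⟨fun b => b + 1 + b * (Mx b + 1) + g b, Mx, fun b => by dsimp only; omega, hM1,
    fun b => by dsimp only; omega, fun k B h => ?_⟩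
  have h1 := hg k B (by dsimp only at h; omega)
  have h2 := hM2 B
  unfold selErr
  linarith

end Crest.Agent.R141
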