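import Crest.Agent.R141.CDefs

/-!
# Row 141: reference trees (morphisms, invariance, domination, law of large numbers)

Recipes: induction on the depth; `FinLaw.ext_E`, `map_E`, `cp_E`, `pi_w_le`. The weight of a child is
`(((S.law j z).cp T).map Prod.snd).w τ = ∑ ω, S.A j z ω * (T ω).w τ`.
`tree_lln`: with `m = e.m (j+1)`, `X = exp (lp …)`, `X̂ = exp (treeLP …)`,
`|X̂_j^m - X_j^m| ≤ 𝔼 i, |X̂_{j+1}^m (τ i) - X_{j+1}^m (ω i)| + |𝔼 i, X_{j+1}^m (ω i) - ex j X_{j+1}^m|`;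
the second term has mean `≤ exp C / √κ` (`pi_E_sq_mean_sub`, `E_abs_le_sqrt`); pass between `log` and
`exp` on `[-C, C]`. So `err_j ≤ exp (2C) err_{j+1} + exp (2C) / (m 1 √κ)`. Un-marginalise the child
points with `pi_E_map`.
-/

set_option autoImplicit false

namespace Crest.Agent.R141

open Finset
open scoped BigOperators

variable {Ω β : Type} [Fintype Ω] [Fintype β] {r : ℕ}

theorem treeLaw_hom {Ω' : Type} [Fintype Ω'] {S : Kern Ω} {S' : Kern Ω'} {φ : Ω → Ω'}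
    (h : Kern.Hom r S S' φ) (κ : ℕ) (σ : Ω' → β) (d : ℕ) (z : Ω) :
    treeLaw S r κ (fun ω => σ (φ ω)) d z = treeLaw S' r κ σ d (φ z) := by
  induction d generalizing z with
  | zero => rfl
  | succ d ih =>
    simp only [treeLaw]
    congr 1
    funext _
    refine FinLaw.ext_E fun f => ?_
    simp only [FinLaw.map_E, FinLaw.cp_E, ih]
    exact h (r - d) (Nat.sub_le _ _) (fun ω => (treeLaw S' r κ σ d ω).E f) z

theorem treeLaw_inv (S : FKS Ω r) (κ : ℕ) (σ : Ω → β) {j : ℕ} (hj : j ≤ r) {z z' : Ω}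
    (h : S.rel j z z') :
    treeLaw S.toKern r κ σ (r + 1 - j) z = treeLaw S.toKern r κ σ (r + 1 - j) z' := by
  have key : ∀ d, r + 1 - j = d + 1 → treeLaw S.toKern r κ σ (d + 1) z =
      treeLaw S.toKern r κ σ (d + 1) z' := by
    intro d hd
    have h1 : S.toKern.law (r - d) z = S.toKern.law (r - d) z' := by
      rw [show r - d = j by omega]
      exact FinLaw.ext_w (S.inv j z z' h)
    simp only [treeLaw, h1]
  generalize hd : r + 1 - j = d
  cases d with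
  | zero => omega
  | succ d => exact key d hd

theorem tr_child_w {A B : Type} [Fintype A] [Fintype B] (μ : FinLaw A) (ν : A → FinLaw B) (t : B) :
    ((μ.cp ν).map Prod.snd).w t = ∑ a, μ.w a * (ν a).w t := by
  classical
  simp only [FinLaw.map, FinLaw.cp, Fintype.sum_prod_type]
  refine sum_congr rfl fun a _ => ?_
  rw [Finset.sum_eq_single t (fun b _ hb => if_neg hb) (fun h => absurd (mem_univ t) h), if_pos rfl]

theorem treeLaw_le {S S' : Kern Ω} {K : ℝ} (hK : 1 ≤ K)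
    (h : ∀ j ≤ r, ∀ z ω, S'.A j z ω ≤ K * S.A j z ω) (κ : ℕ) (σ : Ω → β) (d : ℕ) (z : Ω)
    (τ : Tr β κ d) :
    (treeLaw S' r κ σ d z).w τ ≤ K ^ Tr.nodes κ d * (treeLaw S r κ σ d z).w τ := by
  induction d generalizing z with
  | zero => simp [treeLaw, Tr.nodes]
  | succ d ih =>
    have h1 := FinLaw.pi_w_le (L := Fin κ) (K := fun _ => K ^ (1 + Tr.nodes κ d))
      (μ := fun _ => ((S.law (r - d) z).cp fun ω => treeLaw S r κ σ d ω).map Prod.snd)
      (ν := fun _ => ((S'.law (r - d) z).cp fun ω => treeLaw S' r κ σ d ω).map Prod.snd)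
      (fun _ t => by
        rw [tr_child_w, tr_child_w, Finset.mul_sum]
        refine sum_le_sum fun ω _ => ?_
        have h2 := mul_le_mul (h (r - d) (Nat.sub_le _ _) z ω) (ih ω t)
          ((treeLaw S' r κ σ d ω).nonneg t) (mul_nonneg (by linarith) (S.nonneg _ _ _))
        refine h2.trans_eq ?_
        simp only [Kern.law]
        ring) τ
    rw [Finset.prod_const, card_univ, Fintype.card_fin, ← pow_mul, mul_comm (1 + _) κ] at h1
    exact h1

theorem slotLaw₂_self (S : Kern Ω) (κ : ℕ) (σ : Ω → β) (p : ℕ) (γ : Ω) :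
    slotLaw₂ S S r κ σ p γ = slotLaw S r κ σ γ := by
  simp [slotLaw₂, slotLaw]

theorem slotLaw₂_le {S₁ S₂ S₁' S₂' : Kern Ω} {K : ℝ} (hK : 1 ≤ K)
    (h₁ : ∀ j ≤ r, ∀ z ω, S₁'.A j z ω ≤ K * S₁.A j z ω)
    (h₂ : ∀ j ≤ r, ∀ z ω, S₂'.A j z ω ≤ K * S₂.A j z ω) (κ : ℕ) (σ : Ω → β) (p : ℕ) (γ : Ω)
    (τ : Slot β κ r) :
    (slotLaw₂ S₁' S₂' r κ σ p γ).w τ ≤ K ^ slotNodes κ r * (slotLaw₂ S₁ S₂ r κ σ p γ).w τ := by
  rw [slotNodes, ← Finset.prod_pow_eq_pow_sum]
  refine FinLaw.pi_w_le (fun j t => ?_) τ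
  split_ifs
  · exact treeLaw_le hK h₁ κ σ _ γ t
  · exact treeLaw_le hK h₂ κ σ _ γ t

theorem slotLaw_le {S S' : Kern Ω} {K : ℝ} (hK : 1 ≤ K)
    (h : ∀ j ≤ r, ∀ z ω, S'.A j z ω ≤ K * S.A j z ω) (κ : ℕ) (σ : Ω → β) (γ : Ω)
    (τ : Slot β κ r) :
    (slotLaw S' r κ σ γ).w τ ≤ K ^ slotNodes κ r * (slotLaw S r κ σ γ).w τ := by
  rw [← slotLaw₂_self S' κ σ 0, ← slotLaw₂_self S κ σ 0]
  exact slotLaw₂_le hK h h κ σ 0 γ τ

theorem slotLE_le [Inhabited β] {S S' : Kern Ω} {K : ℝ} (hK : 1 ≤ K)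
    (h : ∀ j ≤ r, ∀ z ω, S'.A j z ω ≤ K * S.A j z ω) (κ : ℕ) (σ : Ω → β) (p : ℕ) (γ : Ω)
    (τ : Slot β κ r) :
    (slotLE S' r κ σ p γ).w τ ≤ K ^ slotNodes κ r * (slotLE S r κ σ p γ).w τ := by
  rw [slotNodes, ← Finset.prod_pow_eq_pow_sum]
  refine FinLaw.pi_w_le (fun j t => ?_) τ
  split_ifs
  · exact treeLaw_le hK h κ σ _ γ t
  · exact le_mul_of_one_le_left (FinLaw.nonneg _ _) (one_le_pow₀ hK)

theorem slotLE_inv [Inhabited β] (S : FKS Ω r) (κ : ℕ) (σ : Ω → β) {p : ℕ} {γ γ' : Ω}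
    (h : S.rel p γ γ') : slotLE S.toKern r κ σ p γ = slotLE S.toKern r κ σ p γ' := by
  unfold slotLE
  congr 1
  funext j
  split_ifs with hj
  · exact treeLaw_inv S κ σ (Nat.lt_succ_iff.1 j.2) (S.rel_of_le hj h)
  · rfl

theorem slotLaw_inv (S : FKS Ω r) (κ : ℕ) (σ : Ω → β) {γ γ' : Ω} (h : S.rel r γ γ') :
    slotLaw S.toKern r κ σ γ = slotLaw S.toKern r κ σ γ' := by
  unfold slotLaw
  congr 1
  funext j
  exact treeLaw_inv S κ σ (Nat.lt_succ_iff.1 j.2) (S.rel_of_le (Nat.lt_succ_iff.1 j.2) h)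

theorem slotLaw_hom {Ω' : Type} [Fintype Ω'] {S : Kern Ω} {S' : Kern Ω'} {φ : Ω → Ω'}
    (h : Kern.Hom r S S' φ) (κ : ℕ) (σ : Ω' → β) (z : Ω) :
    slotLaw S r κ (fun ω => σ (φ ω)) z = slotLaw S' r κ σ (φ z) := by
  simp only [slotLaw, treeLaw_hom h]

theorem slotLE_hom [Inhabited β] {Ω' : Type} [Fintype Ω'] {S : Kern Ω} {S' : Kern Ω'}
    {φ : Ω → Ω'} (h : Kern.Hom r S S' φ) (κ : ℕ) (σ : Ω' → β) (p : ℕ) (z : Ω) :
    slotLE S r κ (fun ω => σ (φ ω)) p z = slotLE S' r κ σ p (φ z) := by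
  simp only [slotLE, treeLaw_hom h]

/-- Law of a mixed slot. -/
theorem pi_E_mix {κ : ℕ} (μ ν : (j : Fin (r + 1)) → FinLaw (Tr β κ (r + 1 - j))) (p : ℕ)
    (F : Slot β κ r → ℝ) :
    (FinLaw.pi μ).E (fun τ => (FinLaw.pi ν).E fun τ' => F (Slot.mix p τ τ')) =
      (FinLaw.pi fun j : Fin (r + 1) => if (j : ℕ) ≤ p then μ j else ν j).E F := by
  have h := FinLaw.pl_eq_pi (((FinLaw.pi μ).prod (FinLaw.pi ν)).map
    fun x => (Slot.mix p x.1 x.2 : Slot β κ r))
    (fun j : Fin (r + 1) => if (j : ℕ) ≤ p then μ j else ν j) fun g => by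
      rw [FinLaw.map_E, FinLaw.prod_E]
      have h1 : ∀ τ τ' : Slot β κ r, ∏ j, g j (Slot.mix p τ τ' j) =
          (∏ j : Fin (r + 1), (fun (j : Fin (r + 1)) (t : Tr β κ (r + 1 - j)) =>
            if (j : ℕ) ≤ p then g j t else 1) j (τ j)) *
          ∏ j : Fin (r + 1), (fun (j : Fin (r + 1)) (t : Tr β κ (r + 1 - j)) =>
            if (j : ℕ) ≤ p then 1 else g j t) j (τ' j) := fun τ τ' => by
        rw [← Finset.prod_mul_distrib]
        refine prod_congr rfl fun j _ => ?_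
        simp only [Slot.mix]
        split_ifs <;> simp
      simp only [h1]
      simp only [FinLaw.E_smul, FinLaw.pl_E_mul_const]
      rw [FinLaw.pi_E_prod μ fun j t => if (j : ℕ) ≤ p then g j t else 1,
        FinLaw.pi_E_prod ν fun j t => if (j : ℕ) ≤ p then 1 else g j t, ← Finset.prod_mul_distrib]
      refine prod_congr rfl fun j _ => ?_
      split_ifs <;> simp [FinLaw.E_const]
  rw [← h, FinLaw.map_E, FinLaw.prod_E]

/-- The same for families of slots. -/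
theorem pi_slot_E_mix {I : Type} [Fintype I] [DecidableEq I] [Inhabited β] (S S' : Kern Ω) (κ : ℕ)
    (σ : Ω → β) (p : ℕ) (γ : Ω) (F : (I → Slot β κ r) → ℝ) :
    (FinLaw.pi fun _ : I => slotLaw₂ S S' r κ σ p γ).E F =
      (FinLaw.pi fun _ : I => slotLE S r κ σ p γ).E fun Sl =>
        (FinLaw.pi fun _ : I => slotLaw S' r κ σ γ).E fun Sl' =>
          F fun t => Slot.mix p (Sl t) (Sl' t) := by
  rw [← FinLaw.pi_E_map (fun _ : I => (slotLE S r κ σ p γ).prod (slotLaw S' r κ σ γ))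
    (fun _ : I => slotLaw₂ S S' r κ σ p γ) (fun _ x => Slot.mix p x.1 x.2) (fun _ g => by
      rw [FinLaw.prod_E, slotLE, slotLaw, pi_E_mix, slotLaw₂]
      congr 2
      funext j
      split_ifs <;> rfl) F, FinLaw.pi_E_prod_law]

theorem tr_lme_le {ι : Type} [Fintype ι] [Nonempty ι] {m : ℝ} (hm : 0 < m) {f g : ι → ℝ} {a : ℝ}
    (h : ∀ i, f i ≤ g i + a) :
    m⁻¹ * Real.log (𝔼 i, Real.exp (m * f i)) ≤ m⁻¹ * Real.log (𝔼 i, Real.exp (m * g i)) + a := by
  have hpos : ∀ u : ι → ℝ, 0 < 𝔼 i, Real.exp (m * u i) := fun u =>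
    Finset.expect_pos (fun i _ => Real.exp_pos _) univ_nonempty
  have h1 : 𝔼 i, Real.exp (m * f i) ≤ (𝔼 i, Real.exp (m * g i)) * Real.exp (m * a) := by
    rw [Finset.expect_mul]
    refine Finset.expect_le_expect fun i _ => ?_
    rw [← Real.exp_add, ← mul_add]
    exact Real.exp_le_exp.2 (mul_le_mul_of_nonneg_left (h i) hm.le)
  have h2 := Real.log_le_log (hpos f) h1
  rw [Real.log_mul (hpos g).ne' (Real.exp_pos _).ne', Real.log_exp] at h2
  have h3 := mul_le_mul_of_nonneg_left h2 (inv_nonneg.2 hm.le)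
  rwa [mul_add, ← mul_assoc, inv_mul_cancel₀ hm.ne', one_mul] at h3

omit [Fintype β] in
theorem abs_treeLP_sub_le (e : Expo r) {κ : ℕ} (hκ : 1 ≤ κ) {v v' : β → ℝ} {a : ℝ}
    (h : ∀ s, |v s - v' s| ≤ a) {d : ℕ} (hd : d ≤ r + 1) (τ : Tr β κ d) :
    |treeLP e κ d (Tr.map v d τ) - treeLP e κ d (Tr.map v' d τ)| ≤ a := by
  induction d with
  | zero => exact h τ
  | succ d ih =>
    have : Nonempty (Fin κ) := ⟨⟨0, hκ⟩⟩
    have hm := e.pos (Nat.sub_le r d)
    have h1 := fun i => abs_le.1 (ih (by omega) (τ i))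
    have h2 := tr_lme_le hm (f := fun i => treeLP e κ d (Tr.map v d (τ i)))
      (g := fun i => treeLP e κ d (Tr.map v' d (τ i))) (a := a) fun i => by linarith [(h1 i).2]
    have h3 := tr_lme_le hm (f := fun i => treeLP e κ d (Tr.map v' d (τ i)))
      (g := fun i => treeLP e κ d (Tr.map v d (τ i))) (a := a) fun i => by linarith [(h1 i).1]
    simp only [treeLP, Tr.map]
    rw [abs_le]
    constructor <;> linarith

omit [Fintype β] in
theorem abs_treeLP_le (e : Expo r) {κ : ℕ} (hκ : 1 ≤ κ) {v : β → ℝ} {a : ℝ}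
    (h : ∀ s, |v s| ≤ a) {d : ℕ} (hd : d ≤ r + 1) (τ : Tr β κ d) :
    |treeLP e κ d (Tr.map v d τ)| ≤ a := by
  have h0 : ∀ (d : ℕ) (τ : Tr β κ d), treeLP e κ d (Tr.map (fun _ => (0 : ℝ)) d τ) = 0 := by
    intro d
    induction d with
    | zero => exact fun _ => rfl
    | succ d ih =>
      intro τ
      have : Nonempty (Fin κ) := ⟨⟨0, hκ⟩⟩
      simp only [treeLP, Tr.map, ih, mul_zero, Real.exp_zero]
      rw [Finset.expect_const univ_nonempty, Real.log_one, mul_zero]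
  have := abs_treeLP_sub_le e hκ (v := v) (v' := fun _ => 0) (a := a) (by simpa using h) hd τ
  rwa [h0, sub_zero] at this

/-- A function of the columns of the labels only depends on these columns. -/
theorem Tr.map_lab_congr {ι K γ : Type} {κ : ℕ} (F : (K → Bool) → γ) {lab lab' : K → ι} {d : ℕ}
    {τ : Tr (ι → Bool) κ d}
    (h : ∀ k, Tr.map (fun s => s (lab k)) d τ = Tr.map (fun s => s (lab' k)) d τ) :
    Tr.map (fun s => F fun k => s (lab k)) d τ = Tr.map (fun s => F fun k => s (lab' k)) d τ := by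
  induction d with
  | zero => exact congrArg F (funext h)
  | succ d ih => exact funext fun i => ih fun k => congrFun (h k) i

/-- `psi` only depends on the columns of the labels on the trees of level `≤ p`. -/
theorem psi_congr {ι K : Type} [Fintype ι] [Fintype K] [DecidableEq K] {κ : ℕ} (e : Expo r)
    (η : ℝ) (n i : ℕ) (u : (K → Bool) → ℝ) (p : Fin (r + 1)) {B : ℕ} (s : ι → Bool)
    (Sl : Fin (B + 1) → Slot (ι → Bool) κ r) {lab lab' : K → ι}
    (h : piRel K (colRel Sl (fun _ => True) p) lab lab') :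
    psi e η n i u p s Sl lab = psi e η n i u p s Sl lab' := by
  have hY : ∀ u : (K → Bool) → ℝ, Ylp e s Sl (fun _ _ => True) u p lab =
      Ylp e s Sl (fun _ _ => True) u p lab' := fun u => by
    unfold Ylp
    rw [Kern.lp_succ _ e _ (Nat.lt_succ_iff.1 p.2), Kern.lp_succ _ e _ (Nat.lt_succ_iff.1 p.2),
      Kern.part_ex, ce_congr _ _ h]
  have hX : ∀ u : (K → Bool) → ℝ, Xhat e (Sl 0) u p lab = Xhat e (Sl 0) u p lab' := fun u => by
    unfold Xhat
    rw [Tr.map_lab_congr u fun k => h k 0 trivial p le_rfl]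
  simp only [psi, hY, hX]

theorem abs_clip_le (x : ℝ) : |clip x| ≤ 1 := by
  unfold clip
  exact abs_le.2 ⟨le_max_left _ _, max_le (by norm_num) (min_le_left _ _)⟩

theorem abs_clip_sub_le (x y : ℝ) : |clip x - clip y| ≤ |x - y| := by
  unfold clip
  refine (abs_max_sub_max_le_max _ _ _ _).trans (max_le (by simp) ?_)
  refine (abs_min_sub_min_le_max _ _ _ _).trans (max_le (by simp) le_rfl)

theorem tr_abs_log_sub_le {L x y : ℝ} (hL : 0 < L) (hx : L ≤ x) (hy : L ≤ y) :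
    |Real.log x - Real.log y| ≤ L⁻¹ * |x - y| := by
  have key : ∀ x y : ℝ, L ≤ x → L ≤ y → Real.log x - Real.log y ≤ L⁻¹ * |x - y| := by
    intro x y hx hy
    have hy0 : 0 < y := hL.trans_le hy
    rw [← Real.log_div (hL.trans_le hx).ne' hy0.ne']
    refine (Real.log_le_sub_one_of_pos (div_pos (hL.trans_le hx) hy0)).trans ?_
    rw [div_sub_one hy0.ne', div_eq_inv_mul]
    exact (mul_le_mul_of_nonneg_left (le_abs_self _) (inv_nonneg.2 hy0.le)).trans
      (mul_le_mul_of_nonneg_right (inv_anti₀ hL hy) (abs_nonneg _))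
  rw [abs_le]
  have h1 := key y x hy hx
  rw [abs_sub_comm] at h1
  exact ⟨by linarith, key x y hx hy⟩

theorem tr_abs_exp_sub_le {M a b : ℝ} (ha : a ≤ M) (hb : b ≤ M) :
    |Real.exp a - Real.exp b| ≤ Real.exp M * |a - b| := by
  have key : ∀ a b : ℝ, a ≤ M → Real.exp a - Real.exp b ≤ Real.exp M * |a - b| := by
    intro a b ha
    have h1 : Real.exp a * (b - a + 1) ≤ Real.exp b := by
      have := mul_le_mul_of_nonneg_left (Real.add_one_le_exp (b - a)) (Real.exp_pos a).le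
      rwa [← Real.exp_add, add_sub_cancel] at this
    have h2 : Real.exp a * (a - b) ≤ Real.exp M * |a - b| :=
      (mul_le_mul_of_nonneg_left (le_abs_self _) (Real.exp_pos a).le).trans
        (mul_le_mul_of_nonneg_right (Real.exp_le_exp.2 ha) (abs_nonneg _))
    linarith
  rw [abs_le]
  have h1 := key b a hb
  rw [abs_sub_comm] at h1
  exact ⟨by linarith, key a b ha⟩

/-- One level of the law of large numbers. -/
theorem tr_lln_step {A : Type} [Fintype A] (ν : FinLaw A) {κ : ℕ} (hκ : 1 ≤ κ) {m C δ : ℝ}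
    (hm : 0 < m) {a b : A → ℝ} (ha : ∀ x, |a x| ≤ C) (hb : ∀ x, |b x| ≤ C)
    (hδ : ν.E (fun x => |a x - b x|) ≤ δ) :
    (FinLaw.pi fun _ : Fin κ => ν).E (fun x => |m⁻¹ * Real.log (𝔼 i, Real.exp (m * a (x i))) -
      m⁻¹ * Real.log (ν.E fun y => Real.exp (m * b y))|) ≤
      Real.exp (m * C) ^ 2 * δ + m⁻¹ * Real.exp (m * C) ^ 2 / Real.sqrt κ := by
  have : Nonempty (Fin κ) := ⟨⟨0, hκ⟩⟩
  set M := Real.exp (m * C) with hM
  have hM0 : 0 < M := Real.exp_pos _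
  set B := ν.E fun y => Real.exp (m * b y) with hB
  have hlow : ∀ t : ℝ, |t| ≤ C → M⁻¹ ≤ Real.exp (m * t) := fun t ht => by
    rw [hM, ← Real.exp_neg, ← mul_neg]
    exact Real.exp_le_exp.2 (mul_le_mul_of_nonneg_left (abs_le.1 ht).1 hm.le)
  have hup : ∀ t : ℝ, |t| ≤ C → m * t ≤ m * C := fun t ht =>
    mul_le_mul_of_nonneg_left (abs_le.1 ht).2 hm.le
  have h1 : ∀ x : Fin κ → A, |m⁻¹ * Real.log (𝔼 i, Real.exp (m * a (x i))) - m⁻¹ * Real.log B| ≤
      M ^ 2 * (𝔼 i, |a (x i) - b (x i)|) +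
        m⁻¹ * M * |(𝔼 i, Real.exp (m * b (x i))) - B| := fun x => by
    have h2 := tr_abs_log_sub_le (inv_pos.2 hM0) (x := 𝔼 i, Real.exp (m * a (x i))) (y := B)
      (Finset.le_expect univ_nonempty fun i _ => hlow _ (ha _))
      (by rw [← ν.E_const M⁻¹]; exact ν.E_mono fun y => hlow _ (hb _))
    rw [inv_inv] at h2
    have h3 : |(𝔼 i, Real.exp (m * a (x i))) - 𝔼 i, Real.exp (m * b (x i))| ≤
        M * m * 𝔼 i, |a (x i) - b (x i)| := by
      rw [← Finset.expect_sub_distrib, Finset.mul_expect]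
      refine (Finset.abs_expect_le _ _).trans (Finset.expect_le_expect fun i _ => ?_)
      refine (tr_abs_exp_sub_le (hup _ (ha _)) (hup _ (hb _))).trans_eq ?_
      rw [← mul_sub, abs_mul, abs_of_pos hm, mul_assoc]
    have h4 := abs_sub_le (𝔼 i, Real.exp (m * a (x i))) (𝔼 i, Real.exp (m * b (x i))) B
    rw [← mul_sub, abs_mul, abs_of_pos (inv_pos.2 hm)]
    calc m⁻¹ * |Real.log (𝔼 i, Real.exp (m * a (x i))) - Real.log B|
        ≤ m⁻¹ * (M * (M * m * (𝔼 i, |a (x i) - b (x i)|) +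
          |(𝔼 i, Real.exp (m * b (x i))) - B|)) := by
          refine mul_le_mul_of_nonneg_left (h2.trans ?_) (inv_pos.2 hm).le
          exact mul_le_mul_of_nonneg_left (by linarith) hM0.le
      _ = _ := by field_simp
  refine (FinLaw.E_mono _ h1).trans ?_
  rw [FinLaw.E_add, FinLaw.E_smul, FinLaw.E_smul]
  have h5 : (FinLaw.pi fun _ : Fin κ => ν).E (fun x => 𝔼 i, |a (x i) - b (x i)|) ≤ δ := by
    simp only [Fintype.expect_eq_sum_div_card, div_eq_inv_mul, FinLaw.E_smul, FinLaw.E_sum]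
    have : ∀ i : Fin κ, (FinLaw.pi fun _ : Fin κ => ν).E (fun x => |a (x i) - b (x i)|) =
        ν.E fun y => |a y - b y| := fun i =>
      FinLaw.pi_E_eval (fun _ : Fin κ => ν) i fun y => |a y - b y|
    simp only [this, Finset.sum_const, card_univ, nsmul_eq_mul]
    rwa [← mul_assoc, inv_mul_cancel₀ (Nat.cast_ne_zero.2 Fintype.card_ne_zero), one_mul]
  have h6 : (FinLaw.pi fun _ : Fin κ => ν).E (fun x => |(𝔼 i, Real.exp (m * b (x i))) - B|) ≤
      M / Real.sqrt κ := by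
    refine (FinLaw.E_abs_le_sqrt _ _).trans ?_
    have h7 := ν.pi_E_sq_mean_sub κ hκ (fun y => Real.exp (m * b y)) (a := M) fun y => by
      rw [abs_of_pos (Real.exp_pos _)]
      exact Real.exp_le_exp.2 (hup _ (hb _))
    refine (Real.sqrt_le_sqrt h7).trans_eq ?_
    rw [Real.sqrt_div (sq_nonneg _), Real.sqrt_sq hM0.le]
  have h8 := mul_le_mul_of_nonneg_left h5 (sq_nonneg M)
  have h9 := mul_le_mul_of_nonneg_left h6 (mul_pos (inv_pos.2 hm) hM0).le
  refine (add_le_add h8 h9).trans_eq ?_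
  ring

theorem tr_lln_aux (e : Expo r) (C : ℝ) (d : ℕ) : ∃ c : ℝ, 0 ≤ c ∧ (d ≤ r + 1 → ∀ κ : ℕ, 1 ≤ κ →
    ∀ {Ω β : Type} [Fintype Ω] [Fintype β] (S : Kern Ω) (σ : Ω → β) (v : β → ℝ),
      (∀ s, |v s| ≤ C) → ∀ z : Ω, (treeLaw S r κ σ d z).E (fun τ =>
        |treeLP e κ d (Tr.map v d τ) - S.lpAux e (fun ω => v (σ ω)) d z|) ≤ c / Real.sqrt κ) := by
  induction d with
  | zero =>
    refine ⟨0, le_rfl, fun _ κ _ Ω β _ _ S σ v _ z => ?_⟩
    have := FinLaw.dirac_E (σ z) fun s => |v s - v (σ z)|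
    rw [sub_self, abs_zero] at this
    rw [zero_div]
    exact this.le
  | succ d ih =>
    obtain ⟨c, hc0, hc⟩ := ih
    have hm := e.pos (Nat.sub_le r d)
    set m := e.m (r - d + 1) with hm'
    refine ⟨Real.exp (m * C) ^ 2 * c + m⁻¹ * Real.exp (m * C) ^ 2, by positivity,
      fun hd κ hκ Ω β _ _ S σ v hv z => ?_⟩
    set ν := (S.law (r - d) z).cp fun ω => treeLaw S r κ σ d ω with hν
    have h1 := tr_lln_step ν hκ hm (C := C) (δ := c / Real.sqrt κ)
      (a := fun x => treeLP e κ d (Tr.map v d x.2))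
      (b := fun x => S.lpAux e (fun ω => v (σ ω)) d x.1)
      (fun x => abs_treeLP_le e hκ hv (by omega) _)
      (fun x => by
        have := S.abs_lp_le e (v := fun ω => v (σ ω)) (fun ω => hv _) (r + 1 - d) x.1
        rwa [Kern.lp, Nat.sub_sub_self (by omega)] at this)
      (by
        rw [hν, FinLaw.cp_E, ← (S.law (r - d) z).E_const (c / Real.sqrt κ)]
        exact FinLaw.E_mono _ fun ω => hc (by omega) κ hκ S σ v hv ω)
    have h2 := FinLaw.pi_E_map (fun _ : Fin κ => ν) (fun _ => ν.map Prod.snd) (fun _ => Prod.snd)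
      (fun _ g => (FinLaw.map_E _ _ _).symm) fun τ =>
        |treeLP e κ (d + 1) (Tr.map v (d + 1) τ) - S.lpAux e (fun ω => v (σ ω)) (d + 1) z|
    have h3 : ν.E (fun y => Real.exp (m * S.lpAux e (fun ω => v (σ ω)) d y.1)) =
        S.ex (r - d) (fun ω => Real.exp (m * S.lpAux e (fun ω => v (σ ω)) d ω)) z := by
      rw [hν, FinLaw.cp_E]
      simp only [FinLaw.E_const]
      rfl
    rw [h3] at h1
    refine le_trans (h2.symm.le.trans h1) (le_of_eq ?_)
    ring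

/-- Law of large numbers along a reference tree. -/
theorem tree_lln (e : Expo r) (C : ℝ) {θ : ℝ} (hθ : 0 < θ) :
    ∃ κ : ℕ, 1 ≤ κ ∧ ∀ {Ω β : Type} [Fintype Ω] [Fintype β] (S : Kern Ω) (σ : Ω → β) (v : β → ℝ),
      (∀ s, |v s| ≤ C) → ∀ d ≤ r + 1, ∀ z : Ω,
        (treeLaw S r κ σ d z).E (fun τ =>
          |treeLP e κ d (Tr.map v d τ) - S.lp e (fun ω => v (σ ω)) (r + 1 - d) z|) ≤ θ := by
  choose c hc0 hc using tr_lln_aux e C
  obtain ⟨κ, hκ⟩ := exists_nat_ge (((∑ d ∈ range (r + 2), c d) / θ) ^ 2 + 1)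
  have hκ1 : (1 : ℝ) ≤ κ := by nlinarith [sq_nonneg ((∑ d ∈ range (r + 2), c d) / θ)]
  refine ⟨κ, by exact_mod_cast hκ1, fun S σ v hv d hd z => ?_⟩
  have h1 := hc d hd κ (by exact_mod_cast hκ1) S σ v hv z
  have h2 : S.lp e (fun ω => v (σ ω)) (r + 1 - d) = S.lpAux e (fun ω => v (σ ω)) d := by
    unfold Kern.lp
    rw [Nat.sub_sub_self hd]
  rw [h2]
  refine h1.trans ?_
  have h3 : c d ≤ ∑ d ∈ range (r + 2), c d :=
    Finset.single_le_sum (fun i _ => hc0 i) (mem_range.2 (by omega))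
  have h4 : (∑ d ∈ range (r + 2), c d) / θ ≤ Real.sqrt κ :=
    Real.le_sqrt_of_sq_le (by linarith)
  rw [div_le_iff₀ (Real.sqrt_pos.2 (by linarith))]
  rw [div_le_iff₀ hθ] at h4
  linarith

end Crest.Agent.R141
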