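import Crest.Agent.R141.Poisson
import Crest.Agent.R141.KT

/-!
# Row 141, upper bound: the interpolating system (definitions)

`N` spins and a finite set `T` of slots. A slot holds an interaction type `d` and, for each leg,
either a site (`some i`) or the slot's own trial label (`none`). All coordinates live on
`Ω × Bool` (trial point, free spin revealed at the last level).
-/

set_option autoImplicit false

namespace Crest.Agent.R141

open Finset Crest.ProbabilityR.Diluted
open scoped BigOperators

/-- Where the legs of a slot are attached. -/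
abbrev Legs (p N : ℕ) : Type := Fin p → Option (Fin N)

/-- Law `𝔞`: with probability `1/p` a full clause on uniform sites, else an edge clause. -/
noncomputable def lawA (p N : ℕ) [NeZero N] (hp : 1 ≤ p) : FinLaw (Legs p N) :=
  FinLaw.mix (1 / (p : ℝ)) (by positivity)
    (by rw [div_le_one (by exact_mod_cast hp)]; exact_mod_cast hp)
    ((FinLaw.unif (Fin p → Fin N)).map fun idx l => some (idx l)) (FinLaw.dirac fun _ => none)

/-- Law `𝔟`: a cavity clause, its last leg on a uniform site. -/
noncomputable def lawB (p N : ℕ) [NeZero N] : FinLaw (Legs p N) :=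
  (FinLaw.unif (Fin N)).map fun i => lastLeg (fun _ => none) (some i)

/-- Spins seen by a slot: `σ` on the sites, `s` on its own labels. -/
def legSpin {p N : ℕ} (legs : Legs p N) (σ : Fin N → Bool) (s : Fin p → Bool) : Fin p → Bool :=
  fun l => match legs l with
    | some i => σ i
    | none => s l

variable {p : ℕ} {D H : Type} [Fintype D] [Fintype H] {r : ℕ} {Ω : Type} [Fintype Ω]

/-- The one-coordinate system: trial times a free spin. -/
noncomputable def Trial.ext (ζ : Trial r Ω) : FKS (Ω × Bool) r :=
  ζ.S.prod (FKS.lvl Bool r (r + 1))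

/-- Energy of the interpolating system. -/
noncomputable def uEn (X : Dis p D H) (ζ : Trial r Ω) {N : ℕ} {T : Type} [Fintype T]
    (hs : Fin N → H) (c : T → D × Legs p N) (ω : Fin N ⊕ T × Fin p → Ω × Bool) : ℝ :=
  (∑ i, X.h (hs i) * spinVal (ω (Sum.inl i)).2) +
    ∑ t, X.θ (c t).1 (legSpin (c t).2 (fun i => (ω (Sum.inl i)).2)
      fun l => ζ.s (ω (Sum.inr (t, l))).1)

/-- Free energy of the interpolating system. -/
noncomputable def uPhi (X : Dis p D H) (ζ : Trial r Ω) (e : Expo r) {N : ℕ} {T : Type} [Fintype T]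
    [DecidableEq T] (hs : Fin N → H) (c : T → D × Legs p N) : ℝ :=
  (FinLaw.pi fun _ : Fin N ⊕ T × Fin p => ζ.ν.prod (FinLaw.unif Bool)).E fun z =>
    (Kern.pi fun _ : Fin N ⊕ T × Fin p => ζ.ext.toKern).lp e (uEn X ζ hs c) 0 z

/-- Free-energy increment of one more slot added to a system `G` with spins `σ`. -/
noncomputable def uIncr (X : Dis p D H) (ζ : Trial r Ω) (e : Expo r) {N : ℕ} {Ω₀ : Type}
    [Fintype Ω₀] (G : FKS Ω₀ r) (σ : Ω₀ → Fin N → Bool) (z₀ : Ω₀) (c : D × Legs p N) : ℝ :=
  (FinLaw.pi fun _ : Fin p => ζ.ν).E fun z =>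
    (G.toKern.prod (Kern.pi fun _ : Fin p => ζ.S.toKern)).lp e
      (fun ω => X.θ c.1 (legSpin c.2 (σ ω.1) fun l => ζ.s (ω.2 l))) 0 (z₀, z)

end Crest.Agent.R141
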