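import Crest.Agent.R141.UDefs

/-!
# Row 141, upper bound: the end point with full clauses and edge clauses

Recipe. Under `lawA` every slot is full or an edge. For such `c`, split `uEn` into the part that
depends on the site coordinates only (fields and full slots) and one term per edge slot
(`Kern.lp_pi_sum`). The first has `lp = log 𝔼 σ, exp (…)` (`hom_restrict Sum.inl`, `Hom.pi_map hom_snd`,
`lp_of_const`, `FKS.lvl_A_of_lt`), an edge slot gives `ζ.val e (θ d)` after averaging the start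
(`hom_restrict`, `pi_E_restrict`, `pi_E_map`). Encode a slot as `D × Option (Fin p → Fin N)`
(`pi_E_map`). For the edge part use linearity (`pi_E_eval`, `hasSum_poi_mul`). For the first part use
`shiftOp_iterate` on `E = (Fin N → Bool) → ℝ`, `f e = log 𝔼 σ, exp (e σ)` (1-Lipschitz),
`poisOp_mix` with `t = 1/p` and the zero shift (`poisOp lam μ 0 f = f` by `abs_poisOp_sub_self_le`),
or `thin_family` with `binom_thin`. `logPartition = N log 2 + f (energy)`.
-/

set_option autoImplicit false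

namespace Crest.Agent.R141

open Finset Crest.ProbabilityR.Diluted
open scoped BigOperators

theorem UEndA_hasSum_E {S : Type} [Fintype S] (ν : FinLaw S) {g : ℕ → S → ℝ} {G : S → ℝ}
    (h : ∀ a, HasSum (fun n => g n a) (G a)) : HasSum (fun n => ν.E (g n)) (ν.E G) :=
  hasSum_sum fun a _ => (h a).mul_left (ν.w a)

theorem UEndA_hasSum_pois {E : Type} [NormedAddCommGroup E] {S : Type} [Fintype S] {lam : ℝ}
    (h : 0 ≤ lam) (μ : FinLaw S) (en : S → E) {f : E → ℝ} (hf : LipschitzWith 1 f) (x : E) :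
    HasSum (fun n : ℕ => poissonWeight lam n * ((shiftOp μ en)^[n] f) x)
      (poisOp lam μ en f x) := by
  have hC : ∀ s, ‖en s‖ ≤ ∑ s, ‖en s‖ := fun s =>
    single_le_sum (f := fun s => ‖en s‖) (fun _ _ => norm_nonneg _) (mem_univ s)
  have hC0 : 0 ≤ ∑ s, ‖en s‖ := sum_nonneg fun _ _ => norm_nonneg _
  refine (summable_poi_mul h (C := (∑ s, ‖en s‖) + |f x|) fun n => ?_).hasSum
  rw [shiftOp_iterate]
  refine FinLaw.abs_E_le _ fun ss => ?_
  have h1 := hf.dist_le_mul (x + ∑ i, en (ss i)) x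
  rw [Real.dist_eq, dist_eq_norm, add_sub_cancel_left, NNReal.coe_one, one_mul] at h1
  have h2 : ‖∑ i, en (ss i)‖ ≤ n * ∑ s, ‖en s‖ := by
    refine (norm_sum_le _ _).trans ((sum_le_sum fun i _ => hC (ss i)).trans ?_)
    simp
  have h3 := abs_sub_abs_le_abs_sub (f (x + ∑ i, en (ss i))) (f x)
  have h4 : (0 : ℝ) ≤ n := Nat.cast_nonneg n
  have h5 := abs_nonneg (f x)
  nlinarith

/-- log-mean-exp over the spins -/
noncomputable def UEndA_f (N : ℕ) (x : (Fin N → Bool) → ℝ) : ℝ :=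
  Real.log ((FinLaw.unif (Fin N → Bool)).E fun σ => Real.exp (x σ))

theorem UEndA_pos (N : ℕ) (x : (Fin N → Bool) → ℝ) :
    0 < (FinLaw.unif (Fin N → Bool)).E fun σ => Real.exp (x σ) := by
  obtain ⟨σ, hσ⟩ := (FinLaw.unif (Fin N → Bool)).exists_le_E fun σ => Real.exp (x σ)
  exact (Real.exp_pos _).trans_le hσ

theorem UEndA_lip (N : ℕ) : LipschitzWith 1 (UEndA_f N) := by
  refine LipschitzWith.of_le_add fun x y => ?_
  unfold UEndA_f
  rw [← Real.log_exp (dist x y), ← Real.log_mul (UEndA_pos N y).ne' (Real.exp_pos _).ne', mul_comm,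
    ← FinLaw.E_smul]
  refine Real.log_le_log (UEndA_pos N x) (FinLaw.E_mono _ fun σ => ?_)
  rw [← Real.exp_add, Real.exp_le_exp]
  have := dist_le_pi_dist x y σ
  rw [Real.dist_eq] at this
  linarith [le_abs_self (x σ - y σ)]

theorem UEndA_f_eq (N : ℕ) (x : (Fin N → Bool) → ℝ) :
    Real.log (∑ σ, Real.exp (x σ)) = UEndA_f N x + N * Real.log 2 := by
  have h1 : ∑ σ, Real.exp (x σ) =
      ((FinLaw.unif (Fin N → Bool)).E fun σ => Real.exp (x σ)) * 2 ^ N := by
    rw [FinLaw.unif_E, Fintype.expect_eq_sum_div_card]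
    simp
  rw [h1, Real.log_mul (UEndA_pos N x).ne' (by positivity), Real.log_pow, UEndA_f]

section split
variable {p : ℕ} {D H : Type} [Fintype D] [Fintype H] (X : Dis p D H) {r : ℕ} {Ω : Type}
  [Fintype Ω] (ζ : Trial r Ω) (e : Expo r) {N : ℕ}

/-- legs of a full or an edge slot -/
def UEndA_enc : Option (Fin p → Fin N) → Legs p N
  | none => fun _ => none
  | some idx => fun l => some (idx l)

/-- site energy of a slot -/
def UEndA_en (c : D × Option (Fin p → Fin N)) : (Fin N → Bool) → ℝ :=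
  match c.2 with
  | none => 0
  | some idx => fun σ => X.θ c.1 fun l => σ (idx l)

/-- label energy of a slot -/
def UEndA_ed (c : D × Option (Fin p → Fin N)) : Inter p :=
  match c.2 with
  | none => X.θ c.1
  | some _ => 0

/-- the fields -/
def UEndA_fld (hs : Fin N → H) : (Fin N → Bool) → ℝ := fun σ => ∑ i, X.h (hs i) * spinVal (σ i)

theorem UEndA_slot (c : D × Option (Fin p → Fin N)) (σ : Fin N → Bool) (s : Fin p → Bool) :
    X.θ c.1 (legSpin (UEndA_enc c.2) σ s) = UEndA_en X c σ + UEndA_ed X c s := by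
  obtain ⟨d, _ | idx⟩ := c
  · simp only [UEndA_en, UEndA_ed, Pi.zero_apply, zero_add]
    rfl
  · simp only [UEndA_en, UEndA_ed, Pi.zero_apply, add_zero]
    rfl

theorem UEndA_site {T : Type} [Fintype T] [DecidableEq T] (x : (Fin N → Bool) → ℝ)
    (z : Fin N ⊕ T × Fin p → Ω × Bool) :
    (Kern.pi fun _ : Fin N ⊕ T × Fin p => ζ.ext.toKern).lp e
      (fun ω => x fun i => (ω (Sum.inl i)).2) 0 z = UEndA_f N x := by
  have h1 : Kern.Hom r (Kern.pi fun _ : Fin N ⊕ T × Fin p => ζ.ext.toKern)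
      (Kern.pi fun _ : Fin N => (FKS.lvl Bool r (r + 1)).toKern)
      fun ω i => (ω (Sum.inl i)).2 :=
    (Kern.hom_restrict (fun _ : Fin N ⊕ T × Fin p => ζ.ext.toKern) Sum.inl
      Sum.inl_injective).comp
      (Kern.Hom.pi_map (φ := fun _ => Prod.snd) fun _ => Kern.hom_snd ζ.S.toKern _)
  rw [h1.lp e x, Kern.lp_of_const _ e (FinLaw.pi fun _ : Fin N => FinLaw.unif Bool) _ x
    (Nat.zero_le _), FinLaw.pi_unif_E, UEndA_f, FinLaw.unif_E]
  intro j hj z
  funext ω
  show ∏ l, (FKS.lvl Bool r (r + 1)).A j (z l) (ω l) = ∏ _l : Fin N, (Fintype.card Bool : ℝ)⁻¹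
  exact prod_congr rfl fun l _ => FKS.lvl_A_of_lt Bool r (Nat.lt_succ_of_le hj) _ _

theorem UEndA_edge {T : Type} [Fintype T] [DecidableEq T] (t : T) (w : Inter p) :
    (FinLaw.pi fun _ : Fin N ⊕ T × Fin p => ζ.ν.prod (FinLaw.unif Bool)).E (fun z =>
      (Kern.pi fun _ : Fin N ⊕ T × Fin p => ζ.ext.toKern).lp e
        (fun ω => w fun l => ζ.s (ω (Sum.inr (t, l))).1) 0 z) = ζ.val e w := by
  have hι : Function.Injective fun l : Fin p => (Sum.inr (t, l) : Fin N ⊕ T × Fin p) :=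
    fun a b h => by simpa using h
  have h1 : Kern.Hom r (Kern.pi fun _ : Fin N ⊕ T × Fin p => ζ.ext.toKern)
      (Kern.pi fun _ : Fin p => ζ.S.toKern) fun ω l => (ω (Sum.inr (t, l))).1 :=
    (Kern.hom_restrict (fun _ : Fin N ⊕ T × Fin p => ζ.ext.toKern) _ hι).comp
      (Kern.Hom.pi_map (φ := fun _ => Prod.fst) fun _ => Kern.hom_fst ζ.S.toKern _)
  have h2 := fun z => h1.lp e (fun ω => w fun l => ζ.s (ω l)) 0 z
  simp only [h2]
  rw [Trial.val, ← FinLaw.pi_E_map (fun _ : Fin p => ζ.ν.prod (FinLaw.unif Bool))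
    (fun _ => ζ.ν) (fun _ => Prod.fst) (fun _ g => by
      rw [FinLaw.prod_E]
      simp only [FinLaw.E_const])]
  exact FinLaw.pi_E_restrict (fun _ : Fin N ⊕ T × Fin p => ζ.ν.prod (FinLaw.unif Bool)) _ hι
    fun x => (Kern.pi fun _ : Fin p => ζ.S.toKern).lp e (fun ω => w fun l => ζ.s (ω l)) 0
      fun l => (x l).1

theorem UEndA_split {T : Type} [Fintype T] [DecidableEq T] (hs : Fin N → H)
    (c : T → D × Option (Fin p → Fin N)) :
    uPhi X ζ e hs (fun t => ((c t).1, UEndA_enc (c t).2)) =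
      UEndA_f N (UEndA_fld X hs + ∑ t, UEndA_en X (c t)) + ∑ t, ζ.val e (UEndA_ed X (c t)) := by
  classical
  let v : Option T → (Fin N ⊕ T × Fin p → Ω × Bool) → ℝ := fun a ω =>
    match a with
    | none => (UEndA_fld X hs + ∑ t, UEndA_en X (c t)) fun i => (ω (Sum.inl i)).2
    | some t => UEndA_ed X (c t) fun l => ζ.s (ω (Sum.inr (t, l))).1
  let s : Option T → Set (Fin N ⊕ T × Fin p) := fun a =>
    {x | Sum.elim (fun _ => none) (fun y => some y.1) x = a}
  have h1 : uEn X ζ hs (fun t => ((c t).1, UEndA_enc (c t).2)) = fun ω => ∑ a, v a ω := by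
    funext ω
    rw [Fintype.sum_option, uEn]
    simp only [UEndA_slot, v, Pi.add_apply, Finset.sum_apply, UEndA_fld, sum_add_distrib, add_assoc]
  have h2 := Kern.lp_pi_sum (fun _ : Fin N ⊕ T × Fin p => ζ.ext.toKern) e univ s
    (fun a _ b _ hab => Set.disjoint_left.2 fun x ha hb => hab (ha.symm.trans hb)) v
    (fun a _ ω ω' h => by
      rcases a with _ | t
      · simp only [v]
        refine congrArg _ (funext fun i => ?_)
        rw [h (Sum.inl i) rfl]
      · simp only [v]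
        congr 1
        funext l
        rw [h (Sum.inr (t, l)) rfl]) 0
  rw [uPhi, h1]
  simp only [h2]
  simp only [Fintype.sum_option]
  rw [FinLaw.E_add, FinLaw.E_sum]
  congr 1
  · have h3 : (Kern.pi fun _ : Fin N ⊕ T × Fin p => ζ.ext.toKern).lp e (v none) 0 =
        fun _ => UEndA_f N (UEndA_fld X hs + ∑ t, UEndA_en X (c t)) :=
      funext fun z => UEndA_site ζ e (UEndA_fld X hs + ∑ t, UEndA_en X (c t)) z
    show FinLaw.E _ ((Kern.pi fun _ : Fin N ⊕ T × Fin p => ζ.ext.toKern).lp e (v none) 0) = _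
    rw [h3, FinLaw.E_const]
  · exact sum_congr rfl fun t _ => UEndA_edge ζ e t _

end split

theorem uEndA {p : ℕ} (hp : 1 ≤ p) {D H : Type} [Fintype D] [Fintype H] (X : Dis p D H) {α : ℝ}
    (hα : 0 ≤ α) {r : ℕ} {Ω : Type} [Fintype Ω] (ζ : Trial r Ω) (e : Expo r) (N : ℕ) [NeZero N] :
    HasSum (fun n : ℕ => poissonWeight (α * p * N) n *
        (FinLaw.pi fun _ : Fin N => X.πh).E fun hs =>
          (FinLaw.pi fun _ : Fin n => X.πd.prod (lawA p N hp)).E (uPhi X ζ e hs))
      (N * (X.pressure α N - Real.log 2) +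
        N * (α * (p - 1 : ℝ) * X.πd.E fun d => ζ.val e (X.θ d))) := by
  have hp0 : (0 : ℝ) < p := by exact_mod_cast hp
  have hN0 : (0 : ℝ) < N := by exact_mod_cast Nat.pos_of_ne_zero (NeZero.ne N)
  have ht0 : (0 : ℝ) ≤ 1 / p := by positivity
  have ht1 : 1 / (p : ℝ) ≤ 1 := by rw [div_le_one hp0]; exact_mod_cast hp
  have hlam : 0 ≤ α * p * N := by positivity
  set μ : FinLaw (D × Option (Fin p → Fin N)) := X.πd.prod
    (FinLaw.mix (1 / (p : ℝ)) ht0 ht1 ((FinLaw.unif (Fin p → Fin N)).map some)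
      (FinLaw.dirac none)) with hμ
  have hμE : ∀ g : D × Option (Fin p → Fin N) → ℝ, μ.E g =
      1 / p * (X.πd.prod (FinLaw.unif (Fin p → Fin N))).E (fun c => g (c.1, some c.2)) +
        (1 - 1 / p) * X.πd.E fun d => g (d, none) := by
    intro g
    simp only [hμ, FinLaw.prod_E, FinLaw.mix_E, FinLaw.map_E, FinLaw.dirac_E, FinLaw.E_add,
      FinLaw.E_smul]
  have hval0 : ζ.val e (0 : Inter p) = 0 := by
    simp only [Trial.val, Pi.zero_apply, Kern.lp_const, FinLaw.E_const]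
  set V := X.πd.E fun d => ζ.val e (X.θ d) with hV
  have hterm : ∀ (n : ℕ) (hs : Fin N → H),
      (FinLaw.pi fun _ : Fin n => X.πd.prod (lawA p N hp)).E (uPhi X ζ e hs) =
        ((shiftOp μ (UEndA_en X))^[n] (UEndA_f N)) (UEndA_fld X hs) + n * ((1 - 1 / p) * V) := by
    intro n hs
    rw [← FinLaw.pi_E_map (fun _ : Fin n => μ) (fun _ => X.πd.prod (lawA p N hp))
      (fun _ c => (c.1, UEndA_enc c.2)) (fun _ g => by
        simp only [hμ, lawA, FinLaw.prod_E, FinLaw.mix_E, FinLaw.map_E, FinLaw.dirac_E]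
        rfl)]
    simp only [UEndA_split]
    rw [FinLaw.E_add, shiftOp_iterate, FinLaw.E_sum]
    congr 1
    have : ∀ i : Fin n, ((FinLaw.pi fun _ : Fin n => μ).E fun c => ζ.val e (UEndA_ed X (c i))) =
        (1 - 1 / p) * V := by
      intro i
      rw [FinLaw.pi_E_eval (fun _ : Fin n => μ) i fun c => ζ.val e (UEndA_ed X c), hμE]
      simp only [UEndA_ed, hval0, FinLaw.E_const, mul_zero, zero_add, hV]
    simp only [this]
    simp
  set μ₁ := X.πd.prod (FinLaw.unif (Fin p → Fin N)) with hμ₁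
  let en₁ : D × (Fin p → Fin N) → (Fin N → Bool) → ℝ := fun c σ => X.θ c.1 fun l => σ (c.2 l)
  have hmix : ∀ x, poisOp (α * p * N) μ (UEndA_en X) (UEndA_f N) x =
      poisOp (α * N) μ₁ en₁ (UEndA_f N) x := by
    intro x
    rw [poisOp_mix hlam ht0 ht1 μ (UEndA_en X) μ₁ en₁ X.πd (fun _ => 0) (fun g => hμE _)
      (UEndA_lip N)]
    have h0 : poisOp (α * p * N * (1 - 1 / p)) X.πd (fun _ => (0 : (Fin N → Bool) → ℝ))
        (UEndA_f N) = UEndA_f N := by
      funext y
      have := abs_poisOp_sub_self_le (lam := α * p * N * (1 - 1 / p))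
        (mul_nonneg hlam (sub_nonneg.2 ht1)) X.πd (en := fun _ => (0 : (Fin N → Bool) → ℝ))
        (C := 0) (fun _ => by simp) (UEndA_lip N) y
      rw [mul_zero, abs_nonpos_iff, sub_eq_zero] at this
      exact this
    rw [h0, show α * p * N * (1 / p) = α * N by field_simp]
  have hαN : 0 ≤ α * N := by positivity
  set G := (FinLaw.pi fun _ : Fin N => X.πh).E fun hs =>
    poisOp (α * N) μ₁ en₁ (UEndA_f N) (UEndA_fld X hs) with hG
  have hP : X.pressure α N = (1 / (N : ℝ)) * (G + N * Real.log 2) := by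
    rw [Dis.pressure]
    congr 1
    refine HasSum.tsum_eq ?_
    have h1 := (UEndA_hasSum_E (FinLaw.pi fun _ : Fin N => X.πh) fun hs =>
      UEndA_hasSum_pois hαN μ₁ en₁ (UEndA_lip N) (UEndA_fld X hs)).add
      ((hasSum_poi (α * N)).mul_right (N * Real.log 2))
    rw [one_mul] at h1
    convert h1 using 2 with M
    rw [FinLaw.E_smul, ← mul_add]
    congr 1
    rw [FinLaw.E_comm, ← FinLaw.E_const (FinLaw.pi fun _ : Fin N => X.πh) (N * Real.log 2),
      ← FinLaw.E_add]
    congr 1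
    funext hs
    rw [shiftOp_iterate, hμ₁, FinLaw.pi_E_prod_law,
      ← FinLaw.E_const (FinLaw.pi fun _ : Fin M => X.πd) (N * Real.log 2), ← FinLaw.E_add]
    congr 1
    funext ds
    rw [← FinLaw.E_const (FinLaw.pi fun _ : Fin M => FinLaw.unif (Fin p → Fin N)) (N * Real.log 2),
      ← FinLaw.E_add, FinLaw.pi_unif_E, Fintype.expect_eq_sum_div_card, div_eq_inv_mul]
    congr 1
    refine sum_congr rfl fun idx _ => ?_
    rw [← UEndA_f_eq, logPartition]
    simp only [Pi.add_apply, Finset.sum_apply, UEndA_fld, en₁, add_comm]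
  have h1 := (UEndA_hasSum_E (FinLaw.pi fun _ : Fin N => X.πh) fun hs =>
    UEndA_hasSum_pois hlam μ (UEndA_en X) (UEndA_lip N) (UEndA_fld X hs)).add
    ((hasSum_poi_mul (α * p * N)).mul_right ((1 - 1 / p) * V))
  simp only [hmix] at h1
  convert h1 using 1
  · funext n
    simp only [hterm]
    rw [FinLaw.E_add, FinLaw.E_const, FinLaw.E_smul]
    ring
  · rw [hP, ← hG]
    field_simp
    ring

end Crest.Agent.R141
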