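import Crest.Agent.R141.UDefs

/-!
# Row 141, upper bound: the end point with cavity clauses

Under `lawB` slot `t` is `(d t, lastLeg none (some (i t)))`. We group `uEn` by sites
(`Kern.lp_pi_sum`). For a site let `UEndB_psi h n x` be the value for one site with field `h` and
the slots `x t : Option D` (`none` contributes the energy `0`), on the coordinates
`Option (Fin n × Fin (p - 1))`. It ignores empty slots, so `thin_family` and `binom_thin` apply.
-/

set_option autoImplicit false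

namespace Crest.Agent.R141

open Finset Crest.ProbabilityR.Diluted
open scoped BigOperators

section Aux
variable {p : ℕ} {D H : Type} [Fintype D] [Fintype H] {r : ℕ} {Ω : Type} [Fintype Ω]

/-- The value of an energy on the extended coordinates. -/
noncomputable def UEndB_V (ζ : Trial r Ω) (e : Expo r) {L : Type} [Fintype L] [DecidableEq L]
    (v : (L → Ω × Bool) → ℝ) : ℝ :=
  (FinLaw.pi fun _ : L => ζ.ν.prod (FinLaw.unif Bool)).E fun z =>
    (Kern.pi fun _ : L => ζ.ext.toKern).lp e v 0 z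

theorem UEndB_V_restrict (ζ : Trial r Ω) (e : Expo r) {L L' : Type} [Fintype L] [DecidableEq L]
    [Fintype L'] [DecidableEq L'] (ι : L' → L) (hι : Function.Injective ι)
    (v : (L' → Ω × Bool) → ℝ) :
    UEndB_V ζ e (fun ω : L → Ω × Bool => v fun l => ω (ι l)) = UEndB_V ζ e v := by
  unfold UEndB_V
  have h := fun z => (Kern.hom_restrict (r := r) (fun _ : L => ζ.ext.toKern) ι hι).lp e v 0 z
  simp only [h]
  exact FinLaw.pi_E_restrict (fun _ : L => ζ.ν.prod (FinLaw.unif Bool)) ι hι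
    fun z => (Kern.pi fun _ : L' => ζ.ext.toKern).lp e v 0 z

theorem UEndB_V_sum (ζ : Trial r Ω) (e : Expo r) {L : Type} [Fintype L] [DecidableEq L]
    {J : Type} [Fintype J] (s : J → Set L) (hs : ∀ a b, a ≠ b → Disjoint (s a) (s b))
    (v : J → (L → Ω × Bool) → ℝ) (hv : ∀ a, DependsOn (v a) (s a)) :
    UEndB_V ζ e (fun ω => ∑ a, v a ω) = ∑ a, UEndB_V ζ e (v a) := by
  unfold UEndB_V
  have h := fun z => Kern.lp_pi_sum (fun _ : L => ζ.ext.toKern) e univ s
    (fun a _ b _ hab => hs a b hab) v (fun a _ => hv a) 0 z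
  simp only [h]
  exact FinLaw.E_sum _ _ _

theorem UEndB_abs_V_le (ζ : Trial r Ω) (e : Expo r) {L : Type} [Fintype L] [DecidableEq L]
    {v : (L → Ω × Bool) → ℝ} {a : ℝ} (h : ∀ ω, |v ω| ≤ a) : |UEndB_V ζ e v| ≤ a :=
  FinLaw.abs_E_le _ fun z => Kern.abs_lp_le _ e h 0 z

/-- Summing out the free spin of the site. -/
theorem UEndB_V_site (ζ : Trial r Ω) (e : Expo r) {L : Type} [Fintype L] [DecidableEq L]
    (w : (L → Bool) → Bool → ℝ) :
    UEndB_V ζ e (fun ω : Option L → Ω × Bool => w (fun l => ζ.s (ω (some l)).1) (ω none).2) =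
      ζ.val e fun s => Real.log ((1 / 2) * ∑ ε : Bool, Real.exp (w s ε)) := by
  unfold UEndB_V Trial.val
  have h1 := Kern.hom_split (r := r) (fun _ : Option L => ζ.ext.toKern) (some : L → Option L)
    (fun _ : Unit => none) (Option.some_injective L) (fun _ _ _ => rfl) (fun _ _ => by simp)
  have h2 : Kern.Hom r (Kern.pi fun _ : L => ζ.ext.toKern) (Kern.pi fun _ : L => ζ.S.toKern)
      fun z l => (z l).1 :=
    Kern.Hom.pi_map (φ := fun _ => Prod.fst) fun _ => Kern.hom_fst _ _
  have h3 : Kern.Hom r (Kern.pi fun _ : Unit => ζ.ext.toKern) (FKS.lvl Bool r (r + 1)).toKern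
      fun z => (z ()).2 :=
    (Kern.hom_eval (fun _ : Unit => ζ.ext.toKern) ()).comp (Kern.hom_snd _ _)
  have h4 := h1.comp (h2.prod_map h3)
  have h5 : ∀ j ≤ r, ∀ z, (FKS.lvl Bool r (r + 1)).A j z = (FinLaw.unif Bool).w :=
    fun j hj z => funext fun ω => FKS.lvl_A_of_lt Bool r (by omega) z ω
  have h6 : ∀ z : Option L → Ω × Bool, (Kern.pi fun _ : Option L => ζ.ext.toKern).lp e
      (fun ω => w (fun l => ζ.s (ω (some l)).1) (ω none).2) 0 z =
      (Kern.pi fun _ : L => ζ.S.toKern).lp e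
        (fun ω => Real.log ((1 / 2) * ∑ ε : Bool, Real.exp (w (fun l => ζ.s (ω l)) ε))) 0
        fun l => (z (some l)).1 := fun z => by
    have h7 := h4.lp e (fun ω => w (fun l => ζ.s (ω.1 l)) ω.2) 0 z
    rw [Kern.lp_prod_last _ _ e (FinLaw.unif Bool) h5 _ (Nat.zero_le r)] at h7
    refine h7.trans ?_
    congr 1
    funext ω
    congr 1
    simp only [FinLaw.E, FinLaw.unif, Fintype.card_bool, ← Finset.mul_sum]
    norm_num
  simp only [h6]
  refine (FinLaw.pi_E_restrict (fun _ : Option L => ζ.ν.prod (FinLaw.unif Bool)) some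
    (Option.some_injective L) fun z => (Kern.pi fun _ : L => ζ.S.toKern).lp e
        (fun ω => Real.log ((1 / 2) * ∑ ε : Bool, Real.exp (w (fun l => ζ.s (ω l)) ε))) 0
        fun l => (z l).1).trans ?_
  exact FinLaw.pi_E_map (fun _ : L => ζ.ν.prod (FinLaw.unif Bool)) (fun _ : L => ζ.ν)
    (fun _ => Prod.fst) (fun _ g => by rw [FinLaw.prod_E]; simp only [FinLaw.E_const]) _

/-- Energy of a possibly empty slot. -/
def UEndB_slot (X : Dis p D H) : Option D → Inter p
  | none => fun _ => 0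
  | some d => X.θ d

/-- One-site energy. -/
noncomputable def UEndB_en (X : Dis p D H) (ζ : Trial r Ω) (h : ℝ) {n : ℕ} (x : Fin n → Option D)
    (ω : Option (Fin n × Fin (p - 1)) → Ω × Bool) : ℝ :=
  h * spinVal (ω none).2 +
    ∑ t, UEndB_slot X (x t) (lastLeg (fun l => ζ.s (ω (some (t, l))).1) (ω none).2)

/-- One-site value. -/
noncomputable def UEndB_psi (X : Dis p D H) (ζ : Trial r Ω) (e : Expo r) (h : ℝ) (n : ℕ)
    (x : Fin n → Option D) : ℝ :=
  UEndB_V ζ e (UEndB_en X ζ h x)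

theorem UEndB_psi_insert (X : Dis p D H) (ζ : Trial r Ω) (e : Expo r) (h : ℝ) (n : ℕ)
    (g : Fin (n + 1)) (x : Fin n → Option D) :
    UEndB_psi X ζ e h (n + 1) (Fin.insertNth g none x) = UEndB_psi X ζ e h n x := by
  unfold UEndB_psi
  rw [← UEndB_V_restrict ζ e
    (Option.map fun a : Fin n × Fin (p - 1) => (g.succAbove a.1, a.2))
    (Option.map_injective fun a b hab => by
      simp only [Prod.mk.injEq, Fin.succAbove_right_inj] at hab
      exact Prod.ext hab.1 hab.2) (UEndB_en X ζ h x)]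
  congr 1
  funext ω
  unfold UEndB_en
  rw [Fin.sum_univ_succAbove _ g]
  simp [UEndB_slot]

theorem UEndB_psi_some (X : Dis p D H) (ζ : Trial r Ω) (e : Expo r) (h : ℝ) (k : ℕ)
    (ds : Fin k → D) :
    UEndB_psi X ζ e h k (fun i => some (ds i)) = ζ.val e (siteW h fun j => X.θ (ds j)) :=
  UEndB_V_site ζ e fun s ε => h * spinVal ε + ∑ j, X.θ (ds j) (lastLeg (fun l => s (j, l)) ε)

theorem UEndB_abs_psi_le (X : Dis p D H) : ∃ C : ℝ, ∀ (ζ : Trial r Ω) (e : Expo r) (y : H) (n : ℕ)
    (x : Fin n → Option D), |UEndB_psi X ζ e (X.h y) n x| ≤ C * (n + 1) := by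
  classical
  set C : ℝ := ∑ y, |X.h y| + ∑ d, ∑ s, |X.θ d s| with hC
  have hA : 0 ≤ ∑ y, |X.h y| := sum_nonneg fun _ _ => abs_nonneg _
  have hB : 0 ≤ ∑ d, ∑ s, |X.θ d s| := sum_nonneg fun _ _ => sum_nonneg fun _ _ => abs_nonneg _
  have h1 : ∀ y, |X.h y| ≤ C := fun y => by
    have := single_le_sum (f := fun y => |X.h y|) (fun _ _ => abs_nonneg _) (mem_univ y)
    linarith
  have h2 : ∀ o s, |UEndB_slot X o s| ≤ C := fun o s => by
    cases o with
    | none => simp only [UEndB_slot, abs_zero]; linarith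
    | some d =>
      have a1 := single_le_sum (f := fun s => |X.θ d s|) (fun _ _ => abs_nonneg _) (mem_univ s)
      have a2 := single_le_sum (f := fun d => ∑ s, |X.θ d s|)
        (fun _ _ => sum_nonneg fun _ _ => abs_nonneg _) (mem_univ d)
      simp only [UEndB_slot]
      linarith
  refine ⟨C, fun ζ e y n x => UEndB_abs_V_le ζ e fun ω => ?_⟩
  unfold UEndB_en
  have a1 : |X.h y * spinVal (ω none).2| ≤ C := by
    rw [abs_mul]
    have : |spinVal (ω none).2| = 1 := by unfold spinVal; split_ifs <;> simp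
    rw [this, mul_one]; exact h1 y
  have a2 : |∑ t, UEndB_slot X (x t) (lastLeg (fun l => ζ.s (ω (some (t, l))).1) (ω none).2)| ≤
      C * n := by
    refine (abs_sum_le_sum_abs _ _).trans ((sum_le_sum fun t _ => h2 _ _).trans_eq ?_)
    simp [mul_comm]
  have := abs_add_le (X.h y * spinVal (ω none).2)
    (∑ t, UEndB_slot X (x t) (lastLeg (fun l => ζ.s (ω (some (t, l))).1) (ω none).2))
  linarith

/-- The coordinates of the site `j`. -/
def UEndB_emb {N n : ℕ} (j : Fin N) : Option (Fin n × Fin (p - 1)) → Fin N ⊕ Fin n × Fin p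
  | none => Sum.inl j
  | some a => Sum.inr (a.1, Fin.castLE (Nat.sub_le p 1) a.2)

theorem UEndB_emb_inj {N n : ℕ} (j : Fin N) :
    Function.Injective (UEndB_emb (p := p) (n := n) j) := by
  rintro (_ | a) (_ | b) h
  · rfl
  · simp [UEndB_emb] at h
  · simp [UEndB_emb] at h
  · simp only [UEndB_emb, Sum.inr.injEq, Prod.mk.injEq, Fin.castLE_inj] at h
    rw [Prod.ext h.1 h.2]

theorem UEndB_legSpin {N : ℕ} (i : Fin N) (σ : Fin N → Bool) (s : Fin p → Bool) :
    legSpin (lastLeg (fun _ => none) (some i)) σ s =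
      lastLeg (fun l => s (Fin.castLE (Nat.sub_le p 1) l)) (σ i) := by
  funext l
  unfold legSpin lastLeg
  by_cases h : l.val < p - 1
  · simp only [dif_pos h]; rfl
  · simp only [dif_neg h]

theorem UEndB_phi (X : Dis p D H) (ζ : Trial r Ω) (e : Expo r) {N n : ℕ} (hs : Fin N → H)
    (c : Fin n → D × Fin N) :
    uPhi X ζ e hs (fun t => ((c t).1, lastLeg (fun _ => none) (some (c t).2))) =
      ∑ j, UEndB_psi X ζ e (X.h (hs j)) n fun t => if (c t).2 = j then some (c t).1 else none := by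
  have h1 : uEn X ζ hs (fun t => ((c t).1, lastLeg (fun _ => none) (some (c t).2))) =
      fun ω => ∑ j, UEndB_en X ζ (X.h (hs j))
        (fun t => if (c t).2 = j then some (c t).1 else none) fun l => ω (UEndB_emb j l) := by
    funext ω
    unfold uEn UEndB_en
    rw [sum_add_distrib, sum_comm]
    congr 1
    refine sum_congr rfl fun t _ => ?_
    rw [UEndB_legSpin, sum_eq_single (c t).2]
    · simp only [if_true]; rfl
    · intro j _ hj
      simp only [if_neg (Ne.symm hj)]; rfl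
    · simp
  show UEndB_V ζ e _ = _
  rw [h1, UEndB_V_sum ζ e
    (fun j => {a : Fin N ⊕ Fin n × Fin p | Sum.elim id (fun b => (c b.1).2) a = j})]
  · exact sum_congr rfl fun j _ => UEndB_V_restrict ζ e _ (UEndB_emb_inj j) _
  · intro a b hab
    exact Set.disjoint_left.2 fun x h1 h2 => hab (h1.symm.trans h2)
  · intro j ω ω' h
    have h0 : ω (Sum.inl j) = ω' (Sum.inl j) := h _ rfl
    unfold UEndB_en
    simp only [UEndB_emb, h0]
    congr 1
    refine sum_congr rfl fun t _ => ?_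
    by_cases ht : (c t).2 = j
    · have : ∀ l, ω (Sum.inr (t, l)) = ω' (Sum.inr (t, l)) := fun l => h _ ht
      simp only [this]
    · rw [if_neg ht]; rfl

theorem UEndB_law (μ : FinLaw D) {N : ℕ} [NeZero N] (h0 : (0 : ℝ) ≤ 1 / N) (h1 : (1 : ℝ) / N ≤ 1)
    (j : Fin N) (g : Option D → ℝ) :
    (μ.prod (FinLaw.unif (Fin N))).E (fun c => g (if c.2 = j then some c.1 else none)) =
      (FinLaw.mix (1 / N) h0 h1 (μ.map some) (FinLaw.dirac none)).E g := by
  rw [FinLaw.mix_E, FinLaw.map_E, FinLaw.dirac_E, FinLaw.prod_E]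
  have hN : (N : ℝ) ≠ 0 := by exact_mod_cast NeZero.ne N
  have h2 : ∀ d : D, (FinLaw.unif (Fin N)).E (fun i => g (if i = j then some d else none)) =
      1 / N * g (some d) + (1 - 1 / N) * g none := fun d => by
    have h3 : ∀ i : Fin N, g (if i = j then some d else none) =
        g none + if i = j then g (some d) - g none else 0 := fun i => by
      split_ifs <;> ring
    simp only [FinLaw.E, FinLaw.unif, Fintype.card_fin, ← Finset.mul_sum, h3, sum_add_distrib,
      sum_const, card_univ, nsmul_eq_mul, sum_ite_eq', mem_univ, if_true]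
    field_simp
    ring
  simp only [h2, FinLaw.E_add, FinLaw.E_smul, FinLaw.E_const]

theorem UEndB_term (X : Dis p D H) (ζ : Trial r Ω) (e : Expo r) (N : ℕ) [NeZero N] (n : ℕ) :
    (FinLaw.pi fun _ : Fin N => X.πh).E (fun hs =>
      (FinLaw.pi fun _ : Fin n => X.πd.prod (lawB p N)).E (uPhi X ζ e hs)) =
      N * ∑ k ∈ range (n + 1), (n.choose k : ℝ) * (1 / N) ^ k * (1 - 1 / N) ^ (n - k) *
        (FinLaw.pi fun _ : Fin k => X.πd).E fun ds => X.πh.E fun x =>
          ζ.val e (siteW (X.h x) fun j => X.θ (ds j)) := by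
  have hN : (1 : ℝ) ≤ N := by exact_mod_cast Nat.one_le_iff_ne_zero.2 (NeZero.ne N)
  have h0 : (0 : ℝ) ≤ 1 / N := by positivity
  have h1 : (1 : ℝ) / N ≤ 1 := by rw [div_le_one (by linarith)]; exact hN
  have key : ∀ hs : Fin N → H,
      (FinLaw.pi fun _ : Fin n => X.πd.prod (lawB p N)).E (uPhi X ζ e hs) =
      ∑ j, ∑ k ∈ range (n + 1), (n.choose k : ℝ) * (1 / N) ^ k * (1 - 1 / N) ^ (n - k) *
        (FinLaw.pi fun _ : Fin k => X.πd).E fun ds =>
          ζ.val e (siteW (X.h (hs j)) fun j => X.θ (ds j)) := fun hs => by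
    rw [← FinLaw.pi_E_map (fun _ : Fin n => X.πd.prod (FinLaw.unif (Fin N)))
      (fun _ : Fin n => X.πd.prod (lawB p N))
      (fun _ c => (c.1, lastLeg (fun _ => none) (some c.2)))
      (fun _ g => by simp only [FinLaw.prod_E, lawB, FinLaw.map_E])]
    simp only [UEndB_phi]
    rw [FinLaw.E_sum]
    refine sum_congr rfl fun j _ => ?_
    rw [FinLaw.pi_E_map (fun _ : Fin n => X.πd.prod (FinLaw.unif (Fin N)))
      (fun _ : Fin n => FinLaw.mix (1 / N) h0 h1 (X.πd.map some) (FinLaw.dirac none))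
      (fun _ c => if c.2 = j then some c.1 else none) (fun _ g => UEndB_law X.πd h0 h1 j g)
      (UEndB_psi X ζ e (X.h (hs j)) n),
      thin_family X.πd h0 h1 (UEndB_psi X ζ e (X.h (hs j))) (UEndB_psi_insert X ζ e _) n]
    simp only [UEndB_psi_some]
  simp only [key]
  rw [FinLaw.E_sum]
  have h2 : ∀ j : Fin N, (FinLaw.pi fun _ : Fin N => X.πh).E (fun hs =>
      ∑ k ∈ range (n + 1), (n.choose k : ℝ) * (1 / N) ^ k * (1 - 1 / N) ^ (n - k) *
        (FinLaw.pi fun _ : Fin k => X.πd).E fun ds =>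
          ζ.val e (siteW (X.h (hs j)) fun j => X.θ (ds j))) =
      ∑ k ∈ range (n + 1), (n.choose k : ℝ) * (1 / N) ^ k * (1 - 1 / N) ^ (n - k) *
        (FinLaw.pi fun _ : Fin k => X.πd).E fun ds => X.πh.E fun x =>
          ζ.val e (siteW (X.h x) fun j => X.θ (ds j)) := fun j => by
    rw [FinLaw.pi_E_eval (fun _ : Fin N => X.πh) j fun x =>
      ∑ k ∈ range (n + 1), (n.choose k : ℝ) * (1 / N) ^ k * (1 - 1 / N) ^ (n - k) *
        (FinLaw.pi fun _ : Fin k => X.πd).E fun ds =>
          ζ.val e (siteW (X.h x) fun j => X.θ (ds j)), FinLaw.E_sum]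
    refine sum_congr rfl fun k _ => ?_
    rw [FinLaw.E_smul, FinLaw.E_comm]
  simp only [h2, sum_const, card_univ, Fintype.card_fin, nsmul_eq_mul]

end Aux

theorem uEndB {p : ℕ} (hp : 1 ≤ p) {D H : Type} [Fintype D] [Fintype H] (X : Dis p D H) {α : ℝ}
    (hα : 0 ≤ α) {r : ℕ} {Ω : Type} [Fintype Ω] (ζ : Trial r Ω) (e : Expo r) (N : ℕ) [NeZero N] :
    HasSum (fun n : ℕ => poissonWeight (α * p * N) n *
        (FinLaw.pi fun _ : Fin N => X.πh).E fun hs =>
          (FinLaw.pi fun _ : Fin n => X.πd.prod (lawB p N)).E (uPhi X ζ e hs))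
      (N * ∑' k : ℕ, poissonWeight (α * p) k *
        (FinLaw.pi fun _ : Fin k => X.πd).E fun ds => X.πh.E fun x =>
          ζ.val e (siteW (X.h x) fun j => X.θ (ds j))) := by
  have _ := hp
  have hN : (1 : ℝ) ≤ N := by exact_mod_cast Nat.one_le_iff_ne_zero.2 (NeZero.ne N)
  have h0 : (0 : ℝ) ≤ 1 / N := by positivity
  have h1 : (1 : ℝ) / N ≤ 1 := by rw [div_le_one (by linarith)]; exact hN
  have hl : 0 ≤ α * p * N := by positivity
  obtain ⟨C, hC⟩ := UEndB_abs_psi_le (r := r) (Ω := Ω) X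
  set a : ℕ → ℝ := fun k => (FinLaw.pi fun _ : Fin k => X.πd).E fun ds => X.πh.E fun x =>
    ζ.val e (siteW (X.h x) fun j => X.θ (ds j)) with ha
  have hb : ∀ k, |a k| ≤ C * (k + 1) := fun k =>
    FinLaw.abs_E_le _ fun ds => FinLaw.abs_E_le _ fun x => by
      rw [← UEndB_psi_some]; exact hC ζ e x k _
  have hC0 : 0 ≤ C := by
    have := (abs_nonneg _).trans (hb 0)
    simpa using this
  have hs : Summable fun n => poissonWeight (α * p * N) n *
      ∑ k ∈ range (n + 1), (n.choose k : ℝ) * (1 / N) ^ k * (1 - 1 / N) ^ (n - k) * a k := by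
    refine summable_poi_mul hl (C := C) fun n => ?_
    refine (abs_sum_le_sum_abs _ _).trans ?_
    have h2 : ∑ k ∈ range (n + 1), (n.choose k : ℝ) * (1 / N) ^ k * (1 - 1 / N) ^ (n - k) = 1 := by
      have := add_pow (1 / N : ℝ) (1 - 1 / N) n
      rw [add_sub_cancel, one_pow] at this
      exact (sum_congr rfl fun k _ => by ring).trans this.symm
    have h3 : (0 : ℝ) ≤ 1 - 1 / N := sub_nonneg.2 h1
    calc ∑ k ∈ range (n + 1), |(n.choose k : ℝ) * (1 / N) ^ k * (1 - 1 / N) ^ (n - k) * a k|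
        ≤ ∑ k ∈ range (n + 1),
            (n.choose k : ℝ) * (1 / N) ^ k * (1 - 1 / N) ^ (n - k) * (C * (n + 1)) := by
          refine sum_le_sum fun k hk => ?_
          have hw : 0 ≤ (n.choose k : ℝ) * (1 / N) ^ k * (1 - 1 / N) ^ (n - k) := by positivity
          rw [abs_mul, abs_of_nonneg hw]
          refine mul_le_mul_of_nonneg_left ((hb k).trans ?_) hw
          have : (k : ℝ) ≤ n := by exact_mod_cast Nat.lt_succ_iff.1 (mem_range.1 hk)
          gcongr
      _ = C * (n + 1) := by rw [← sum_mul, h2, one_mul]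
  have h4 := hs.hasSum.mul_left (N : ℝ)
  rw [binom_thin hl h0 h1 hb, show α * p * N * (1 / N) = α * p by field_simp] at h4
  have h5 : (fun n : ℕ => poissonWeight (α * p * N) n *
        (FinLaw.pi fun _ : Fin N => X.πh).E fun hs =>
          (FinLaw.pi fun _ : Fin n => X.πd.prod (lawB p N)).E (uPhi X ζ e hs)) =
      fun n : ℕ => (N : ℝ) * (poissonWeight (α * p * N) n *
        ∑ k ∈ range (n + 1), (n.choose k : ℝ) * (1 / N) ^ k * (1 - 1 / N) ^ (n - k) * a k) := by
    funext n
    rw [UEndB_term]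
    ring
  rw [h5]
  exact h4

end Crest.Agent.R141
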