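import Crest.Agent.R141.UStep

/-!
# Row 141, upper bound: replacing all slots

Recipe. `FinLaw.pi_E_le_of_update`. For a slot `t`, split the coordinates into
`L₁ = Fin N ⊕ {t' // t' ≠ t} × Fin p` and `L₂ = Fin p` (the labels of `t`): `Kern.hom_split`,
`FinLaw.pi_E_split`, then forget the free spins of `L₂` (`Hom.prod_map`, `Hom.pi_map`, `hom_fst`,
`pi_E_map`). `uEn (update c t a) = v₁ ∘ fst + (energy of a)`, where `v₁` does not depend on `a`.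
With `S₁ = FKS.pi fun _ : L₁ => ζ.ext`, `G = S₁.tilt e v₁`: prove
`(S₁.prod S₂).tilt e (v₁ ∘ fst)` has the kernels of `(S₁.tilt e v₁).prod S₂` (`tau` of `v₁ ∘ fst` is
`tau` of `v₁` by `hom_fst.lp`), so by `FKS.lp_tilt`
`uPhi (update c t a) = ν₁.E fun z₁ => S₁.lp e v₁ 0 z₁ + uIncr G σ z₁ a`; conclude with `uIncr_le`.
-/

set_option autoImplicit false

namespace Crest.Agent.R141

open Finset Crest.ProbabilityR.Diluted
open scoped BigOperators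

theorem ULind_lp_add {r : ℕ} {Ω₁ Ω₂ : Type} [Fintype Ω₁] [Fintype Ω₂] (S₁ : FKS Ω₁ r)
    (S₂ : FKS Ω₂ r) (e : Expo r) (v₁ : Ω₁ → ℝ) (u : Ω₁ × Ω₂ → ℝ) (j : ℕ) (z : Ω₁ × Ω₂) :
    (S₁.toKern.prod S₂.toKern).lp e (fun ω => v₁ ω.1 + u ω) j z =
      S₁.lp e v₁ j z.1 + ((S₁.tilt e v₁).toKern.prod S₂.toKern).lp e u j z := by
  have hf : ∀ j ω, (S₁.toKern.prod S₂.toKern).lp e (fun ω => v₁ ω.1) j ω = S₁.lp e v₁ j ω.1 :=
    fun j ω => (Kern.hom_fst S₁.toKern S₂.toKern).lp e v₁ j ω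
  have h1 := (S₁.prod S₂).lp_tilt e (fun ω => v₁ ω.1) u j z
  have h2 : Kern.Hom r ((S₁.prod S₂).tilt e fun ω => v₁ ω.1).toKern
      ((S₁.tilt e v₁).toKern.prod S₂.toKern) fun z => z := by
    intro j _ f z
    refine Finset.sum_congr rfl fun ω _ => ?_
    have h3 : (S₁.prod S₂).tau e (fun ω => v₁ ω.1) j ω = S₁.tau e v₁ j ω.1 := by
      unfold FKS.tau
      congr 1
      refine Finset.sum_congr rfl fun i _ => ?_
      rw [← hf]
      rfl
    show S₁.A j z.1 ω.1 * S₂.A j z.2 ω.2 * (S₁.prod S₂).tau e (fun ω => v₁ ω.1) j ω * f ω =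
      S₁.A j z.1 ω.1 * S₁.tau e v₁ j ω.1 * S₂.A j z.2 ω.2 * f ω
    rw [h3]
    ring
  have h4 := h2.lp e u j z
  have h5 := hf j z
  change ((S₁.prod S₂).tilt e fun ω => v₁ ω.1).lp e u j z =
    (S₁.toKern.prod S₂.toKern).lp e (fun ω => v₁ ω.1 + u ω) j z -
      (S₁.toKern.prod S₂.toKern).lp e (fun ω => v₁ ω.1) j z at h1
  change ((S₁.prod S₂).tilt e fun ω => v₁ ω.1).lp e u j z = _ at h4
  linarith

theorem ULind_uPhi_update {p : ℕ} {D H : Type} [Fintype D] [Fintype H] (X : Dis p D H) {r : ℕ}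
    {Ω : Type} [Fintype Ω] (ζ : Trial r Ω) (e : Expo r) {N : ℕ} {T : Type} [Fintype T]
    [DecidableEq T] (hs : Fin N → H) (c : T → D × Legs p N) (t : T) (a : D × Legs p N) :
    uPhi X ζ e hs (Function.update c t a) =
      (FinLaw.pi fun _ : Fin N ⊕ {t' // t' ≠ t} × Fin p => ζ.ν.prod (FinLaw.unif Bool)).E fun z₁ =>
        (FKS.pi fun _ : Fin N ⊕ {t' // t' ≠ t} × Fin p => ζ.ext).lp e
            (uEn X ζ hs fun t' : {t' // t' ≠ t} => c t'.1) 0 z₁ +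
          uIncr X ζ e ((FKS.pi fun _ : Fin N ⊕ {t' // t' ≠ t} × Fin p => ζ.ext).tilt e
            (uEn X ζ hs fun t' : {t' // t' ≠ t} => c t'.1)) (fun ω i => (ω (Sum.inl i)).2) z₁ a := by
  let ι₁ : Fin N ⊕ {t' // t' ≠ t} × Fin p → Fin N ⊕ T × Fin p :=
    Sum.map id (Prod.map Subtype.val id)
  let ι₂ : Fin p → Fin N ⊕ T × Fin p := fun l => Sum.inr (t, l)
  have h₁ : Function.Injective ι₁ :=
    Function.injective_id.sumMap (Subtype.val_injective.prodMap Function.injective_id)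
  have h₂ : Function.Injective ι₂ := fun l l' h => by simpa [ι₂] using h
  have hd : ∀ a b, ι₁ a ≠ ι₂ b := by
    rintro (i | ⟨t', l⟩) b h
    · simp [ι₁, ι₂] at h
    · simp only [ι₁, ι₂, Sum.map_inr, Prod.map, Sum.inr.injEq, Prod.mk.injEq] at h
      exact t'.2 h.1
  set S₁ := FKS.pi fun _ : Fin N ⊕ {t' // t' ≠ t} × Fin p => ζ.ext with hS₁
  set v₁ := uEn X ζ hs fun t' : {t' // t' ≠ t} => c t'.1 with hv₁
  let S₂ := FKS.pi fun _ : Fin p => ζ.S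
  let u : (Fin N ⊕ {t' // t' ≠ t} × Fin p → Ω × Bool) × (Fin p → Ω) → ℝ := fun ω =>
    X.θ a.1 (legSpin a.2 (fun i => (ω.1 (Sum.inl i)).2) fun l => ζ.s (ω.2 l))
  have hom : Kern.Hom r (Kern.pi fun _ : Fin N ⊕ T × Fin p => ζ.ext.toKern)
      (S₁.toKern.prod S₂.toKern) fun z => (fun a => z (ι₁ a), fun b => (z (ι₂ b)).1) :=
    (Kern.hom_split (fun _ : Fin N ⊕ T × Fin p => ζ.ext.toKern) ι₁ ι₂ h₁ h₂ hd).comp
      (Kern.Hom.prod_map (Kern.Hom.id _) (Kern.Hom.pi_map (φ := fun _ => Prod.fst)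
        fun _ => Kern.hom_fst ζ.S.toKern (FKS.lvl Bool r (r + 1)).toKern))
  have hen : uEn X ζ hs (Function.update c t a) = fun z =>
      (fun ω : (Fin N ⊕ {t' // t' ≠ t} × Fin p → Ω × Bool) × (Fin p → Ω) => v₁ ω.1 + u ω)
        (fun a => z (ι₁ a), fun b => (z (ι₂ b)).1) := by
    funext z
    simp only [hv₁, uEn, u]
    rw [Fintype.sum_eq_add_sum_subtype_ne _ t, Function.update_self, add_comm (X.θ _ _),
      ← add_assoc]
    congr 2
    refine Finset.sum_congr rfl fun t' _ => ?_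
    rw [Function.update_of_ne t'.2]
    rfl
  have hlp : ∀ z, (Kern.pi fun _ : Fin N ⊕ T × Fin p => ζ.ext.toKern).lp e
      (uEn X ζ hs (Function.update c t a)) 0 z =
      (fun (z₁ : Fin N ⊕ {t' // t' ≠ t} × Fin p → Ω × Bool) (z₂ : Fin p → Ω × Bool) =>
        S₁.lp e v₁ 0 z₁ + ((S₁.tilt e v₁).toKern.prod S₂.toKern).lp e u 0 (z₁, fun b => (z₂ b).1))
        (fun a => z (ι₁ a)) fun b => z (ι₂ b) := by
    intro z
    rw [hen, hom.lp e (fun ω => v₁ ω.1 + u ω) 0 z, ULind_lp_add]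
  unfold uPhi
  refine (congrArg _ (funext hlp)).trans ((FinLaw.pi_E_split
    (fun _ : Fin N ⊕ T × Fin p => ζ.ν.prod (FinLaw.unif Bool)) ι₁ ι₂ h₁ h₂ hd
    (fun (z₁ : Fin N ⊕ {t' // t' ≠ t} × Fin p → Ω × Bool) (z₂ : Fin p → Ω × Bool) =>
      S₁.lp e v₁ 0 z₁ +
        ((S₁.tilt e v₁).toKern.prod S₂.toKern).lp e u 0 (z₁, fun b => (z₂ b).1))).trans ?_)
  congr 1
  funext z₁
  rw [FinLaw.E_add, FinLaw.E_const]
  congr 1
  exact FinLaw.pi_E_map (fun _ : Fin p => ζ.ν.prod (FinLaw.unif Bool)) (fun _ => ζ.ν)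
    (fun _ => Prod.fst) (fun _ g => by rw [FinLaw.prod_E]; simp only [FinLaw.E_const])
    fun z₂ => ((S₁.tilt e v₁).toKern.prod S₂.toKern).lp e u 0 (z₁, z₂)

theorem uPhi_le {p : ℕ} (hp : 1 ≤ p) {B F H : Type} [Fintype B] [Fintype F] [Fintype H]
    (M : Model p B F H) {r : ℕ} {Ω : Type} [Fintype Ω] (ζ : Trial r Ω) (e : Expo r) {N : ℕ}
    [NeZero N] (hs : Fin N → H) (n : ℕ) :
    (FinLaw.pi fun _ : Fin n => M.dis.πd.prod (lawA p N hp)).E (uPhi M.dis ζ e hs) ≤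
      (FinLaw.pi fun _ : Fin n => M.dis.πd.prod (lawB p N)).E (uPhi M.dis ζ e hs) := by
  refine FinLaw.pi_E_le_of_update _ _ _ fun c t => ?_
  simp only [ULind_uPhi_update]
  rw [FinLaw.E_comm, FinLaw.E_comm (M.dis.πd.prod (lawB p N))]
  refine FinLaw.E_mono _ fun z₁ => ?_
  rw [FinLaw.E_add, FinLaw.E_add, FinLaw.E_const, FinLaw.E_const]
  exact add_le_add le_rfl (uIncr_le hp M ζ e _ _ z₁)

end Crest.Agent.R141
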