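import Crest.Agent.R141.UDefs

/-!
# Row 141, upper bound: one interpolation step

Recipe. For `d = (x, y)`, `θ d s = log (1 - u)`, `u = -b x ∏_l f (y l) (s l)`, `|u| ≤ ρ < 1`. Apply `kt`
to the system `G.prod (FKS.pi fun _ => ζ.S)` (its `toKern` is the product kernel by `rfl`) and sum
the `HasSum`s against the finite laws (`hasSum_sum`, `HasSum.mul_left`). The `n`-th term: given the
code `κ` and the `G`-replicas `α` (`repLaw_prod`, `repLaw_pi`),
`∏ₐ u = (-b x)^(n+1) ∏_l ∏ₐ f (y l) (spin of leg l in replica a)`. With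
`A = 𝔼 i, πf.E fun y => ∏ₐ f y (σ (α a) i)` and
`B = ν.E fun z => (repLaw ζ.S z n κ).E fun β => πf.E fun y => ∏ₐ f y (ζ.s (β a))`, independence
(`pi_E_prod`, `pi_unif_E`) gives `A^p` for a full clause, `B^p` for an edge, `A B^(p-1)` for a cavity
clause. Finally `A^p + (p-1) B^p - p A B^(p-1) ≥ 0` for even `p` (convexity of `x^p`,
`Even.convexOn_pow`) or for `A, B ≥ 0` (`convexOn_pow`), and `M.mom`; `hasSum_le`.
-/

set_option autoImplicit false

namespace Crest.Agent.R141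

open Finset Crest.ProbabilityR.Diluted
open scoped BigOperators

theorem ustep_tangent {A B : ℝ} (hA : 0 ≤ A) (hB : 0 ≤ B) (k : ℕ) :
    ((k : ℝ) + 1) * (A * B ^ k) ≤ A ^ (k + 1) + k * B ^ (k + 1) := by
  induction k with
  | zero => simp
  | succ k ih =>
    have h1 := mul_le_mul_of_nonneg_left ih hA
    have h2 : 0 ≤ ((k : ℝ) + 1) * B ^ k * (A - B) ^ 2 := by positivity
    push_cast
    have e1 : A ^ (k + 1 + 1) = A * A ^ (k + 1) := by ring
    have e2 : B ^ (k + 1 + 1) = B ^ k * B ^ 2 := by ring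
    have e3 : B ^ (k + 1) = B ^ k * B := by ring
    rw [e1, e2, e3]
    rw [e3] at h1
    nlinarith

theorem ustep_ineq {p : ℕ} (hp : 1 ≤ p) {A B : ℝ} (h : Even p ∨ (0 ≤ A ∧ 0 ≤ B)) :
    A * B ^ (p - 1) ≤ 1 / (p : ℝ) * A ^ p + (1 - 1 / (p : ℝ)) * B ^ p := by
  obtain ⟨k, rfl⟩ : ∃ k, p = k + 1 := ⟨p - 1, by omega⟩
  have key : ((k : ℝ) + 1) * (A * B ^ k) ≤ A ^ (k + 1) + k * B ^ (k + 1) := by
    rcases h with h | ⟨hA, hB⟩
    · have h1 := ustep_tangent (abs_nonneg A) (abs_nonneg B) k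
      rw [h.pow_abs, h.pow_abs] at h1
      refine le_trans (mul_le_mul_of_nonneg_left ?_ (by positivity)) h1
      rw [← abs_pow, ← abs_mul]
      exact le_abs_self _
    · exact ustep_tangent hA hB k
  have hk : (0 : ℝ) < (k : ℝ) + 1 := by positivity
  simp only [Nat.add_sub_cancel]
  push_cast
  have : 1 / ((k : ℝ) + 1) * A ^ (k + 1) + (1 - 1 / ((k : ℝ) + 1)) * B ^ (k + 1) =
      (A ^ (k + 1) + k * B ^ (k + 1)) / ((k : ℝ) + 1) := by
    field_simp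
    ring
  rw [this, le_div_iff₀ hk]
  linarith

theorem ustep_hasSum_E {S : Type} [Fintype S] (μ : FinLaw S) {f : ℕ → S → ℝ} {g : S → ℝ}
    (h : ∀ s, HasSum (fun n => f n s) (g s)) : HasSum (fun n => μ.E (f n)) (μ.E g) :=
  hasSum_sum fun s _ => (h s).mul_left (μ.w s)

theorem ustep_lawA {p N : ℕ} [NeZero N] (hp : 1 ≤ p) (Q : Option (Fin N) → ℝ) :
    (lawA p N hp).E (fun legs => ∏ l, Q (legs l)) =
      1 / (p : ℝ) * ((FinLaw.unif (Fin N)).E fun i => Q (some i)) ^ p +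
        (1 - 1 / (p : ℝ)) * Q none ^ p := by
  unfold lawA
  rw [FinLaw.mix_E, FinLaw.map_E, FinLaw.dirac_E, FinLaw.unif_E, ← FinLaw.pi_unif_E,
    FinLaw.pi_E_prod (fun _ : Fin p => FinLaw.unif (Fin N)) fun _ i => Q (some i)]
  simp

theorem ustep_lawB {p N : ℕ} [NeZero N] (hp : 1 ≤ p) (Q : Option (Fin N) → ℝ) :
    (lawB p N).E (fun legs => ∏ l, Q (legs l)) =
      ((FinLaw.unif (Fin N)).E fun i => Q (some i)) * Q none ^ (p - 1) := by
  obtain ⟨k, rfl⟩ : ∃ k, p = k + 1 := ⟨p - 1, by omega⟩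
  unfold lawB
  rw [FinLaw.map_E, mul_comm, ← FinLaw.E_smul]
  congr 1
  funext i
  rw [Fin.prod_univ_castSucc]
  simp [lastLeg]

section Terms
variable {p : ℕ} {B F H : Type} [Fintype B] [Fintype F] [Fintype H] {r : ℕ} {Ω : Type} [Fintype Ω]
  {N : ℕ} {Ω₀ : Type} [Fintype Ω₀]

/-- `θ = log (1 - u)`. -/
noncomputable def ustepU (M : Model p B F H) (ζ : Trial r Ω) (σ : Ω₀ → Fin N → Bool)
    (c : (B × (Fin p → F)) × Legs p N) (ω : Ω₀ × (Fin p → Ω)) : ℝ :=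
  -(M.b c.1.1 * ∏ l, M.f (c.1.2 l) (legSpin c.2 (σ ω.1) (fun l => ζ.s (ω.2 l)) l))

/-- The `n`-th term of the series of one slot. -/
noncomputable def ustepTerm (M : Model p B F H) (ζ : Trial r Ω) (e : Expo r) (G : FKS Ω₀ r)
    (σ : Ω₀ → Fin N → Bool) (z₀ : Ω₀) (n : ℕ) (c : (B × (Fin p → F)) × Legs p N) : ℝ :=
  (FinLaw.pi fun _ : Fin p => ζ.ν).E fun z => (codeLaw e n).E fun κ =>
    (repLaw (G.toKern.prod (Kern.pi fun _ : Fin p => ζ.S.toKern)) (z₀, z) n κ).E fun α =>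
      ∏ a, ustepU M ζ σ c (α a)

theorem ustep_hasSum (M : Model p B F H) (ζ : Trial r Ω) (e : Expo r) (G : FKS Ω₀ r)
    (σ : Ω₀ → Fin N → Bool) (z₀ : Ω₀) (c : (B × (Fin p → F)) × Legs p N) :
    HasSum (fun n : ℕ => (1 / ((n : ℝ) + 1)) * ustepTerm M ζ e G σ z₀ n c)
      (-uIncr M.dis ζ e G σ z₀ c) := by
  have h := ustep_hasSum_E (FinLaw.pi fun _ : Fin p => ζ.ν) fun z =>
    kt (G.prod (FKS.pi fun _ : Fin p => ζ.S)) e (z₀, z) (ustepU M ζ σ c) M.ρ_lt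
      (fun ω => by unfold ustepU; rw [abs_neg]; exact M.bound _ _ _)
  convert h using 1
  · funext n
    rw [FinLaw.E_smul]
    rfl
  · unfold uIncr
    rw [neg_eq_neg_one_mul, ← FinLaw.E_smul]
    congr 1
    funext z
    rw [neg_one_mul]
    simp only [ustepU, sub_neg_eq_add]
    rfl

/-- The factor of one leg, given the code and the replicas of the old system. -/
noncomputable def ustepG (M : Model p B F H) (ζ : Trial r Ω) (σ : Ω₀ → Fin N → Bool) (n : ℕ)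
    (κ : Code r n) (α : Fin (n + 1) → Ω₀) (o : Option (Fin N)) (y : F) (z : Ω) : ℝ :=
  (repLaw ζ.S.toKern z n κ).E fun β => ∏ a, M.f y (o.elim (ζ.s (β a)) (σ (α a)))

/-- The same, averaged over the type of the leg and the starting point. -/
noncomputable def ustepQ (M : Model p B F H) (ζ : Trial r Ω) (σ : Ω₀ → Fin N → Bool) (n : ℕ)
    (κ : Code r n) (α : Fin (n + 1) → Ω₀) (o : Option (Fin N)) : ℝ :=
  M.πf.E fun y => ζ.ν.E fun z => ustepG M ζ σ n κ α o y z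

theorem ustepTerm_eq (M : Model p B F H) (ζ : Trial r Ω) (e : Expo r) (G : FKS Ω₀ r)
    (σ : Ω₀ → Fin N → Bool) (z₀ : Ω₀) (n : ℕ) (c : (B × (Fin p → F)) × Legs p N) :
    ustepTerm M ζ e G σ z₀ n c = (-M.b c.1.1) ^ (n + 1) * (codeLaw e n).E fun κ =>
      (repLaw G.toKern z₀ n κ).E fun α =>
        ∏ l, ζ.ν.E fun z => ustepG M ζ σ n κ α (c.2 l) (c.1.2 l) z := by
  unfold ustepTerm
  rw [FinLaw.E_comm, ← FinLaw.E_smul]
  congr 1
  funext κ
  simp only [repLaw_prod, repLaw_pi]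
  rw [FinLaw.E_comm, ← FinLaw.E_smul]
  congr 1
  funext α
  rw [← FinLaw.pi_E_prod (fun _ : Fin p => ζ.ν)
    fun l z => ustepG M ζ σ n κ α (c.2 l) (c.1.2 l) z, ← FinLaw.E_smul]
  congr 1
  funext z
  unfold ustepG
  rw [← FinLaw.pi_E_prod (fun l : Fin p => repLaw ζ.S.toKern (z l) n κ)
    fun l β => ∏ a, M.f (c.1.2 l) ((c.2 l).elim (ζ.s (β a)) (σ (α a))), ← FinLaw.E_smul]
  congr 1
  funext β
  rw [Finset.prod_comm]
  simp only [ustepU, ← neg_mul, Finset.prod_mul_distrib, Finset.prod_const, Finset.card_univ,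
    Fintype.card_fin]
  congr 1
  refine prod_congr rfl fun a _ => prod_congr rfl fun l _ => ?_
  unfold legSpin
  cases c.2 l <;> rfl

theorem ustepTerm_E (M : Model p B F H) (ζ : Trial r Ω) (e : Expo r) (G : FKS Ω₀ r)
    (σ : Ω₀ → Fin N → Bool) (z₀ : Ω₀) (n : ℕ) (L : FinLaw (Legs p N)) :
    (M.dis.πd.prod L).E (ustepTerm M ζ e G σ z₀ n) =
      (M.πb.E fun x => (-M.b x) ^ (n + 1)) * (codeLaw e n).E fun κ =>
        (repLaw G.toKern z₀ n κ).E fun α => L.E fun legs => ∏ l, ustepQ M ζ σ n κ α (legs l) := by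
  rw [FinLaw.prod_E]
  show (M.πb.prod (FinLaw.pi fun _ : Fin p => M.πf)).E _ = _
  rw [FinLaw.prod_E, mul_comm, ← FinLaw.E_smul]
  congr 1
  funext x
  simp only [ustepTerm_eq, FinLaw.E_smul]
  rw [mul_comm]
  congr 1
  rw [FinLaw.E_comm]
  have h1 : ∀ legs : Legs p N, ((FinLaw.pi fun _ : Fin p => M.πf).E fun y =>
      (codeLaw e n).E fun κ => (repLaw G.toKern z₀ n κ).E fun α =>
        ∏ l, ζ.ν.E fun z => ustepG M ζ σ n κ α (legs l) (y l) z) =
      (codeLaw e n).E fun κ => (repLaw G.toKern z₀ n κ).E fun α =>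
        ∏ l, ustepQ M ζ σ n κ α (legs l) := by
    intro legs
    rw [FinLaw.E_comm]
    congr 1
    funext κ
    rw [FinLaw.E_comm]
    congr 1
    funext α
    exact FinLaw.pi_E_prod (fun _ : Fin p => M.πf)
      fun l y => ζ.ν.E fun z => ustepG M ζ σ n κ α (legs l) y z
  simp only [h1]
  rw [FinLaw.E_comm]
  congr 1
  funext κ
  rw [FinLaw.E_comm]

omit [Fintype Ω₀] in
theorem ustepQ_nonneg (M : Model p B F H) (ζ : Trial r Ω) (σ : Ω₀ → Fin N → Bool) (n : ℕ)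
    (κ : Code r n) (α : Fin (n + 1) → Ω₀) (hf : ∀ y s, 0 ≤ M.f y s) (o : Option (Fin N)) :
    0 ≤ ustepQ M ζ σ n κ α o :=
  FinLaw.E_nonneg _ fun _ => FinLaw.E_nonneg _ fun _ => FinLaw.E_nonneg _ fun _ =>
    prod_nonneg fun _ _ => hf _ _

theorem ustepTerm_le [NeZero N] (hp : 1 ≤ p) (M : Model p B F H) (ζ : Trial r Ω) (e : Expo r)
    (G : FKS Ω₀ r) (σ : Ω₀ → Fin N → Bool) (z₀ : Ω₀) (n : ℕ) :
    (M.dis.πd.prod (lawB p N)).E (ustepTerm M ζ e G σ z₀ n) ≤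
      (M.dis.πd.prod (lawA p N hp)).E (ustepTerm M ζ e G σ z₀ n) := by
  rw [ustepTerm_E, ustepTerm_E]
  refine mul_le_mul_of_nonneg_left ?_ (M.mom _ (by omega))
  refine FinLaw.E_mono _ fun κ => FinLaw.E_mono _ fun α => ?_
  rw [ustep_lawA hp, ustep_lawB hp]
  refine ustep_ineq hp (M.sign.imp id fun hf => ⟨?_, ustepQ_nonneg M ζ σ n κ α hf _⟩)
  exact FinLaw.E_nonneg _ fun i => ustepQ_nonneg M ζ σ n κ α hf _

end Terms

theorem uIncr_le {p : ℕ} (hp : 1 ≤ p) {B F H : Type} [Fintype B] [Fintype F] [Fintype H]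
    (M : Model p B F H) {r : ℕ} {Ω : Type} [Fintype Ω] (ζ : Trial r Ω) (e : Expo r) {N : ℕ}
    [NeZero N] {Ω₀ : Type} [Fintype Ω₀] (G : FKS Ω₀ r) (σ : Ω₀ → Fin N → Bool) (z₀ : Ω₀) :
    (M.dis.πd.prod (lawA p N hp)).E (uIncr M.dis ζ e G σ z₀) ≤
      (M.dis.πd.prod (lawB p N)).E (uIncr M.dis ζ e G σ z₀) := by
  have key : ∀ L : FinLaw (Legs p N), HasSum
      (fun n : ℕ => (1 / ((n : ℝ) + 1)) * (M.dis.πd.prod L).E (ustepTerm M ζ e G σ z₀ n))
      (-(M.dis.πd.prod L).E (uIncr M.dis ζ e G σ z₀)) := by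
    intro L
    have h := ustep_hasSum_E (M.dis.πd.prod L) (ustep_hasSum M ζ e G σ z₀)
    convert h using 1
    · funext n
      rw [FinLaw.E_smul]
    · rw [neg_eq_neg_one_mul, ← FinLaw.E_smul]
      simp only [neg_one_mul]
  have h := hasSum_le (fun n => mul_le_mul_of_nonneg_left (ustepTerm_le hp M ζ e G σ z₀ n)
    (by positivity)) (key _) (key _)
  linarith

end Crest.Agent.R141
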