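import Crest.Agent.R141.ULind
import Crest.Agent.R141.UEndA
import Crest.Agent.R141.UEndB

/-! # Row 141: the upper bound for finite disorder and finite trials -/

set_option autoImplicit false

namespace Crest.Agent.R141

open Finset Crest.ProbabilityR.Diluted
open scoped BigOperators

theorem upper_fin {p : ℕ} (hp : 1 ≤ p) {B F H : Type} [Fintype B] [Fintype F] [Fintype H]
    (M : Model p B F H) {α : ℝ} (hα : 0 ≤ α) {r : ℕ} {Ω : Type} [Fintype Ω] (ζ : Trial r Ω)
    (e : Expo r) {N : ℕ} (hN : 1 ≤ N) : M.dis.pressure α N ≤ M.dis.P α e ζ := by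
  have : NeZero N := ⟨by omega⟩
  have h := hasSum_le (fun n => mul_le_mul_of_nonneg_left
    ((FinLaw.pi fun _ : Fin N => M.dis.πh).E_mono fun hs => uPhi_le hp M ζ e hs n)
    (poi_nonneg (by positivity) n)) (uEndA hp M.dis hα ζ e N) (uEndB hp M.dis hα ζ e N)
  have hN' : (0 : ℝ) < N := by exact_mod_cast hN
  rw [← mul_add] at h
  have h2 := le_of_mul_le_mul_left h hN'
  unfold Dis.P Dis.cav
  linarith

end Crest.Agent.R141
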