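import Crest.Agent.R141.CDefs

/-!
# Row 141: pigeonhole for the captured energies

Recipe for `window`: induct downwards on the levels with the statement "for `s ≤ r + 1` there are `k`
and an interval `[a, a + 2 N^(r+1-s)] ⊆ [0, 2 N^(r+1)]` with `k j ≤ a` and
`En k j (a + 2 N^(r+1-s)) - En k j (k j) ≤ C/N` for the top `s` levels `j`"; cut the interval in `N` equal
parts, one of them has increment `≤ C/N` (telescoping), update `k` at the new level to its left end.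
-/

set_option autoImplicit false

namespace Crest.Agent.R141

open Finset
open scoped BigOperators

/-- Pigeonhole: one of `N` consecutive increments of a `[0, C]`-valued sequence is `≤ C / N`. -/
theorem window_pigeon (N : ℕ) (hN : 0 < N) (C : ℝ) (g : ℕ → ℝ) (hg : ∀ t, 0 ≤ g t ∧ g t ≤ C) :
    ∃ i < N, g (i + 1) - g i ≤ C / N := by
  by_contra h
  push Not at h
  have hN' : (0 : ℝ) < N := by exact_mod_cast hN
  have h1 : ∑ _i ∈ range N, C / N < ∑ i ∈ range N, (g (i + 1) - g i) :=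
    sum_lt_sum_of_nonempty (nonempty_range_iff.2 hN.ne') fun i hi => h i (mem_range.1 hi)
  rw [sum_range_sub, sum_const, card_range, nsmul_eq_mul, mul_div_cancel₀ _ hN'.ne'] at h1
  have := (hg N).2
  have := (hg 0).1
  linarith

theorem window (r N : ℕ) (hN : 0 < N) (C : ℝ) (En : (ℕ → ℕ) → ℕ → ℕ → ℝ)
    (dep : ∀ k k', ∀ j ≤ r, (∀ j', j < j' → j' ≤ r → k j' = k' j') → En k j = En k' j)
    (mono : ∀ k, ∀ j ≤ r, Monotone (En k j))
    (bdd : ∀ k, ∀ j ≤ r, ∀ t, 0 ≤ En k j t ∧ En k j t ≤ C) :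
    ∃ (k : ℕ → ℕ) (t₀ : ℕ), t₀ + 2 ≤ 2 * N ^ (r + 1) ∧ (∀ j ≤ r, k j ≤ t₀) ∧
      ∀ j ≤ r, En k j (t₀ + 2) - En k j (k j) ≤ C / N := by
  have key : ∀ j, j ≤ r + 1 → ∃ (k : ℕ → ℕ) (a : ℕ), a + 2 * N ^ j ≤ 2 * N ^ (r + 1) ∧
      ∀ j', j ≤ j' → j' ≤ r → k j' ≤ a ∧ En k j' (a + 2 * N ^ j) - En k j' (k j') ≤ C / N := by
    intro j
    induction j using down_ind (r := r) with
    | top j hj =>
      intro hj'
      obtain rfl : j = r + 1 := le_antisymm hj' hj
      exact ⟨fun _ => 0, 0, by omega, fun j' h1 h2 => by omega⟩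
    | step j hj ih =>
      intro _
      obtain ⟨k, a, ha, hk⟩ := ih (by omega)
      obtain ⟨i, hi, hinc⟩ := window_pigeon N hN C (fun t => En k j (a + t * (2 * N ^ j)))
        fun t => bdd k j hj _
      have hle : a + i * (2 * N ^ j) + 2 * N ^ j ≤ a + 2 * N ^ (j + 1) := by
        have : (i + 1) * (2 * N ^ j) ≤ N * (2 * N ^ j) := Nat.mul_le_mul_right _ hi
        rw [pow_succ]
        nlinarith
      have hE : ∀ j', j ≤ j' → j' ≤ r →
          En (Function.update k j (a + i * (2 * N ^ j))) j' = En k j' := fun j' h1 h2 =>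
        dep _ _ j' h2 fun j'' h3 _ => Function.update_of_ne (by omega) _ _
      refine ⟨Function.update k j (a + i * (2 * N ^ j)), a + i * (2 * N ^ j), by omega,
        fun j' h1 h2 => ?_⟩
      rw [hE j' h1 h2]
      rcases h1.eq_or_lt with rfl | h1
      · rw [Function.update_self]
        refine ⟨le_rfl, ?_⟩
        have e1 : a + (i + 1) * (2 * N ^ j) = a + i * (2 * N ^ j) + 2 * N ^ j := by ring
        simpa only [e1] using hinc
      · rw [Function.update_of_ne (by omega)]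
        obtain ⟨h3, h4⟩ := hk j' h1 h2
        have := mono k j' h2 hle
        exact ⟨by omega, by linarith⟩
  obtain ⟨k, a, ha, hk⟩ := key 0 (Nat.zero_le _)
  simp only [pow_zero, mul_one] at ha hk
  exact ⟨k, a, ha, fun j hj => (hk j (Nat.zero_le _) hj).1,
    fun j hj => (hk j (Nat.zero_le _) hj).2⟩

/-- `lp` from level `j` on only sees the kernels of the levels in `[j, r]`. -/
theorem window_lp_congr {Ω : Type} [Fintype Ω] {r : ℕ} (S S' : Kern Ω) (e : Expo r) (v : Ω → ℝ)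
    (j : ℕ) (h : ∀ i, j ≤ i → i ≤ r → S.A i = S'.A i) : S.lp e v j = S'.lp e v j := by
  induction j using down_ind (r := r) with
  | top j hj => rw [S.lp_top e v hj, S'.lp_top e v hj]
  | step j hj ih =>
    funext z
    rw [S.lp_succ e v hj, S'.lp_succ e v hj, ih fun i hi => h i (by omega)]
    simp only [Kern.ex, h j le_rfl hj]

theorem window_ce_sq_mono {Ω : Type} [Fintype Ω] {R R' : Setoid Ω} (h : ∀ a b, R' a b → R a b)
    (f : Ω → ℝ) : 𝔼 z, ce R f z ^ 2 ≤ 𝔼 z, ce R' f z ^ 2 := by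
  have h1 := expect_sq_ce_sub h f
  have h2 : 0 ≤ 𝔼 z, (ce R' f z - ce R f z) ^ 2 := expect_nonneg fun z _ => sq_nonneg _
  linarith

theorem window_abs_ce_le {Ω : Type} [Fintype Ω] (R : Setoid Ω) {f : Ω → ℝ} {a : ℝ}
    (h : ∀ z, |f z| ≤ a) (z : Ω) : |ce R f z| ≤ a :=
  (Kern.part fun _ => R).abs_ex_le 0 h z

theorem window_expect_le {Ω : Type} [Fintype Ω] {f : Ω → ℝ} {a : ℝ} (ha : 0 ≤ a)
    (h : ∀ z, f z ≤ a) : 𝔼 z, f z ≤ a := by
  rcases isEmpty_or_nonempty Ω with h0 | h0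
  · simpa using ha
  · exact expect_le univ_nonempty fun z _ => h z

variable {ι K Ω : Type} [Fintype ι] [DecidableEq ι] [Fintype K] [DecidableEq K] [Fintype Ω] {r : ℕ}

theorem energy_mono (S : FKS Ω r) (e : Expo r) (σ : Ω → ι → Bool) (z₀ : Ω) (κ Bm : ℕ)
    (u : (K → Bool) → ℝ) (k : ℕ → ℕ) (j : ℕ) : Monotone (energy S e σ z₀ κ Bm u k j) := by
  intro b b' hb
  refine S.ex_mono 0 (fun γ => FinLaw.E_mono _ fun Sl => window_ce_sq_mono ?_ _) z₀
  intro x y hxy l t ht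
  exact hxy l t (lt_of_lt_of_le ht hb)

theorem energy_bdd (S : FKS Ω r) (e : Expo r) (σ : Ω → ι → Bool) (z₀ : Ω) (κ Bm : ℕ)
    {u : (K → Bool) → ℝ} {C : ℝ} (hC : 0 ≤ C) (hu : ∀ x, |u x| ≤ C) (k : ℕ → ℕ) {j : ℕ}
    (hj : j ≤ r) (b : ℕ) :
    0 ≤ energy S e σ z₀ κ Bm u k j b ∧ energy S e σ z₀ κ Bm u k j b ≤ Real.exp (2 * C) := by
  refine ⟨S.ex_nonneg 0 (fun γ => FinLaw.E_nonneg _ fun Sl =>
    expect_nonneg fun lab _ => sq_nonneg _) z₀, ?_⟩
  rw [← S.ex_const 0 (Real.exp (2 * C)) z₀]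
  refine S.ex_mono 0 (fun γ => ?_) z₀
  rw [← FinLaw.E_const (FinLaw.pi fun _ : Fin Bm => slotLaw S.toKern r κ σ γ) (Real.exp (2 * C))]
  refine FinLaw.E_mono _ fun Sl => window_expect_le (Real.exp_pos _).le fun lab => ?_
  have h1 : Real.exp (2 * C) = Real.exp C ^ 2 := by rw [← Real.exp_nat_mul]; norm_num
  rw [h1]
  refine sq_le_sq' ?_ ?_ <;>
    [refine (abs_le.1 (window_abs_ce_le _ (fun lab' => ?_) lab)).1;
     refine (abs_le.1 (window_abs_ce_le _ (fun lab' => ?_) lab)).2] <;>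
  · rw [abs_of_pos (Real.exp_pos _), Real.exp_le_exp]
    have h2 : |Ylp e (σ γ) Sl (fun j' t => (t : ℕ) < k j') u (j + 1) lab'| ≤ C :=
      Kern.abs_lp_le _ e (fun _ => hu _) _ _
    have h3 := (e.pos hj).le
    have h4 := e.le_one (show j + 1 ≤ r + 1 by omega)
    have h5 := (abs_le.1 h2).2
    nlinarith

theorem energy_dep (S : FKS Ω r) (e : Expo r) (σ : Ω → ι → Bool) (z₀ : Ω) (κ Bm : ℕ)
    (u : (K → Bool) → ℝ) {k k' : ℕ → ℕ} {j : ℕ} (h : ∀ j', j < j' → j' ≤ r → k j' = k' j') :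
    energy S e σ z₀ κ Bm u k j = energy S e σ z₀ κ Bm u k' j := by
  have key : ∀ (s : ι → Bool) (Sl : Fin Bm → Slot (ι → Bool) κ r),
      Ylp e s Sl (fun j' t => (t : ℕ) < k j') u (j + 1) =
        Ylp e s Sl (fun j' t => (t : ℕ) < k' j') u (j + 1) := by
    intro s Sl
    refine window_lp_congr _ _ e _ (j + 1) fun i h1 h2 => ?_
    simp only [Kern.part, h i h1 h2]
  funext b
  simp only [energy, key]

end Crest.Agent.R141
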