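import Crest.Agent.R141.Tree
import Crest.Agent.R141.Sandwich
import Crest.Agent.R141.Sel
import Crest.Agent.R141.Window

/-!
# Row 141: the deeper reference trees may be grown with the tilted system

Recipe. `|cen| ≤ exp (2C₀) 2C₀` (`tau_le`). Fix `γ` and apply `sel` with `U = Slot`, `P = slotLaw S γ`,
`Pm lab = slotLaw₂ S (S.tilt v_lab) p γ`, `ρ lab τ = if P.w τ = 0 then 1 else (Pm lab).w τ / P.w τ`
(`slotLaw₂_le` both ways with `K = exp (2C₀)`, `tau_le`, `le_tau`, `slotLaw₂_self`; `pi_E_mix` gives `hP`, `hPm`),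
`a lab = psi … (σ γ) · lab`. For `emb`, `big` and an admissible `x`: `psi x - psi (big (·,0))` is at most
`(n/η) ∑_{i' ∈ {i,i+1}} |Ylp x - Ylp (big (·,0))|` (`abs_clip_sub_le`; the `Xhat` agree because `x 0 p = big (0,0) p`), and
`sandwich` applies with `F j = piRel K (colRel x ⊤ j)`, `F' j` the same for `big (·,0)`, `G j = piRel K (colRel big ⊤ j)`,
`F₀ j = piRel K (colRel big (fun t => ∃ u : Fin k₀, u < k j ∧ t = (emb u, 0)) j)`. So
`Δ lab big = (n/η) A ∑_{i'} ∑_j ce (F' p) |δ_j| lab`, `𝔼 lab Δ = (n/η) A ∑ 𝔼 |δ_j|` (`expect_ce`),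
`|δ| ≤ θ + δ²/θ`, `𝔼 δ_j² =` energy increment (`expect_sq_ce_sub`). Relabel: choose an injection
`inj : Fin (B+1) × Fin (Mx+1) → Fin Bm` with values `< b₂` and `inj (emb u, 0) = u` (`Equiv.Perm.exists_extending_pair`
applied to an injection into `Fin b₂`/`finProdFinEquiv`), `pi_E_restrict`; then `F₀ j` is `colRel Sl (· < k j) j` and
`G j` is coarser than `colRel Sl (· < b₂) j`. Finally average over `γ`.
-/

set_option autoImplicit false

namespace Crest.Agent.R141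

open Finset
open scoped BigOperators

section Xi1Aux
variable {r : ℕ}

theorem Xi1_lp_congr {Ω : Type} [Fintype Ω] (e : Expo r) {R R' : ℕ → Setoid Ω}
    (h : ∀ j ≤ r, R j = R' j) (v : Ω → ℝ) (j : ℕ) :
    (Kern.part R).lp e v j = (Kern.part R').lp e v j := by
  funext z
  have H : Kern.Hom r (Kern.part R) (Kern.part R') fun z => z := fun j hj f z => by
    rw [Kern.part_ex, Kern.part_ex, h j hj]
  exact H.lp e v j z

theorem Xi1_E_expect {S L : Type} [Fintype S] [Fintype L] [Nonempty L] (μ : FinLaw S)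
    (f : L → S → ℝ) : 𝔼 l, μ.E (f l) = μ.E fun s => 𝔼 l, f l s := by
  simp only [← FinLaw.unif_E]
  exact FinLaw.E_comm _ _ _

theorem Xi1_inj {B M k₀ b₂ Bm : ℕ} (emb : Fin k₀ ↪ Fin B) (h₁ : B * (M + 1) ≤ b₂) (h₂ : b₂ ≤ Bm) :
    ∃ inj : Fin B × Fin (M + 1) → Fin Bm, Function.Injective inj ∧ (∀ t, (inj t : ℕ) < b₂) ∧
      ∀ u, (inj (emb u, 0) : ℕ) = u := by
  have hk : k₀ ≤ B * (M + 1) := by
    have := Fintype.card_le_of_embedding emb
    simp only [Fintype.card_fin] at this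
    nlinarith
  obtain ⟨π, hπ⟩ := Equiv.Perm.exists_extending_pair
    (fun u : Fin k₀ => finProdFinEquiv (emb u, (0 : Fin (M + 1)))) (Fin.castLE hk)
    (fun u u' h => emb.injective (congrArg Prod.fst (finProdFinEquiv.injective h)))
    (Fin.castLE_injective hk)
  refine ⟨fun t => Fin.castLE (h₁.trans h₂) (π (finProdFinEquiv t)), ?_, fun t => ?_, fun u => ?_⟩
  · exact (Fin.castLE_injective _).comp (π.injective.comp finProdFinEquiv.injective)
  · exact (π (finProdFinEquiv t)).2.trans_le h₁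
  · simp [hπ]

theorem Xi1_abs_le {x θ : ℝ} (hθ : 0 < θ) : |x| ≤ θ + x ^ 2 / θ := by
  have h : 0 ≤ (|x| - θ) ^ 2 / θ := by positivity
  have h2 : (|x| - θ) ^ 2 / θ = x ^ 2 / θ - 2 * |x| + θ := by
    rw [← sq_abs x]; field_simp; ring
  have := abs_nonneg x
  linarith

variable {ι K : Type} [Fintype ι] [Fintype K] [DecidableEq K] {κ : ℕ}

omit [Fintype ι] [Fintype K] [DecidableEq K] in
theorem Xi1_piRel_mono {R R' : Setoid ι} (h : ∀ a b, R a b → R' a b) (z z' : K → ι)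
    (hz : piRel K R z z') : piRel K R' z z' := fun k => h _ _ (hz k)

/-- The captured energy for one family of slots. -/
noncomputable def Xi1_en (e : Expo r) (s : ι → Bool) {Bm : ℕ} (Sl : Fin Bm → Slot (ι → Bool) κ r)
    (u : (K → Bool) → ℝ) (k : ℕ → ℕ) (j b : ℕ) : ℝ :=
  𝔼 lab : K → ι, ce (piRel K (colRel Sl (fun t => (t : ℕ) < b) j))
    (fun lab' => Real.exp (e.m (j + 1) *
      Ylp e s Sl (fun j' t => (t : ℕ) < k j') u (j + 1) lab')) lab ^ 2

theorem Xi1_sq_le {Ω : Type} [Fintype Ω] {R R' : Setoid Ω} (h : ∀ a b, R' a b → R a b)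
    (f : Ω → ℝ) : 𝔼 z, ce R f z ^ 2 ≤ 𝔼 z, ce R' f z ^ 2 := by
  have h1 := expect_sq_ce_sub h f
  have h2 : 0 ≤ 𝔼 z, (ce R' f z - ce R f z) ^ 2 := Finset.expect_nonneg fun _ _ => sq_nonneg _
  linarith

theorem Xi1_en_mono (e : Expo r) (s : ι → Bool) {Bm : ℕ} (Sl : Fin Bm → Slot (ι → Bool) κ r)
    (u : (K → Bool) → ℝ) (k : ℕ → ℕ) (j : ℕ) {b b' : ℕ} (h : b ≤ b') :
    Xi1_en e s Sl u k j b ≤ Xi1_en e s Sl u k j b' := by
  unfold Xi1_en
  apply Xi1_sq_le
  apply Xi1_piRel_mono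
  exact fun _ _ H t ht => H t (lt_of_lt_of_le ht h)

/-- The partition given by the distinguished slots of a big family. -/
def Xi1_F₀ (K : Type) {B M k₀ : ℕ} (emb : Fin k₀ ↪ Fin B) (k : ℕ → ℕ)
    (big : Fin B × Fin (M + 1) → Slot (ι → Bool) κ r) (j : ℕ) : Setoid (K → ι) :=
  piRel K (colRel big (fun t => ∃ u : Fin k₀, (u : ℕ) < k j ∧ t = (emb u, 0)) j)

/-- The increments of the sandwich. -/
noncomputable def Xi1_δ (e : Expo r) (s : ι → Bool) (u : (K → Bool) → ℝ) {B M k₀ : ℕ}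
    (emb : Fin k₀ ↪ Fin B) (k : ℕ → ℕ) (big : Fin B × Fin (M + 1) → Slot (ι → Bool) κ r) (j : ℕ)
    (ω : K → ι) : ℝ :=
  ce (piRel K (colRel big (fun _ => True) j)) (fun a => Real.exp (e.m (j + 1) *
      (Kern.part (Xi1_F₀ K emb k big)).lp e (fun lab => u fun k => s (lab k)) (j + 1) a)) ω -
    ce (Xi1_F₀ K emb k big j) (fun a => Real.exp (e.m (j + 1) *
      (Kern.part (Xi1_F₀ K emb k big)).lp e (fun lab => u fun k => s (lab k)) (j + 1) a)) ω

theorem Xi1_δ_le [Nonempty ι] (e : Expo r) (s : ι → Bool) (u : (K → Bool) → ℝ) {B M k₀ b₂ Bm : ℕ}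
    (emb : Fin k₀ ↪ Fin B) (k : ℕ → ℕ) (hk : ∀ j ≤ r, k j ≤ k₀)
    (inj : Fin B × Fin (M + 1) → Fin Bm) (h₁ : ∀ t, (inj t : ℕ) < b₂)
    (h₂ : ∀ u, (inj (emb u, 0) : ℕ) = u) (Sl : Fin Bm → Slot (ι → Bool) κ r) {j : ℕ} (hj : j ≤ r)
    {θ : ℝ} (hθ : 0 < θ) :
    𝔼 ω, |Xi1_δ e s u emb k (fun t => Sl (inj t)) j ω| ≤
      θ + (Xi1_en e s Sl u k j b₂ - Xi1_en e s Sl u k j (k j)) / θ := by
  have hF : ∀ j ≤ r, Xi1_F₀ K emb k (fun t => Sl (inj t)) j =
      piRel K (colRel Sl (fun t => (t : ℕ) < k j) j) := by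
    intro j hj
    unfold Xi1_F₀
    congr 1
    ext a b
    constructor
    · intro H t ht j' hj'
      have h3 : t = inj (emb ⟨t, ht.trans_le (hk j hj)⟩, 0) := Fin.ext (h₂ ⟨t, ht.trans_le (hk j hj)⟩).symm
      rw [h3]
      exact H _ ⟨⟨t, ht.trans_le (hk j hj)⟩, ht, rfl⟩ j' hj'
    · rintro H t ⟨v, hv, rfl⟩ j' hj'
      exact H _ (lt_of_eq_of_lt (h₂ v) hv) j' hj'
  have hlp := Xi1_lp_congr e hF (fun lab => u fun k => s (lab k)) (j + 1)
  unfold Xi1_δ
  rw [hlp, hF j hj]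
  refine (Finset.expect_le_expect fun ω _ => Xi1_abs_le hθ).trans ?_
  rw [Finset.expect_add_distrib, Fintype.expect_const, ← Finset.expect_div, expect_sq_ce_sub]
  · refine add_le_add le_rfl (div_le_div_of_nonneg_right (sub_le_sub ?_ le_rfl) hθ.le)
    unfold Xi1_en
    apply Xi1_sq_le
    apply Xi1_piRel_mono
    exact fun _ _ H t _ => H (inj t) (h₁ t)
  · rw [← hF j hj]
    apply Xi1_piRel_mono
    exact fun _ _ H t _ => H t trivial

omit [Fintype K] [DecidableEq K] in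
theorem Xi1_scl_le {C₀ : ℝ} {u : (K → Bool) → ℝ} (hu : ∀ x, |u x| ≤ C₀) {n i : ℕ} (hi : i ≤ n)
    (x : K → Bool) : |scl n i u x| ≤ C₀ := by
  unfold scl
  rw [abs_mul, abs_of_nonneg (by positivity : (0 : ℝ) ≤ i / n)]
  have h1 : (i : ℝ) / n ≤ 1 := div_le_one_of_le₀ (by exact_mod_cast hi) (by positivity)
  have h2 := hu x
  have h3 := abs_nonneg (u x)
  have h4 : (0 : ℝ) ≤ i / n := by positivity
  nlinarith

theorem Xi1_psi_sub (e : Expo r) {η : ℝ} (hη : 0 < η) (n i : ℕ) (u : (K → Bool) → ℝ)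
    (p : Fin (r + 1)) {B : ℕ} (s : ι → Bool) (x y : Fin (B + 1) → Slot (ι → Bool) κ r)
    (h : x 0 p = y 0 p) (lab : K → ι) :
    |psi e η n i u p s x lab - psi e η n i u p s y lab| ≤
      n / η * ∑ i' ∈ ({i, i + 1} : Finset ℕ), |Ylp e s x (fun _ _ => True) (scl n i' u) p lab -
        Ylp e s y (fun _ _ => True) (scl n i' u) p lab| := by
  unfold psi
  refine (abs_clip_sub_le _ _).trans ?_
  have hX : ∀ w : (K → Bool) → ℝ, Xhat e (x 0) w p lab = Xhat e (y 0) w p lab := fun w => by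
    unfold Xhat; rw [h]
  rw [hX, hX, Finset.sum_pair (by omega)]
  set a := Ylp e s x (fun _ _ => True) (scl n (i + 1) u) p lab
  set b := Ylp e s x (fun _ _ => True) (scl n i u) p lab
  set a' := Ylp e s y (fun _ _ => True) (scl n (i + 1) u) p lab
  set b' := Ylp e s y (fun _ _ => True) (scl n i u) p lab
  set c := (n : ℝ) * (Xhat e (y 0) (scl n (i + 1) u) p lab - Xhat e (y 0) (scl n i u) p lab)
  have : (n * (a - b) - c) / η - (n * (a' - b') - c) / η = n / η * ((a - a') - (b - b')) := by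
    field_simp; ring
  rw [this, abs_mul, abs_of_nonneg (by positivity : (0 : ℝ) ≤ n / η)]
  refine mul_le_mul_of_nonneg_left ?_ (by positivity)
  have := abs_sub (a - a') (b - b')
  linarith

end Xi1Aux

theorem Xi1_fixed {r : ℕ} (e : Expo r) (C₀ : ℝ) : ∃ A : ℝ, 0 ≤ A ∧
    ∀ {ι K : Type} [Fintype ι] [DecidableEq ι] [Nonempty ι] [Fintype K] [DecidableEq K] {κ : ℕ}
      (P : FinLaw (Slot (ι → Bool) κ r)) (s : ι → Bool) (B Mx Bm b₂ k₀ : ℕ) (k : ℕ → ℕ)
      (η θ : ℝ) (n i : ℕ) (u : (K → Bool) → ℝ) (p : Fin (r + 1)),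
      0 < η → 0 < θ → i < n → (∀ x, |u x| ≤ C₀) → (∀ j ≤ r, k j ≤ k₀) → k₀ ≤ B + 1 →
      (B + 1) * (Mx + 1) ≤ b₂ → b₂ ≤ Bm → ∀ emb : Fin k₀ ↪ Fin (B + 1),
      ∃ Δ : (K → ι) → (Fin (B + 1) × Fin (Mx + 1) → Slot (ι → Bool) κ r) → ℝ,
        (∀ l big (x : Fin (B + 1) → Slot (ι → Bool) κ r),
          (∀ t, x t = big (t, 0) ∨ ∃ i, x t = Slot.mix p (big (t, 0)) (big (t, i))) →
          (∀ u, x (emb u) = big (emb u, 0)) →
          |psi e η n i u p s x l - psi e η n i u p s (fun t => big (t, 0)) l| ≤ Δ l big) ∧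
        𝔼 l, (FinLaw.pi fun _ : Fin (B + 1) × Fin (Mx + 1) => P).E (Δ l) ≤
          A * (n / η * ∑ j ∈ range (r + 1), ∑ i' ∈ ({i, i + 1} : Finset ℕ),
            (θ + ((FinLaw.pi fun _ : Fin Bm => P).E (fun Sl => Xi1_en e s Sl (scl n i' u) k j b₂) -
              (FinLaw.pi fun _ : Fin Bm => P).E
                (fun Sl => Xi1_en e s Sl (scl n i' u) k j (k j))) / θ)) := by
  obtain ⟨A, hA, hS⟩ := sandwich e C₀
  refine ⟨A, hA, ?_⟩
  intro ι K _ _ _ _ _ κ P s B Mx Bm b₂ k₀ k η θ n i u p hη hθ hi hu hk hk₀ hb hBm emb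
  have hp : (p : ℕ) ≤ r := Nat.lt_succ_iff.1 p.2
  refine ⟨fun l big => n / η * ∑ i' ∈ ({i, i + 1} : Finset ℕ), A * ∑ j ∈ Ioc (p : ℕ) r,
    ce (piRel K (colRel (fun t => big (t, 0)) (fun _ => True) p))
      (fun ω => |Xi1_δ e s (scl n i' u) emb k big j ω|) l, ?_, ?_⟩
  · intro l big x hx hemb
    have hle : ∀ t (j' : Fin (r + 1)), (j' : ℕ) ≤ p → x t j' = big (t, 0) j' := by
      intro t j' hj'
      rcases hx t with h | ⟨i, h⟩
      · rw [h]
      · rw [h, Slot.mix, if_pos hj']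
    have hall : ∀ t (j' : Fin (r + 1)), ∃ i, x t j' = big (t, i) j' := by
      intro t j'
      rcases hx t with h | ⟨i, h⟩
      · exact ⟨0, by rw [h]⟩
      · by_cases hj' : (j' : ℕ) ≤ p
        · exact ⟨0, hle t j' hj'⟩
        · exact ⟨i, by rw [h, Slot.mix, if_neg hj']⟩
    refine (Xi1_psi_sub e hη n i u p s x _ (hle 0 p le_rfl) l).trans ?_
    refine mul_le_mul_of_nonneg_left (sum_le_sum fun i' hi' => ?_) (by positivity)
    have hi'' : i' ≤ n := by
      simp only [mem_insert, mem_singleton] at hi'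
      omega
    rw [abs_sub_comm]
    refine hS (fun j => piRel K (colRel (fun t => big (t, 0)) (fun _ => True) j))
      (fun j => piRel K (colRel x (fun _ => True) j))
      (fun j => piRel K (colRel big (fun _ => True) j)) (Xi1_F₀ K emb k big) p hp ?_
      (fun j _ => Xi1_piRel_mono (colRel_refine _ _ j))
      (fun j _ => Xi1_piRel_mono (colRel_refine _ _ j)) (fun j _ _ a b => ⟨?_, ?_⟩)
      (fun j _ _ a b => ⟨?_, ?_⟩) _ (fun ω => Xi1_scl_le hu hi'' _) l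
    · show piRel K _ = piRel K _
      congr 1
      ext a b
      constructor
      · intro H t _ j' hj'
        rw [hle t j' hj']
        exact H t trivial j' hj'
      · intro H t _ j' hj'
        show Tr.map _ _ (big (t, 0) j') = Tr.map _ _ (big (t, 0) j')
        rw [← hle t j' hj']
        exact H t trivial j' hj'
    · refine Xi1_piRel_mono (fun _ _ H t _ => ?_) a b
      exact H (t, 0) trivial
    · refine Xi1_piRel_mono (fun _ _ H => ?_) a b
      rintro t ⟨v, -, rfl⟩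
      exact H (emb v) trivial
    · refine Xi1_piRel_mono (fun _ _ H t _ j' hj' => ?_) a b
      obtain ⟨i, h⟩ := hall t j'
      rw [h]
      exact H (t, i) trivial j' hj'
    · refine Xi1_piRel_mono (fun _ _ H => ?_) a b
      rintro t ⟨v, -, rfl⟩
      rw [← hemb v]
      exact H (emb v) trivial
  · obtain ⟨inj, hinj, h₁, h₂⟩ := Xi1_inj emb hb hBm
    rw [Xi1_E_expect, ← FinLaw.pi_E_restrict (fun _ : Fin Bm => P) inj hinj]
    have hR : A * (n / η * ∑ j ∈ range (r + 1), ∑ i' ∈ ({i, i + 1} : Finset ℕ),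
        (θ + ((FinLaw.pi fun _ : Fin Bm => P).E (fun Sl => Xi1_en e s Sl (scl n i' u) k j b₂) -
          (FinLaw.pi fun _ : Fin Bm => P).E
            (fun Sl => Xi1_en e s Sl (scl n i' u) k j (k j))) / θ)) =
        (FinLaw.pi fun _ : Fin Bm => P).E fun Sl => A * (n / η * ∑ j ∈ range (r + 1),
          ∑ i' ∈ ({i, i + 1} : Finset ℕ), (θ + θ⁻¹ * (Xi1_en e s Sl (scl n i' u) k j b₂ -
            Xi1_en e s Sl (scl n i' u) k j (k j)))) := by
      simp only [FinLaw.E_smul, FinLaw.E_sum, FinLaw.E_add, FinLaw.E_const, FinLaw.E_sub,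
        div_eq_inv_mul]
    rw [hR]
    refine FinLaw.E_mono _ fun Sl => ?_
    simp only [← Finset.mul_expect, Finset.expect_sum_comm, expect_ce]
    rw [← Finset.mul_sum, mul_left_comm, Finset.sum_comm]
    refine mul_le_mul_of_nonneg_left (mul_le_mul_of_nonneg_left ?_ (by positivity)) hA
    refine le_trans (sum_le_sum fun j hj => sum_le_sum fun i' _ =>
      Xi1_δ_le e s (scl n i' u) emb k hk inj h₁ h₂ Sl (mem_Ioc.1 hj).2 hθ) ?_
    simp only [div_eq_inv_mul]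
    refine sum_le_sum_of_subset_of_nonneg (fun j hj => mem_range.2 ?_) fun j hj _ =>
      sum_nonneg fun i' _ => ?_
    · have := (mem_Ioc.1 hj).2; omega
    · have h3 : k j ≤ b₂ := by
        have := hk j (Nat.lt_succ_iff.1 (mem_range.1 hj))
        nlinarith
      have := Xi1_en_mono e s Sl (scl n i' u) k j h3
      have h4 : 0 ≤ θ⁻¹ * (Xi1_en e s Sl (scl n i' u) k j b₂ -
        Xi1_en e s Sl (scl n i' u) k j (k j)) := mul_nonneg (by positivity) (by linarith)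
      linarith

theorem xi₁_sub_xi₂ {r : ℕ} (e : Expo r) {C₀ : ℝ} (hC : 1 ≤ C₀) : ∃ A : ℝ, 0 ≤ A ∧
    ∀ {Ω ι K : Type} [Fintype Ω] [Fintype ι] [DecidableEq ι] [Nonempty ι] [Fintype K]
      [DecidableEq K] (S : FKS Ω r) (σ : Ω → ι → Bool) (z₀ : Ω) (κ B Mx Bm b₂ k₀ : ℕ) (k : ℕ → ℕ)
      (η θ : ℝ) (n i : ℕ) (u : (K → Bool) → ℝ) (p : Fin (r + 1)),
      0 < η → 0 < θ → i < n → (∀ x, |u x| ≤ C₀) → (∀ j ≤ r, k j ≤ k₀) → k₀ ≤ B + 1 → 1 ≤ Mx →
      (B + 1) * (Mx + 1) ≤ b₂ → b₂ ≤ Bm →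
      𝔼 lab : K → ι, |xi₁ S e σ z₀ κ B η n i u p lab - xi₂ S e σ z₀ κ B η n i u p lab| ≤
        A * (n / η * (∑ j ∈ range (r + 1), ∑ i' ∈ ({i, i + 1} : Finset ℕ),
            (θ + (energy S e σ z₀ κ Bm (scl n i' u) k j b₂ -
              energy S e σ z₀ κ Bm (scl n i' u) k j (k j)) / θ)) +
          selErr (Real.exp (-(2 * C₀ * slotNodes κ r)) / 2) k₀ (B + 1) Mx) := by
  obtain ⟨A, hA, hfix⟩ := Xi1_fixed e C₀
  refine ⟨Real.exp (2 * C₀) * (2 * C₀) * (A + 1), by positivity, ?_⟩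
  intro Ω ι K _ _ _ _ _ _ S σ z₀ κ B Mx Bm b₂ k₀ k η θ n i u p hη hθ hi hu hk hk₀ hMx hb hBm
  set q := Real.exp (-(2 * C₀ * slotNodes κ r)) / 2 with hq
  have hkb : ∀ j ≤ r, k j ≤ b₂ := fun j hj => by
    have := hk j hj
    nlinarith
  have hv : ∀ (lab : K → ι) ω, |labE σ (scl n i u) lab ω| ≤ C₀ :=
    fun lab ω => Xi1_scl_le hu hi.le _
  have hcen : ∀ (lab : K → ι) γ, |cen S e σ n i u p lab γ| ≤ Real.exp (2 * C₀) * (2 * C₀) := by
    intro lab γ
    unfold cen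
    rw [abs_mul, abs_of_pos (S.tau_pos e _ _ _)]
    refine mul_le_mul (S.tau_le e (hv lab) _ _) ?_ (abs_nonneg _) (Real.exp_pos _).le
    have h1 : |labE σ u lab γ| ≤ C₀ := hu _
    have h2 := (S.tilt e (labE σ (scl n i u) lab)).abs_ex_le p (f := labE σ u lab)
      (fun ω => hu _) γ
    have := abs_sub (labE σ u lab γ) ((S.tilt e (labE σ (scl n i u) lab)).ex p (labE σ u lab) γ)
    linarith
  have hq0 : 0 < q := by positivity
  have hexp1 : Real.exp (-(2 * C₀ * slotNodes κ r)) ≤ 1 :=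
    Real.exp_le_one_iff.2 (neg_nonpos.2 (by positivity))
  have hq2 : q ≤ 1 / 2 := by rw [hq]; linarith
  have hsel0 : 0 ≤ selErr q k₀ (B + 1) Mx := by
    unfold selErr
    have : 0 ≤ 1 - q / 2 := by linarith
    positivity
  have hK1 : 1 ≤ Real.exp (2 * C₀) := Real.one_le_exp (by linarith)
  have hKN : Real.exp (2 * C₀) ^ slotNodes κ r * (2 * q) = 1 := by
    rw [hq, ← Real.exp_nat_mul, mul_div_cancel₀ _ (two_ne_zero), ← Real.exp_add]
    rw [← Real.exp_zero]; congr 1; ring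
  -- the bound for one point
  let δ : Ω → ℝ := fun γ => A * (n / η * ∑ j ∈ range (r + 1), ∑ i' ∈ ({i, i + 1} : Finset ℕ),
    (θ + ((FinLaw.pi fun _ : Fin Bm => slotLaw S.toKern r κ σ γ).E
        (fun Sl => Xi1_en e (σ γ) Sl (scl n i' u) k j b₂) -
      (FinLaw.pi fun _ : Fin Bm => slotLaw S.toKern r κ σ γ).E
        (fun Sl => Xi1_en e (σ γ) Sl (scl n i' u) k j (k j))) / θ))
  have hγ : ∀ γ, 𝔼 lab : K → ι, |(FinLaw.pi fun _ : Fin (B + 1) =>
      slotLaw₂ S.toKern (S.tilt e (labE σ (scl n i u) lab)).toKern r κ σ p γ).E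
        (fun Sl => psi e η n i u p (σ γ) Sl lab) -
      (FinLaw.pi fun _ : Fin (B + 1) => slotLaw S.toKern r κ σ γ).E
        (fun Sl => psi e η n i u p (σ γ) Sl lab)| ≤ δ γ + selErr q k₀ (B + 1) Mx := by
    intro γ
    set P := slotLaw S.toKern r κ σ γ with hP
    let Pm : (K → ι) → FinLaw (Slot (ι → Bool) κ r) := fun lab =>
      slotLaw₂ S.toKern (S.tilt e (labE σ (scl n i u) lab)).toKern r κ σ p γ
    have hself : ∀ j ≤ r, ∀ z ω, S.A j z ω ≤ Real.exp (2 * C₀) * S.A j z ω :=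
      fun j _ z ω => le_mul_of_one_le_left (S.nonneg j z ω) hK1
    have hup : ∀ lab τ, (Pm lab).w τ ≤ Real.exp (2 * C₀) ^ slotNodes κ r * P.w τ := by
      intro lab τ
      rw [hP, ← slotLaw₂_self S.toKern κ σ p γ]
      refine slotLaw₂_le hK1 hself (fun j _ z ω => ?_) κ σ p γ τ
      rw [mul_comm]
      exact mul_le_mul_of_nonneg_left (S.tau_le e (hv lab) j ω) (S.nonneg j z ω)
    have hdown : ∀ lab τ, P.w τ ≤ Real.exp (2 * C₀) ^ slotNodes κ r * (Pm lab).w τ := by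
      intro lab τ
      rw [hP, ← slotLaw₂_self S.toKern κ σ p γ]
      refine slotLaw₂_le hK1 hself (fun j _ z ω => ?_) κ σ p γ τ
      have h1 := S.le_tau e (hv lab) j ω
      have h2 : 1 ≤ Real.exp (2 * C₀) * S.tau e (labE σ (scl n i u) lab) j ω := by
        have := mul_le_mul_of_nonneg_left h1 (Real.exp_pos (2 * C₀)).le
        rwa [← Real.exp_add, add_neg_cancel, Real.exp_zero] at this
      have h3 := mul_le_mul_of_nonneg_left h2 (S.nonneg j z ω)
      show S.A j z ω ≤ Real.exp (2 * C₀) * (S.A j z ω * S.tau e (labE σ (scl n i u) lab) j ω)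
      linarith
    let ρ : (K → ι) → Slot (ι → Bool) κ r → ℝ := fun lab τ =>
      if P.w τ = 0 then 1 else (Pm lab).w τ / P.w τ
    have hρw : ∀ lab τ, P.w τ * ρ lab τ = (Pm lab).w τ := by
      intro lab τ
      by_cases h : P.w τ = 0
      · have h1 := hup lab τ
        rw [h, mul_zero] at h1
        rw [h, zero_mul]
        exact le_antisymm ((Pm lab).nonneg τ) h1
      · simp only [ρ, if_neg h]
        field_simp
    have hρE : ∀ lab (F : Slot (ι → Bool) κ r → ℝ), P.E (fun τ => ρ lab τ * F τ) = (Pm lab).E F :=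
      fun lab F => sum_congr rfl fun τ _ => by rw [← mul_assoc, hρw]
    refine sel P (Slot.mix p) Pm ρ hq0 hq2 (fun lab τ => ?_) (fun lab => ?_) (fun F => ?_)
      (fun lab F => ?_) (B + 1) Mx k₀ hMx (fun lab Sl => psi e η n i u p (σ γ) Sl lab)
      (fun lab x => abs_clip_le _) ?_
      (hfix P (σ γ) B Mx Bm b₂ k₀ k η θ n i u p hη hθ hi hu hk hk₀ hb hBm)
    · by_cases h : P.w τ = 0
      · simp only [ρ, if_pos h]
        refine ⟨by linarith, ?_⟩
        rw [le_div_iff₀ hq0]; linarith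
      · have hpos : 0 < P.w τ := lt_of_le_of_ne (P.nonneg τ) (Ne.symm h)
        simp only [ρ, if_neg h]
        have h1 := mul_le_mul_of_nonneg_right (hup lab τ) hq0.le
        have h2 := mul_le_mul_of_nonneg_right (hdown lab τ) hq0.le
        have h3 := (Pm lab).nonneg τ
        constructor
        · rw [le_div_iff₀ hpos]
          have : Real.exp (2 * C₀) ^ slotNodes κ r * (Pm lab).w τ * q = (Pm lab).w τ / 2 := by
            linear_combination ((Pm lab).w τ / 2) * hKN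
          linarith
        · rw [div_le_div_iff₀ hpos hq0]
          have : Real.exp (2 * C₀) ^ slotNodes κ r * P.w τ * q = P.w τ / 2 := by
            linear_combination (P.w τ / 2) * hKN
          linarith
    · have := hρE lab fun _ => 1
      simpa [FinLaw.E_const] using this
    · rw [hP, slotLaw, pi_E_mix]
      simp only [ite_self]
    · simp only [hρE]
      rw [hP, slotLaw]
      simp only [Pm, slotLaw₂]
      rw [pi_E_mix]
      congr 2
      funext j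
      split_ifs <;> rfl
    · refine mul_nonneg hA (mul_nonneg (by positivity) (sum_nonneg fun j hj =>
        sum_nonneg fun i' _ => add_nonneg hθ.le (div_nonneg (sub_nonneg.2 ?_) hθ.le)))
      exact FinLaw.E_mono _ fun Sl =>
        Xi1_en_mono e (σ γ) Sl (scl n i' u) k j (hkb j (Nat.lt_succ_iff.1 (mem_range.1 hj)))
  have hlab : ∀ lab : K → ι, |xi₁ S e σ z₀ κ B η n i u p lab - xi₂ S e σ z₀ κ B η n i u p lab| ≤
      (S.law 0 z₀).E fun γ => Real.exp (2 * C₀) * (2 * C₀) * |(FinLaw.pi fun _ : Fin (B + 1) =>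
        slotLaw₂ S.toKern (S.tilt e (labE σ (scl n i u) lab)).toKern r κ σ p γ).E
          (fun Sl => psi e η n i u p (σ γ) Sl lab) -
        (FinLaw.pi fun _ : Fin (B + 1) => slotLaw S.toKern r κ σ γ).E
          (fun Sl => psi e η n i u p (σ γ) Sl lab)| := by
    intro lab
    unfold xi₁ xi₂
    rw [← S.ex_sub]
    refine (S.abs_ex_le_ex_abs _ _ _).trans (S.ex_mono _ (fun γ => ?_) _)
    rw [FinLaw.pl_E_mul_const, FinLaw.pl_E_mul_const, ← sub_mul, abs_mul, abs_sub_comm, mul_comm]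
    exact mul_le_mul_of_nonneg_right (hcen lab γ) (abs_nonneg _)
  refine (Finset.expect_le_expect fun lab _ => hlab lab).trans ?_
  rw [Xi1_E_expect]
  simp only [← Finset.mul_expect]
  rw [FinLaw.E_smul, mul_assoc (Real.exp (2 * C₀) * (2 * C₀))]
  refine mul_le_mul_of_nonneg_left ?_ (by positivity)
  refine (FinLaw.E_mono _ hγ).trans ?_
  rw [FinLaw.E_add, FinLaw.E_const]
  have hδ : (S.law 0 z₀).E δ = A * (n / η * ∑ j ∈ range (r + 1), ∑ i' ∈ ({i, i + 1} : Finset ℕ),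
      (θ + (energy S e σ z₀ κ Bm (scl n i' u) k j b₂ -
        energy S e σ z₀ κ Bm (scl n i' u) k j (k j)) / θ)) := by
    simp only [δ, FinLaw.E_smul, FinLaw.E_sum, FinLaw.E_add, FinLaw.E_const, FinLaw.E_sub,
      div_eq_inv_mul]
    rfl
  rw [hδ]
  have h0 : 0 ≤ (n : ℝ) / η * ∑ j ∈ range (r + 1), ∑ i' ∈ ({i, i + 1} : Finset ℕ),
      (θ + (energy S e σ z₀ κ Bm (scl n i' u) k j b₂ -
        energy S e σ z₀ κ Bm (scl n i' u) k j (k j)) / θ) :=
    mul_nonneg (by positivity) (sum_nonneg fun j hj => sum_nonneg fun i' _ =>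
      add_nonneg hθ.le (div_nonneg (sub_nonneg.2 (energy_mono S e σ z₀ κ Bm _ k j
        (hkb j (Nat.lt_succ_iff.1 (mem_range.1 hj))))) hθ.le))
  nlinarith [mul_nonneg hA hsel0]

end Crest.Agent.R141
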