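import Crest.Agent.R141.Tree
import Crest.Agent.R141.Pert

/-!
# Row 141: the tilted system is the system with one more gadget

Recipe. `G = sys v ξ` on `Ω`, `y = labE sig (scl n i (w d)) lab`, `Gy = G.tilt e y`.
(1) On `Ω`: `G.A 0 z γ * tau p γ = Gy.A 0 z γ * ρ₁ γ` with `ρ₁ = tau p / tau 0 = exp (∑_j d j (lp y j - lp y (max j p)))`,
`Inv p`, `≤ exp (2C₀)`. `pi_slot_E_mix` splits the slots; with `Kq γ = pi (slotLE G γ)`, `Kq' γ = pi (slotLE Gy γ)`,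
`ρ₂ γ S = (Kq γ).w S / (Kq' γ).w S` (two-sided `slotLE_le`, `pi_w_le`; `x / 0 = 0`) satisfies `Kq = Kq' ρ₂`,
`ρ₂ ≤ exp (2C₀)^(slotNodes (B+1))`, mean `≤ 1`, invariant (`slotLE_inv`). So
`xi₂ = Gy.ex 0 (fun γ => (Kq' γ).E fun S => ρ γ S * psiBar Gy … γ S lab * (w - Gy.ex p w))`, `ρ = ρ₁ ρ₂`.
(2) `φ : Ω' → Ω` restricts along `Sum.map id (Sum.map g.succAbove (Prod.map g.succAbove id))`;
`G'' = (base ι (Fin (c+1)) r).tilt e (totEn ξ ∘ φ + y ∘ φ + log (1 + rd g * w/(2C₀)))`. Via `hom_split`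
(the coordinates of `φ`, and `inr (inl g)`), `tilt_ex_hom`, `tilt_prod_last_ex`, `tilt_tilt_ex`:
`G''.ex j (f ∘ φ) = Gy.ex j f ∘ φ` (a `Hom`) and `G''.ex j ((f ∘ φ) * rd g) = Gy.ex j (f * w/(2C₀)) ∘ φ`.
Trees: `slotLaw_hom`, `slotLE_hom` (`sig ω' = sig (φ ω')`). Hence `xi₂ = 2C₀ Φ(G'')`, `Φ` the functional of the
statement with `ρ ∘ φ`. (3) `G' = sys v ξ'` has the kernels of `G''.tilt e v₁`, `|v₁| ≤ r τ` (`Fin.sum_univ_succAbove`,
`tilt_tilt_kern`), so `G'.A ≤ exp (2rτ) G''.A` and conversely; `abs_E_sub_le_of_le` for each ingredient gives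
`|Φ(G') - Φ(G'')| ≤ c (exp (c r τ) - 1)`. The relation `G'.rel p` is mapped by `φ` into `G.rel p` (`pi_rel`, `lvl_rel`).
-/

set_option autoImplicit false

namespace Crest.Agent.R141

open Finset Crest.ProbabilityR.Diluted
open scoped BigOperators

/-! ### Abstract part -/

section Abs
variable {r : ℕ}

theorem x2a_rho1_eq {Ω : Type} [Fintype Ω] (G : FKS Ω r) (e : Expo r) (y : Ω → ℝ) (p : ℕ)
    (γ : Ω) : G.tau e y p γ / G.tau e y 0 γ =
      Real.exp (∑ i ∈ range (r + 1), e.d i * (G.lp e y i γ - G.lp e y (max i p) γ)) := by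
  unfold FKS.tau
  rw [← Real.exp_sub, ← sum_sub_distrib]
  congr 1
  refine sum_congr rfl fun i _ => ?_
  rw [max_eq_left (Nat.zero_le i)]
  ring

theorem x2a_rho1_inv {Ω : Type} [Fintype Ω] (G : FKS Ω r) (e : Expo r) (y : Ω → ℝ) {p : ℕ}
    (hp : p ≤ r) {γ γ' : Ω} (h : G.rel p γ γ') :
    G.tau e y p γ / G.tau e y 0 γ = G.tau e y p γ' / G.tau e y 0 γ' := by
  rw [x2a_rho1_eq, x2a_rho1_eq]
  congr 1
  refine sum_congr rfl fun i _ => ?_
  rcases le_total i p with hi | hi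
  · rw [max_eq_right hi, (G.inv_lp e y (hi.trans hp)).of_le hi γ γ' h, G.inv_lp e y hp γ γ' h]
  · rw [max_eq_left hi, sub_self, sub_self]

theorem x2a_rho1_nonneg {Ω : Type} [Fintype Ω] (G : FKS Ω r) (e : Expo r) (y : Ω → ℝ) (p : ℕ)
    (γ : Ω) : 0 ≤ G.tau e y p γ / G.tau e y 0 γ :=
  div_nonneg (G.tau_pos e y p γ).le (G.tau_pos e y 0 γ).le

theorem x2a_rho1_le {Ω : Type} [Fintype Ω] (G : FKS Ω r) (e : Expo r) {y : Ω → ℝ} {a : ℝ}
    (hy : ∀ ω, |y ω| ≤ a) (p : ℕ) (γ : Ω) :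
    G.tau e y p γ / G.tau e y 0 γ ≤ Real.exp (2 * a) := by
  rw [x2a_rho1_eq]
  refine Real.exp_le_exp.2 ?_
  calc ∑ i ∈ range (r + 1), e.d i * (G.lp e y i γ - G.lp e y (max i p) γ)
      ≤ ∑ i ∈ range (r + 1), e.d i * (2 * a) := by
        refine sum_le_sum fun i hi => ?_
        have hd := (e.d_pos (show i ≤ r by have := mem_range.1 hi; omega)).le
        refine mul_le_mul_of_nonneg_left ?_ hd
        have h1 := abs_le.1 (G.abs_lp_le e hy i γ)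
        have h2 := abs_le.1 (G.abs_lp_le e hy (max i p) γ)
        linarith [h1.2, h2.1]
    _ = 2 * a := by rw [← Finset.sum_mul, e.sum_d_top, one_mul]

theorem x2a_dens {S : Type} [Fintype S] {μ ν : FinLaw S} {M : ℝ} (h : ∀ s, μ.w s ≤ M * ν.w s)
    (s : S) : ν.w s * (μ.w s / ν.w s) = μ.w s := by
  by_cases h0 : ν.w s = 0
  · have h1 := h s
    rw [h0, mul_zero] at h1
    rw [h0, zero_mul]
    exact le_antisymm (μ.nonneg s) h1
  · field_simp

theorem x2a_dens_E {S : Type} [Fintype S] {μ ν : FinLaw S} {M : ℝ} (h : ∀ s, μ.w s ≤ M * ν.w s)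
    (c b : ℝ) (f : S → ℝ) :
    ν.E (fun s => c * (μ.w s / ν.w s) * f s * b) = c * μ.E f * b := by
  unfold FinLaw.E
  rw [Finset.mul_sum, Finset.sum_mul]
  refine sum_congr rfl fun s _ => ?_
  have := x2a_dens h s
  calc ν.w s * (c * (μ.w s / ν.w s) * f s * b) = c * (ν.w s * (μ.w s / ν.w s) * f s) * b := by ring
    _ = c * (μ.w s * f s) * b := by rw [this]

theorem x2a_dens_le {S : Type} [Fintype S] {μ ν : FinLaw S} {M : ℝ} (hM : 0 ≤ M)
    (h : ∀ s, μ.w s ≤ M * ν.w s) (s : S) : μ.w s / ν.w s ≤ M :=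
  div_le_of_le_mul₀ (ν.nonneg s) hM (h s)

theorem x2a_pi_le {S : Type} [Fintype S] {μ ν : FinLaw S} {M : ℝ} (h : ∀ s, μ.w s ≤ M * ν.w s)
    (m : ℕ) (x : Fin m → S) :
    (FinLaw.pi fun _ : Fin m => μ).w x ≤ M ^ m * (FinLaw.pi fun _ : Fin m => ν).w x := by
  have := FinLaw.pi_w_le (L := Fin m) (β := fun _ => S) (μ := fun _ => ν) (ν := fun _ => μ)
    (K := fun _ => M) (fun _ s => h s) x
  simpa using this

theorem x2a_abs_psiBar_le {Ω ι K : Type} [Fintype Ω] [Fintype ι] [DecidableEq ι] [Fintype K]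
    [DecidableEq K] (G : Kern Ω) (e : Expo r) (σ : Ω → ι → Bool) (κ B : ℕ) (η : ℝ) (n i : ℕ)
    (u : (K → Bool) → ℝ) (p : Fin (r + 1)) (γ : Ω) (Sl : Fin (B + 1) → Slot (ι → Bool) κ r)
    (lab : K → ι) : |psiBar G e σ κ B η n i u p γ Sl lab| ≤ 1 :=
  FinLaw.abs_E_le _ fun _ => abs_clip_le _

theorem x2a_abs {Ω Ω' ι K : Type} [Fintype Ω] [Fintype Ω'] [Fintype ι] [DecidableEq ι]
    [Fintype K] [DecidableEq K] (G : FKS Ω r) (e : Expo r) (σ : Ω → ι → Bool) (φ : Ω' → Ω)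
    (z₀ : Ω') (κ B : ℕ) (η : ℝ) (n i : ℕ) (u : (K → Bool) → ℝ) (p : Fin (r + 1)) (lab : K → ι)
    {C₀ : ℝ} (hC : 0 < C₀) (hy : ∀ ω, |labE σ (scl n i u) lab ω| ≤ C₀)
    (Gh G2 : Kern Ω') (G' : FKS Ω' r) (R : Ω' → ℝ) (hR : ∀ ω, |R ω| ≤ 1)
    (hh : Kern.Hom r Gh G.toKern φ)
    (h2 : Kern.Hom r G2 (G.tilt e (labE σ (scl n i u) lab)).toKern φ)
    (h2R : ∀ j ≤ r, ∀ (f : Ω → ℝ) (z : Ω'), G2.ex j (fun ω => f (φ ω) * R ω) z =
      (G.tilt e (labE σ (scl n i u) lab)).ex j (fun ω => f ω * (labE σ u lab ω / (2 * C₀))) (φ z))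
    (hrel : ∀ z z', G'.rel p z z' → G.rel p (φ z) (φ z'))
    {K₁ K₂ : ℝ} (hK₁ : 1 ≤ K₁) (hK₂ : 1 ≤ K₂)
    (hb₁ : ∀ j ≤ r, ∀ z ω, Gh.A j z ω ≤ K₁ * G'.A j z ω)
    (hb₂ : ∀ j ≤ r, ∀ z ω, G'.A j z ω ≤ K₂ * G2.A j z ω) :
    ∃ ρ : Ω' → (Fin (B + 1) → Slot (ι → Bool) κ r) → ℝ,
      (∀ z z', G'.rel p z z' → ρ z = ρ z') ∧
      (∀ z S, 0 ≤ ρ z S ∧ ρ z S ≤ Real.exp (2 * C₀) * (K₁ ^ slotNodes κ r) ^ (B + 1)) ∧
      (∀ z, (FinLaw.pi fun _ : Fin (B + 1) =>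
        slotLE G'.toKern r κ (fun ω => σ (φ ω)) p z).E (ρ z) ≤ Real.exp (2 * C₀)) ∧
      xi₂ G e σ (φ z₀) κ B η n i u p lab ≤
        2 * C₀ * G'.ex 0 (fun γ =>
          (FinLaw.pi fun _ : Fin (B + 1) => slotLE G'.toKern r κ (fun ω => σ (φ ω)) p γ).E fun S =>
            ρ γ S * psiBar G'.toKern e (fun ω => σ (φ ω)) κ B η n i u p γ S lab *
              (R γ - G'.ex p R γ)) z₀ +
          2 * C₀ * (Real.exp (2 * C₀) *
            (6 * (K₂ - 1) + 4 * ((K₂ ^ slotNodes κ r) ^ (B + 1) - 1))) := by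
  have hp : (p : ℕ) ≤ r := Nat.lt_succ_iff.1 p.2
  set y := labE σ (scl n i u) lab with hydef
  set Wf := labE σ u lab with hWdef
  set Gy := G.tilt e y with hGy
  set ρ₁ : Ω → ℝ := fun γ => G.tau e y p γ / G.tau e y 0 γ with hρ₁
  set Kq : Ω → FinLaw (Fin (B + 1) → Slot (ι → Bool) κ r) := fun γ =>
    FinLaw.pi fun _ : Fin (B + 1) => slotLE G.toKern r κ σ p γ with hKq
  set Kq' : Ω' → FinLaw (Fin (B + 1) → Slot (ι → Bool) κ r) := fun γ =>
    FinLaw.pi fun _ : Fin (B + 1) => slotLE G'.toKern r κ (fun ω => σ (φ ω)) p γ with hKq'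
  set E₀ := Real.exp (2 * C₀) with hE₀
  have hE₀0 : 0 ≤ E₀ := (Real.exp_pos _).le
  have hρ₁0 : ∀ γ, 0 ≤ ρ₁ γ := fun γ => x2a_rho1_nonneg G e y p γ
  have hρ₁1 : ∀ γ, ρ₁ γ ≤ E₀ := fun γ => x2a_rho1_le G e hy p γ
  have hdom : ∀ γ S, (Kq (φ γ)).w S ≤ (K₁ ^ slotNodes κ r) ^ (B + 1) * (Kq' γ).w S := by
    intro γ S
    refine x2a_pi_le (fun τ => ?_) (B + 1) S
    rw [← slotLE_hom hh κ σ p γ]
    exact slotLE_le hK₁ hb₁ κ _ p γ τ
  have hM₁ : 0 ≤ (K₁ ^ slotNodes κ r) ^ (B + 1) := by positivity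
  refine ⟨fun γ S => ρ₁ (φ γ) * ((Kq (φ γ)).w S / (Kq' γ).w S), ?_, ?_, ?_, ?_⟩
  · intro z z' h
    have a1 : ρ₁ (φ z) = ρ₁ (φ z') := x2a_rho1_inv G e y hp (hrel z z' h)
    have a2 : Kq (φ z) = Kq (φ z') := by
      simp only [hKq, slotLE_inv G κ σ (hrel z z' h)]
    have a3 : Kq' z = Kq' z' := by
      simp only [hKq', slotLE_inv G' κ (fun ω => σ (φ ω)) h]
    funext S
    simp only [a1, a2, a3]
  · intro z S
    have b1 : 0 ≤ (Kq (φ z)).w S / (Kq' z).w S :=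
      div_nonneg ((Kq (φ z)).nonneg S) ((Kq' z).nonneg S)
    exact ⟨mul_nonneg (hρ₁0 _) b1,
      mul_le_mul (hρ₁1 _) (x2a_dens_le hM₁ (hdom z) S) b1 hE₀0⟩
  · intro z
    have := x2a_dens_E (hdom z) (ρ₁ (φ z)) 1 fun _ => 1
    simp only [mul_one, FinLaw.E_const] at this
    exact this.le.trans (hρ₁1 _)
  · -- the functional on `Ω`
    set F : Ω → ℝ := fun γ => ρ₁ γ *
      (Kq γ).E fun S => psiBar Gy.toKern e σ κ B η n i u p γ S lab with hF
    set F' : Ω' → ℝ := fun γ => ρ₁ (φ γ) *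
      (Kq (φ γ)).E fun S => psiBar G'.toKern e (fun ω => σ (φ ω)) κ B η n i u p γ S lab with hF'
    have e1 : xi₂ G e σ (φ z₀) κ B η n i u p lab =
        Gy.ex 0 (fun γ => F γ * (Wf γ - Gy.ex p Wf γ)) (φ z₀) := by
      unfold xi₂
      rw [hGy, FKS.tilt_ex]
      congr 1
      funext γ
      rw [pi_slot_E_mix]
      simp only [FinLaw.pl_E_mul_const]
      have h0 := (G.tau_pos e y 0 γ).ne'
      change (Kq γ).E (fun S => psiBar Gy.toKern e σ κ B η n i u p γ S lab) *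
        (G.tau e y p γ * (Wf γ - Gy.ex p Wf γ)) = G.tau e y 0 γ * ((G.tau e y p γ / G.tau e y 0 γ *
          (Kq γ).E fun S => psiBar Gy.toKern e σ κ B η n i u p γ S lab) * (Wf γ - Gy.ex p Wf γ))
      field_simp
    have e2 : ∀ γ, G2.ex p R γ = Gy.ex p Wf (φ γ) / (2 * C₀) := by
      intro γ
      have := h2R p hp (fun _ => 1) γ
      simp only [one_mul] at this
      rw [this]
      have h3 : (fun ω => Wf ω / (2 * C₀)) = fun ω => (2 * C₀)⁻¹ * Wf ω := by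
        funext ω; rw [div_eq_inv_mul]
      rw [h3, Kern.ex_smul, div_eq_inv_mul]
    have e3 : 2 * C₀ * G2.ex 0 (fun γ => F (φ γ) * (R γ - G2.ex p R γ)) z₀ =
        Gy.ex 0 (fun γ => F γ * (Wf γ - Gy.ex p Wf γ)) (φ z₀) := by
      simp only [mul_sub, e2]
      rw [Kern.ex_sub, h2R 0 (Nat.zero_le r) F z₀,
        h2 0 (Nat.zero_le r) (fun γ => F γ * (Gy.ex p Wf γ / (2 * C₀))) z₀, Kern.ex_sub, mul_sub,
        ← Kern.ex_smul, ← Kern.ex_smul]
      congr 2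
      · funext ω; field_simp
      · funext ω; field_simp
    have e4 : G'.ex 0 (fun γ => (Kq' γ).E fun S =>
        ρ₁ (φ γ) * ((Kq (φ γ)).w S / (Kq' γ).w S) *
          psiBar G'.toKern e (fun ω => σ (φ ω)) κ B η n i u p γ S lab * (R γ - G'.ex p R γ)) z₀ =
        G'.ex 0 (fun γ => F' γ * (R γ - G'.ex p R γ)) z₀ := by
      congr 1
      funext γ
      exact x2a_dens_E (hdom γ) _ _ _
    set M₂ := (K₂ ^ slotNodes κ r) ^ (B + 1) with hM₂
    have hM₂1 : 1 ≤ M₂ := one_le_pow₀ (one_le_pow₀ hK₂)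
    have c1 : ∀ γ, |F' γ| ≤ E₀ := by
      intro γ
      rw [hF', abs_mul, abs_of_nonneg (hρ₁0 _)]
      have := (Kq (φ γ)).abs_E_le fun S =>
        x2a_abs_psiBar_le G'.toKern e (fun ω => σ (φ ω)) κ B η n i u p γ S lab
      calc _ ≤ E₀ * 1 := mul_le_mul (hρ₁1 _) this (abs_nonneg _) hE₀0
        _ = E₀ := mul_one _
    have c1' : ∀ γ, |F γ| ≤ E₀ := by
      intro γ
      rw [hF, abs_mul, abs_of_nonneg (hρ₁0 _)]
      have := (Kq γ).abs_E_le fun S => x2a_abs_psiBar_le Gy.toKern e σ κ B η n i u p γ S lab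
      calc _ ≤ E₀ * 1 := mul_le_mul (hρ₁1 _) this (abs_nonneg _) hE₀0
        _ = E₀ := mul_one _
    have c2 : ∀ γ, |F' γ - F (φ γ)| ≤ E₀ * (2 * (M₂ - 1)) := by
      intro γ
      rw [hF', hF]
      simp only
      rw [← mul_sub, ← FinLaw.E_sub, abs_mul, abs_of_nonneg (hρ₁0 _)]
      refine mul_le_mul (hρ₁1 _) ((Kq (φ γ)).abs_E_le fun S => ?_) (abs_nonneg _) hE₀0
      unfold psiBar
      rw [← slotLaw_hom h2 κ σ γ]
      have := FinLaw.abs_E_sub_le_of_le (a := 1)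
        (f := fun Sl' : Fin (B + 1) → Slot (ι → Bool) κ r =>
          psi e η n i u p (σ (φ γ)) (fun t => Slot.mix p (S t) (Sl' t)) lab)
        (x2a_pi_le (fun τ => slotLaw_le hK₂ hb₂ κ (fun ω => σ (φ ω)) γ τ) (B + 1))
        fun _ => abs_clip_le _
      rw [mul_one] at this
      exact this
    have c3 : ∀ γ, |R γ - G'.ex p R γ| ≤ 2 := by
      intro γ
      have h1 := abs_sub (R γ) (G'.ex p R γ)
      have h2 := G'.abs_ex_le p hR γ
      linarith [hR γ]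
    have c4 : ∀ γ, |G'.ex p R γ - G2.ex p R γ| ≤ 2 * (K₂ - 1) := by
      intro γ
      have := FinLaw.abs_E_sub_le_of_le (μ := G2.law p γ) (ν := G'.law p γ) (hb₂ p hp γ) hR
      rw [mul_one] at this
      exact this
    have c5 : |G'.ex 0 (fun γ => F' γ * (R γ - G'.ex p R γ)) z₀ -
        G2.ex 0 (fun γ => F' γ * (R γ - G'.ex p R γ)) z₀| ≤ 2 * (K₂ - 1) * (E₀ * 2) :=
      FinLaw.abs_E_sub_le_of_le (μ := G2.law 0 z₀) (ν := G'.law 0 z₀) (hb₂ 0 (Nat.zero_le r) z₀)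
        fun γ => by
          rw [abs_mul]
          exact mul_le_mul (c1 γ) (c3 γ) (abs_nonneg _) hE₀0
    have c6 : G2.ex 0 (fun γ => F (φ γ) * (R γ - G2.ex p R γ)) z₀ ≤
        G2.ex 0 (fun γ => F' γ * (R γ - G'.ex p R γ) +
          (E₀ * (2 * (M₂ - 1)) * 2 + E₀ * (2 * (K₂ - 1)))) z₀ := by
      refine G2.ex_mono 0 (fun γ => ?_) z₀
      have d1 : F (φ γ) * (R γ - G2.ex p R γ) - F' γ * (R γ - G'.ex p R γ) =
          -((F' γ - F (φ γ)) * (R γ - G'.ex p R γ)) + F (φ γ) * (G'.ex p R γ - G2.ex p R γ) := by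
        ring
      have d2 : |(F' γ - F (φ γ)) * (R γ - G'.ex p R γ)| ≤ E₀ * (2 * (M₂ - 1)) * 2 := by
        rw [abs_mul]
        exact mul_le_mul (c2 γ) (c3 γ) (abs_nonneg _) ((abs_nonneg _).trans (c2 γ))
      have d3 : |F (φ γ) * (G'.ex p R γ - G2.ex p R γ)| ≤ E₀ * (2 * (K₂ - 1)) := by
        rw [abs_mul]
        exact mul_le_mul (c1' _) (c4 γ) (abs_nonneg _) hE₀0
      linarith [(abs_le.1 d2).1, (abs_le.1 d3).2]
    rw [Kern.ex_add, Kern.ex_const] at c6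
    have c7 := (abs_le.1 c5).1
    change xi₂ G e σ (φ z₀) κ B η n i u p lab ≤ 2 * C₀ * G'.ex 0 (fun γ => (Kq' γ).E fun S =>
        ρ₁ (φ γ) * ((Kq (φ γ)).w S / (Kq' γ).w S) *
          psiBar G'.toKern e (fun ω => σ (φ ω)) κ B η n i u p γ S lab *
            (R γ - G'.ex p R γ)) z₀ + _
    rw [e4, e1, ← e3, ← mul_add]
    refine mul_le_mul_of_nonneg_left ?_ (by linarith)
    linarith

end Abs

/-! ### The concrete systems -/

section Conc
variable {r : ℕ} {ι : Type} {c : ℕ}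

/-- The coordinates of the system without gadget `g`. -/
def x2aEmb (g : Fin (c + 1)) : Co ι (Fin c) r → Co ι (Fin (c + 1)) r
  | Sum.inl i => Sum.inl i
  | Sum.inr (Sum.inl a) => Sum.inr (Sum.inl (g.succAbove a))
  | Sum.inr (Sum.inr x) => Sum.inr (Sum.inr (g.succAbove x.1, x.2))

theorem x2aEmb_inj (g : Fin (c + 1)) : Function.Injective (x2aEmb (ι := ι) (r := r) g) := by
  rintro (a | a | ⟨a, a'⟩) (b | b | ⟨b, b'⟩) h <;>
    simp_all [x2aEmb]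

theorem x2aEmb_lev (g : Fin (c + 1)) (l : Co ι (Fin c) r) : (x2aEmb g l).lev = l.lev := by
  rcases l with a | a | a <;> rfl

theorem x2aEmb_ne (g : Fin (c + 1)) (l : Co ι (Fin c) r) :
    x2aEmb g l ≠ Sum.inr (Sum.inl g) := by
  rcases l with a | a | a <;> simp [x2aEmb]

/-- Restriction to the coordinates without gadget `g`. -/
def x2aPhi (g : Fin (c + 1)) (ω : Co ι (Fin (c + 1)) r → Bool) : Co ι (Fin c) r → Bool :=
  fun l => ω (x2aEmb g l)

variable [Fintype ι] [DecidableEq ι]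

theorem x2a_hom_base (g : Fin (c + 1)) :
    Kern.Hom r (base ι (Fin (c + 1)) r).toKern (base ι (Fin c) r).toKern (x2aPhi g) := by
  have := Kern.hom_restrict (r := r)
    (fun l : Co ι (Fin (c + 1)) r => (FKS.lvl Bool r l.lev).toKern) (x2aEmb g) (x2aEmb_inj g)
  simp only [x2aEmb_lev] at this
  exact this

theorem x2a_base_rd (g : Fin (c + 1)) {j : ℕ} (hj : j ≤ r) (h : (Co ι (Fin c) r → Bool) → ℝ)
    (z : Co ι (Fin (c + 1)) r → Bool) :
    (base ι (Fin (c + 1)) r).ex j (fun ω => h (x2aPhi g ω) * rd ω g) z = 0 := by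
  have h1 := FinLaw.pi_E_update (β := fun _ : Co ι (Fin (c + 1)) r => Bool)
    (fun l => (FKS.lvl Bool r l.lev).law j (z l)) (Sum.inr (Sum.inl g))
    fun ω => h (x2aPhi g ω) * rd ω g
  refine Eq.trans h1 ?_
  have h2 : ∀ x : Co ι (Fin (c + 1)) r → Bool,
      (((FKS.lvl Bool r (Co.lev (Sum.inr (Sum.inl g) : Co ι (Fin (c + 1)) r))).law j
        (z (Sum.inr (Sum.inl g)))).E fun a =>
        h (x2aPhi g (Function.update x (Sum.inr (Sum.inl g)) a)) *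
          rd (Function.update x (Sum.inr (Sum.inl g)) a) g) = 0 := by
    intro x
    have h3 : ∀ a, x2aPhi g (Function.update x (Sum.inr (Sum.inl g)) a) = x2aPhi g x := by
      intro a
      funext l
      exact Function.update_of_ne (x2aEmb_ne g l) _ _
    have h4 : ∀ a, rd (Function.update x (Sum.inr (Sum.inl g)) a) g = spinVal a := by
      intro a
      unfold rd
      rw [Function.update_self]
    have h5 : ∀ a, (FKS.lvl Bool r (Co.lev (Sum.inr (Sum.inl g) : Co ι (Fin (c + 1)) r))).A j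
        (z (Sum.inr (Sum.inl g))) a = (Fintype.card Bool : ℝ)⁻¹ := fun a =>
      FKS.lvl_A_of_lt Bool r (Nat.lt_succ_of_le hj) _ _
    simp only [h3, h4, FinLaw.E, Kern.law, h5]
    simp [spinVal]
  simp only [h2, FinLaw.E_const]

theorem x2a_tilt_rd (e : Expo r) (g : Fin (c + 1)) (V : (Co ι (Fin c) r → Bool) → ℝ) {j : ℕ}
    (hj : j ≤ r) (h : (Co ι (Fin c) r → Bool) → ℝ) (z : Co ι (Fin (c + 1)) r → Bool) :
    ((base ι (Fin (c + 1)) r).tilt e fun ω => V (x2aPhi g ω)).ex j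
      (fun ω => h (x2aPhi g ω) * rd ω g) z = 0 := by
  rw [FKS.tilt_ex]
  have h1 : ∀ ω, (base ι (Fin (c + 1)) r).tau e (fun ω => V (x2aPhi g ω)) j ω =
      (base ι (Fin c) r).tau e V j (x2aPhi g ω) := by
    intro ω
    unfold FKS.tau
    simp only [(x2a_hom_base g).lp e V]
  simp only [h1, ← mul_assoc]
  exact x2a_base_rd g hj (fun ω => (base ι (Fin c) r).tau e V j ω * h ω) z

end Conc

theorem x2a_rd_sq {ι C : Type} {r : ℕ} (ω : Co ι C r → Bool) (g : C) : rd ω g * rd ω g = 1 := by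
  unfold rd spinVal
  split_ifs <;> norm_num

theorem x2a_abs_spinVal (b : Bool) : |spinVal b| = 1 := by
  unfold spinVal
  split_ifs <;> norm_num

/-- Tilting by `log (1 + R X)` when `R X` is centred at all levels. -/
theorem x2a_tau_log {Ω : Type} [Fintype Ω] {r : ℕ} (S : FKS Ω r) (e : Expo r) {q : Ω → ℝ}
    (hq : ∀ ω, 0 < 1 + q ω) (h0 : ∀ z, S.ex r q z = 0) {j : ℕ} (hj : j ≤ r) (ω : Ω) :
    S.tau e (fun ω => Real.log (1 + q ω)) j ω = 1 + q ω := by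
  have hlp : ∀ i, i ≤ r → ∀ z, S.lp e (fun ω => Real.log (1 + q ω)) i z = 0 := by
    intro i
    induction i using down_ind (r := r) with
    | top i hi => intro h; omega
    | step i _ ih =>
      intro hi z
      rw [S.lp_succ e _ hi]
      by_cases h : i = r
      · subst h
        rw [S.lp_top e _ le_rfl]
        simp only [e.top, one_mul, Real.exp_log (hq _)]
        rw [S.ex_add, S.ex_const, h0]
        simp
      · simp only [ih (by omega), mul_zero, Real.exp_zero, S.ex_const, Real.log_one]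
  unfold FKS.tau
  rw [sum_congr rfl fun i hi => by
    rw [hlp (max i j) (max_le (Nat.lt_succ_iff.1 (mem_range.1 hi)) hj), sub_zero],
    ← Finset.sum_mul, e.sum_d_top, one_mul, Real.exp_log (hq ω)]

theorem x2a_small (a b : ℝ) (r N m : ℕ) {θ : ℝ} (hθ : 0 < θ) :
    ∃ τ₀ : ℝ, 0 < τ₀ ∧ τ₀ ≤ 1 ∧ ∀ τ : ℝ, 0 ≤ τ → τ ≤ τ₀ →
      a * (b * (6 * (Real.exp (2 * (r * τ)) - 1) +
        4 * ((Real.exp (2 * (r * τ)) ^ N) ^ m - 1))) ≤ θ := by
  have hc : Continuous fun τ : ℝ => a * (b * (6 * (Real.exp (2 * (r * τ)) - 1) +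
      4 * ((Real.exp (2 * (r * τ)) ^ N) ^ m - 1))) := by fun_prop
  obtain ⟨δ, hδ, h⟩ := Metric.continuousAt_iff.1 (hc.continuousAt (x := 0)) θ hθ
  refine ⟨min 1 (δ / 2), lt_min one_pos (by linarith), min_le_left _ _, fun τ h0 h1 => ?_⟩
  have h2 : dist τ 0 < δ := by
    rw [Real.dist_eq, sub_zero, abs_of_nonneg h0]
    have := h1.trans (min_le_right _ _)
    linarith
  have h3 := h h2
  rw [Real.dist_eq] at h3
  simp only [mul_zero, Real.exp_zero, one_pow, sub_self, add_zero, sub_zero] at h3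
  exact (le_abs_self _).trans h3.le

theorem xi₂_transfer {r : ℕ} (e : Expo r) {C₀ : ℝ} (hC : 1 ≤ C₀) (κ B : ℕ) {θ : ℝ} (hθ : 0 < θ) :
    ∃ C₂ τ₀ : ℝ, 0 ≤ C₂ ∧ 0 < τ₀ ∧ ∀ τ : ℝ, 0 ≤ τ → τ ≤ τ₀ →
    ∀ {W K ι : Type} [Fintype K] [DecidableEq K] [Fintype ι] [DecidableEq ι]
      (w : W → (K → Bool) → ℝ), (∀ d x, |w d x| ≤ C₀) → ∀ (n c : ℕ) (v : (ι → Bool) → ℝ)
      (ξ : Fin c → Gd W K ι n) (g : Fin (c + 1)) (d : W) (i : Fin n) (lab : K → ι)
      (p : Fin (r + 1)) (η : ℝ) (G' : FKS (Co ι (Fin (c + 1)) r → Bool) r),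
      G' = sys e w C₀ τ v (Fin.insertNth g ((d, i), lab) ξ : Fin (c + 1) → Gd W K ι n) →
      ∃ ρ : (Co ι (Fin (c + 1)) r → Bool) → (Fin (B + 1) → Slot (ι → Bool) κ r) → ℝ,
        (∀ z z', G'.rel p z z' → ρ z = ρ z') ∧ (∀ z S, 0 ≤ ρ z S ∧ ρ z S ≤ C₂) ∧
        (∀ z, (FinLaw.pi fun _ : Fin (B + 1) => slotLE G'.toKern r κ sig p z).E (ρ z) ≤
          2 * Real.exp (2 * C₀)) ∧
        xi₂ (sys e w C₀ τ v ξ) e sig root κ B η n i (w d) p lab ≤
          2 * C₀ * G'.ex 0 (fun γ =>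
            (FinLaw.pi fun _ : Fin (B + 1) => slotLE G'.toKern r κ sig p γ).E fun S =>
              ρ γ S * psiBar G'.toKern e sig κ B η n i (w d) p γ S lab *
                (rd γ g - G'.ex p (fun a => rd a g) γ)) root + θ := by
  obtain ⟨τ₀, hτ₀, hτ₀1, hsmall⟩ :=
    x2a_small (2 * C₀) (Real.exp (2 * C₀)) r (slotNodes κ r) (B + 1) hθ
  refine ⟨Real.exp (2 * C₀) * (Real.exp (2 * (C₀ + 1 + r)) ^ slotNodes κ r) ^ (B + 1), τ₀,
    by positivity, hτ₀, ?_⟩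
  intro τ hτ0 hτ1 W K ι _ _ _ _ w hw n c v ξ g d i lab p η G' hG'
  have hC0 : 0 < C₀ := by linarith
  have hr0 : (0 : ℝ) ≤ r := Nat.cast_nonneg r
  set φ : (Co ι (Fin (c + 1)) r → Bool) → Co ι (Fin c) r → Bool := x2aPhi g with hφ
  set T := totEn (r := r) w C₀ τ v ξ with hT
  set y : (Co ι (Fin c) r → Bool) → ℝ := labE sig (scl n i (w d)) lab with hy
  set X : (Co ι (Fin c) r → Bool) → ℝ := fun ω => labE sig (w d) lab ω / (2 * C₀) with hX
  set v₁ : (Co ι (Fin (c + 1)) r → Bool) → ℝ := fun ω =>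
    τ * ∑ j : Fin r, spinVal (ω (Sum.inr (Sum.inr (g, j)))) * rd ω g with hv₁
  set b' := base ι (Fin (c + 1)) r with hb'
  have htot : ∀ ω, totEn w C₀ τ v
      (Fin.insertNth g ((d, i), lab) ξ : Fin (c + 1) → Gd W K ι n) ω =
      T (φ ω) + gEn w C₀ τ ((d, i), lab) g ω := by
    intro ω
    unfold totEn
    rw [Fin.sum_univ_succAbove _ g]
    simp only [Fin.insertNth_apply_same, Fin.insertNth_apply_succAbove]
    have : T (φ ω) = v (sig ω) + ∑ a : Fin c, gEn w C₀ τ (ξ a) (g.succAbove a) ω := rfl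
    rw [this]
    ring
  have hgEn : ∀ ω, gEn w C₀ τ (((d, i), lab) : Gd W K ι n) g ω =
      y (φ ω) + Real.log (1 + X (φ ω) * rd ω g) + v₁ ω := by
    intro ω
    have : X (φ ω) * rd ω g = rd ω g * w d (fun k => sig ω (lab k)) / (2 * C₀) := by
      change w d (fun k => sig ω (lab k)) / (2 * C₀) * rd ω g = _
      ring
    rw [this]
    rfl
  have hRabs : ∀ ω : Co ι (Fin (c + 1)) r → Bool, |rd ω g| ≤ 1 := fun ω =>
    (x2a_abs_spinVal _).le
  have hXabs : ∀ ω, |X ω| ≤ 1 / 2 := by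
    intro ω
    rw [hX]
    simp only
    rw [abs_div, abs_of_pos (by linarith : 0 < 2 * C₀), div_le_iff₀ (by linarith)]
    have : |labE sig (w d) lab ω| ≤ C₀ := hw d _
    linarith
  have hq : ∀ ω, 0 < 1 + X (φ ω) * rd ω g := by
    intro ω
    have : |X (φ ω) * rd ω g| ≤ 1 / 2 := by
      rw [abs_mul]
      calc _ ≤ 1 / 2 * 1 := mul_le_mul (hXabs _) (hRabs _) (abs_nonneg _) (by norm_num)
        _ = 1 / 2 := mul_one _
    linarith [(abs_le.1 this).1]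
  have hyabs : ∀ ω, |y ω| ≤ C₀ := by
    intro ω
    change |((i : ℕ) : ℝ) / n * w d fun k => sig ω (lab k)| ≤ C₀
    have hi : ((i : ℕ) : ℝ) / n ≤ 1 :=
      div_le_one_of_le₀ (by exact_mod_cast i.2.le) (Nat.cast_nonneg _)
    have hi0 : (0 : ℝ) ≤ ((i : ℕ) : ℝ) / n := by positivity
    rw [abs_mul, abs_of_nonneg hi0]
    calc _ ≤ 1 * C₀ := mul_le_mul hi (hw d _) (abs_nonneg _) zero_le_one
      _ = C₀ := one_mul _
  have hv₁abs : ∀ ω, |v₁ ω| ≤ r * τ := by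
    intro ω
    rw [hv₁]
    simp only
    rw [abs_mul, abs_of_nonneg hτ0, mul_comm]
    refine mul_le_mul_of_nonneg_right ((abs_sum_le_sum_abs _ _).trans ?_) hτ0
    have : ∀ j : Fin r, |spinVal (ω (Sum.inr (Sum.inr (g, j)))) * rd ω g| ≤ 1 := fun j => by
      rw [abs_mul, x2a_abs_spinVal, one_mul]; exact hRabs ω
    calc _ ≤ ∑ _j : Fin r, (1 : ℝ) := sum_le_sum fun j _ => this j
      _ = r := by simp
  set Gh := b'.tilt e fun ω => T (φ ω) with hGh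
  set Gy := b'.tilt e fun ω => (fun ω => T ω + y ω) (φ ω) with hGy
  set G2 := Gy.tilt e fun ω => Real.log (1 + X (φ ω) * rd ω g) with hG2
  have hGyhom : Kern.Hom r Gy.toKern ((sys e w C₀ τ v ξ).tilt e y).toKern φ := by
    have := FKS.tilt_hom (x2a_hom_base (ι := ι) (r := r) g) e fun ω => T ω + y ω
    rw [← FKS.tilt_tilt_kern (base ι (Fin c) r)] at this
    exact this
  have hGy0 : ∀ j ≤ r, ∀ (h : (Co ι (Fin c) r → Bool) → ℝ) z,
      Gy.ex j (fun ω => h (φ ω) * rd ω g) z = 0 := fun j hj h z =>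
    x2a_tilt_rd e g (fun ω => T ω + y ω) hj h z
  have hG2ex : ∀ j ≤ r, ∀ f z, G2.ex j f z =
      Gy.ex j (fun ω => (1 + X (φ ω) * rd ω g) * f ω) z := by
    intro j hj f z
    rw [hG2, FKS.tilt_ex]
    simp only [x2a_tau_log Gy e hq (hGy0 r le_rfl X) hj]
  have hA1 : ∀ j z ω, G'.A j z ω = Gh.A j z ω * Gh.tau e (gEn w C₀ τ ((d, i), lab) g) j ω := by
    intro j z ω
    rw [← FKS.tilt_A, hGh, FKS.tilt_tilt_A, hG']
    unfold sys
    congr 3
    funext ω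
    exact htot ω
  have hA2 : ∀ j z ω, G'.A j z ω = G2.A j z ω * G2.tau e v₁ j ω := by
    intro j z ω
    rw [← FKS.tilt_A, hG2, FKS.tilt_tilt_A, hGy, FKS.tilt_tilt_A, hG']
    unfold sys
    congr 3
    funext ω
    rw [htot, hgEn]
    ring
  obtain ⟨ρ, h1, h2, h3, h4⟩ := x2a_abs (sys e w C₀ τ v ξ) e sig φ root κ B η n i (w d) p lab hC0
    hyabs Gh.toKern G2.toKern G' (fun ω => rd ω g) hRabs
    (FKS.tilt_hom (x2a_hom_base (ι := ι) (r := r) g) e T)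
    (fun j hj f z => by
      rw [hG2ex j hj, ← hGyhom j hj f z]
      have : (fun ω => (1 + X (φ ω) * rd ω g) * f (φ ω)) =
          fun ω => f (φ ω) + (fun ω => X ω * f ω) (φ ω) * rd ω g := by
        funext ω; ring
      rw [this, Kern.ex_add, hGy0 j hj (fun ω => X ω * f ω), add_zero])
    (fun j hj f z => by
      rw [hG2ex j hj, ← hGyhom j hj (fun ω => f ω * X ω) z]
      have : (fun ω => (1 + X (φ ω) * rd ω g) * (f (φ ω) * rd ω g)) =
          fun ω => f (φ ω) * X (φ ω) + f (φ ω) * rd ω g := by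
        funext ω
        linear_combination (f (φ ω) * X (φ ω)) * x2a_rd_sq ω g
      rw [this, Kern.ex_add, hGy0 j hj, add_zero])
    (fun z z' h l => by
      rw [hG'] at h
      have h5 := (FKS.lvl_rel Bool r _ _ _ _).1 (h (x2aEmb g l))
      rw [x2aEmb_lev] at h5
      exact (FKS.lvl_rel Bool r _ _ _ _).2 h5)
    (K₁ := Real.exp (2 * (C₀ + 1 + r))) (K₂ := Real.exp (2 * (r * τ)))
    (Real.one_le_exp (by positivity)) (Real.one_le_exp (by positivity))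
    (fun j _ z ω => by
      rw [hA1]
      have hb : ∀ ω, |gEn w C₀ τ (((d, i), lab) : Gd W K ι n) g ω| ≤ C₀ + 1 + r := fun ω =>
        (abs_gEn_le hC hw hτ0 _ g ω).trans (by nlinarith [hτ1.trans hτ₀1])
      have h5 := Gh.le_tau e hb j ω
      have h6 : Real.exp (2 * (C₀ + 1 + r)) * Real.exp (-(2 * (C₀ + 1 + r))) = 1 := by
        rw [← Real.exp_add]; simp
      have h7 := Gh.nonneg j z ω
      calc Gh.A j z ω = Real.exp (2 * (C₀ + 1 + r)) *
            (Gh.A j z ω * Real.exp (-(2 * (C₀ + 1 + r)))) := by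
            linear_combination (-Gh.A j z ω) * h6
        _ ≤ _ := mul_le_mul_of_nonneg_left (mul_le_mul_of_nonneg_left h5 h7) (Real.exp_pos _).le)
    (fun j _ z ω => by
      rw [hA2, mul_comm]
      exact mul_le_mul_of_nonneg_right (G2.tau_le e hv₁abs j ω) (G2.nonneg j z ω))
  refine ⟨ρ, h1, h2, fun z => (h3 z).trans ?_, h4.trans ?_⟩
  · linarith [Real.exp_pos (2 * C₀)]
  · exact add_le_add le_rfl (hsmall τ hτ0 hτ1)

end Crest.Agent.R141
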